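import Vale.Agent.P098.Six.S4.Root

/-!
# P098, six dimensions: checked pieces of the tree
-/

namespace Vale.Agent.P098.Six.S4

/-- A piece of the tree. -/
noncomputable def tree27 : Tree LeafX :=
  .s1
    (.leaf (.box ⟨2048, 3, -1958, 56, -95, 1044, 485657, 0, 0, 0, 0, 0, 0⟩ ⟨0, 0, 0, 0, 0, 0, 243825, 0, 0, 0, 0, 0, 0⟩ ⟨0, 0, 0, 0, 0, 0, 243825, 0, 0, 0, 0, 0, 0⟩ ⟨0, 0, 0, 0, 0, 0, 162773, 0, 0, 0, 0, 0, 0⟩ ⟨0, 0, 0, 0, 0, 0, 162773, 0, 0, 0, 0, 0, 0⟩ ⟨1815, 12, -2048, 199, -320, 878, 122163, 0, 0, 0, 0, 0, 0⟩))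
    (.s3
    (.leaf (.box ⟨1654, -1, -2048, 41, -73, 838, 462003, 0, 0, 0, 0, 0, 0⟩ ⟨0, 0, 0, 0, 0, 0, 249139, 0, 0, 0, 0, 0, 0⟩ ⟨0, 0, 0, 0, 0, 0, 249139, 0, 0, 0, 0, 0, 0⟩ ⟨0, 0, 0, 0, 0, 0, 170556, 0, 0, 0, 0, 0, 0⟩ ⟨0, 0, 0, 0, 0, 0, 170556, 0, 0, 0, 0, 0, 0⟩ ⟨1379, -4, -2048, 132, -216, 696, 129659, 0, 0, 0, 0, 0, 0⟩))
    (.s2
    (.leaf (.box ⟨1194, 1, -2048, 24, -54, 882, 601865, 0, 0, 0, 0, 0, 0⟩ ⟨0, 0, 0, 0, 0, 0, 256911, 0, 0, 0, 0, 0, 0⟩ ⟨0, 0, 0, 0, 0, 0, 256911, 0, 0, 0, 0, 0, 0⟩ ⟨0, 0, 0, 0, 0, 0, 163311, 0, 0, 0, 0, 0, 0⟩ ⟨0, 0, 0, 0, 0, 0, 163311, 0, 0, 0, 0, 0, 0⟩ ⟨1051, 4, -2048, 102, -197, 632, 119700, 0, 0, 0, 0, 0, 0⟩))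
    (.leaf (.box ⟨947, -2, -2048, 19, -41, 646, 600218, 0, 0, 0, 0, 0, 0⟩ ⟨0, 0, 0, 0, 0, 0, 256845, 0, 0, 0, 0, 0, 0⟩ ⟨0, 0, 0, 0, 0, 0, 256845, 0, 0, 0, 0, 0, 0⟩ ⟨0, 0, 0, 0, 0, 0, 163379, 0, 0, 0, 0, 0, 0⟩ ⟨0, 0, 0, 0, 0, 0, 163379, 0, 0, 0, 0, 0, 0⟩ ⟨883, -8, -2048, 83, -177, 561, 119788, 0, 0, 0, 0, 0, 0⟩))))

/-- A piece of the tree. -/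
noncomputable def tree28 : Tree LeafX :=
  .s1
    (.s2
    (.s0
    (.s1
    (.leaf (.box ⟨2048, -3, -1909, 15, -20, 469, 201769, 0, 0, 0, 0, 0, 0⟩ ⟨0, 0, 0, 0, 0, 0, 100570, 0, 0, 0, 0, 0, 0⟩ ⟨0, 0, 0, 0, 0, 0, 100570, 0, 0, 0, 0, 0, 0⟩ ⟨0, 0, 0, 0, 0, 0, 66977, 0, 0, 0, 0, 0, 0⟩ ⟨0, 0, 0, 0, 0, 0, 66977, 0, 0, 0, 0, 0, 0⟩ ⟨1780, -9, -2048, 48, -57, 349, 50206, 0, 0, 0, 0, 0, 0⟩))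
    (.leaf (.box ⟨2048, -6, -746, 17, -18, 378, 208344, 0, 0, 0, 0, 0, 0⟩ ⟨0, 0, 0, 0, 0, 0, 104609, 0, 0, 0, 0, 0, 0⟩ ⟨0, 0, 0, 0, 0, 0, 104609, 0, 0, 0, 0, 0, 0⟩ ⟨0, 0, 0, 0, 0, 0, 69837, 0, 0, 0, 0, 0, 0⟩ ⟨0, 0, 0, 0, 0, 0, 69837, 0, 0, 0, 0, 0, 0⟩ ⟨2048, -23, -1164, 63, -59, 335, 52414, 0, 0, 0, 0, 0, 0⟩)))
    (.s3
    (.leaf (.box ⟨2048, -6, -1448, 18, -14, 381, 213313, 0, 0, 0, 0, 0, 0⟩ ⟨0, 0, 0, 0, 0, 0, 113688, 0, 0, 0, 0, 0, 0⟩ ⟨0, 0, 0, 0, 0, 0, 113688, 0, 0, 0, 0, 0, 0⟩ ⟨0, 0, 0, 0, 0, 0, 77495, 0, 0, 0, 0, 0, 0⟩ ⟨0, 0, 0, 0, 0, 0, 77495, 0, 0, 0, 0, 0, 0⟩ ⟨2048, -24, -1755, 70, -57, 445, 58781, 0, 0, 0, 412422202, 0, 0⟩))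
    (.leaf (.box ⟨2048, -4, -1826, 14, -15, 485, 272785, 0, 0, 0, 0, 0, 0⟩ ⟨0, 0, 0, 0, 0, 0, 114852, 0, 0, 0, 0, 0, 0⟩ ⟨0, 0, 0, 0, 0, 0, 114852, 0, 0, 0, 0, 0, 0⟩ ⟨0, 0, 0, 0, 0, 0, 72739, 0, 0, 0, 0, 0, 0⟩ ⟨0, 0, 0, 0, 0, 0, 72739, 0, 0, 0, 0, 0, 0⟩ ⟨1847, -20, -2048, 69, -72, 497, 53223, 0, 0, 0, 0, 0, 0⟩))))
    (.s0
    (.s1
    (.leaf (.box ⟨1895, -7, -2048, 23, -4, 323, 167563, 0, 0, 0, 0, 0, 0⟩ ⟨0, 0, 0, 0, 0, 0, 83412, 0, 0, 0, 0, 0, 0⟩ ⟨0, 0, 0, 0, 0, 0, 83412, 0, 0, 0, 0, 0, 0⟩ ⟨0, 0, 0, 0, 0, 0, 55527, 0, 0, 0, 0, 0, 0⟩ ⟨0, 0, 0, 0, 0, 0, 55527, 0, 0, 0, 0, 0, 0⟩ ⟨1373, -22, -2048, 74, -10, 245, 41614, 0, 0, 0, 0, 0, 0⟩))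
    (.s2
    (.leaf (.box ⟨2048, -9, -1612, 17, -4, 324, 189769, 0, 0, 0, 0, 0, 0⟩ ⟨0, 0, 0, 0, 0, 0, 95471, 0, 0, 0, 0, 0, 0⟩ ⟨0, 0, 0, 0, 0, 0, 95471, 0, 0, 0, 0, 0, 0⟩ ⟨0, 0, 0, 0, 0, 0, 63779, 0, 0, 0, 0, 0, 0⟩ ⟨0, 0, 0, 0, 0, 0, 63779, 0, 0, 0, 0, 0, 0⟩ ⟨1986, -35, -2048, 64, -11, 299, 47883, 0, 0, 0, 0, 0, 0⟩))
    (.leaf (.box ⟨1765, -13, -2048, 20, 7, 253, 172010, 0, 0, 0, 0, 0, 0⟩ ⟨0, 0, 0, 0, 0, 0, 86996, 0, 0, 0, 0, 0, 0⟩ ⟨0, 0, 0, 0, 0, 0, 86996, 0, 0, 0, 0, 0, 0⟩ ⟨0, 0, 0, 0, 0, 0, 58221, 0, 0, 0, 0, 0, 0⟩ ⟨0, 0, 0, 0, 0, 0, 58221, 0, 0, 0, 0, 0, 0⟩ ⟨1326, -44, -2048, 65, 26, 204, 43750, 0, 0, 0, 0, 0, 0⟩))))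
    (.s1
    (.s1
    (.s0
    (.leaf (.box ⟨2048, -2, -1214, 13, 0, 335, 179623, 0, 0, 0, 0, 0, 0⟩ ⟨0, 0, 0, 0, 0, 0, 89738, 0, 0, 0, 0, 0, 0⟩ ⟨0, 0, 0, 0, 0, 0, 89738, 0, 0, 0, 0, 0, 0⟩ ⟨0, 0, 0, 0, 0, 0, 59809, 0, 0, 0, 0, 0, 0⟩ ⟨0, 0, 0, 0, 0, 0, 59809, 0, 0, 0, 0, 0, 0⟩ ⟨2048, -8, -1665, 47, 2, 314, 44850, 0, 0, 0, 0, 3220959741, 21996720874⟩))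
    (.leaf (.box ⟨2048, -2, -2, 14, 1, 325, 189703, 0, 0, 0, 0, 14499815772, 17023127615⟩ ⟨0, 0, 0, 0, 0, 0, 94867, 0, 0, 0, 0, 0, 0⟩ ⟨0, 0, 0, 0, 0, 0, 94867, 0, 0, 0, 0, 0, 0⟩ ⟨0, 0, 0, 0, 0, 0, 63248, 0, 0, 0, 0, 0, 0⟩ ⟨0, 0, 0, 0, 0, 0, 63248, 0, 0, 0, 0, 0, 0⟩ ⟨2048, -9, -105, 62, 4, 365, 47437, 0, 0, 0, 0, 22214677994, 22480239723⟩)))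
    (.leaf (.box ⟨2048, -6, -1471, 17, 0, 329, 187234, 0, 0, 0, 0, 0, 0⟩ ⟨0, 0, 0, 0, 0, 0, 94212, 0, 0, 0, 0, 0, 0⟩ ⟨0, 0, 0, 0, 0, 0, 94212, 0, 0, 0, 0, 0, 0⟩ ⟨0, 0, 0, 0, 0, 0, 62942, 0, 0, 0, 0, 0, 0⟩ ⟨0, 0, 0, 0, 0, 0, 62942, 0, 0, 0, 0, 0, 0⟩ ⟨2048, -27, -1941, 68, 3, 329, 47256, 0, 0, 0, 0, 0, 0⟩)))
    (.s2
    (.leaf (.box ⟨1192, -7, -2048, 15, -2, 350, 207589, 0, 0, 0, 0, 0, 0⟩ ⟨0, 0, 0, 0, 0, 0, 104638, 0, 0, 0, 0, 0, 0⟩ ⟨0, 0, 0, 0, 0, 0, 104638, 0, 0, 0, 0, 0, 0⟩ ⟨0, 0, 0, 0, 0, 0, 69948, 0, 0, 0, 0, 0, 0⟩ ⟨0, 0, 0, 0, 0, 0, 69948, 0, 0, 0, 0, 0, 0⟩ ⟨996, -23, -2048, 44, 0, 280, 52532, 0, 0, 0, 0, 0, 0⟩))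
    (.leaf (.box ⟨1466, -10, -2048, 18, 8, 276, 192813, 0, 0, 0, 0, 0, 0⟩ ⟨0, 0, 0, 0, 0, 0, 97419, 0, 0, 0, 0, 0, 0⟩ ⟨0, 0, 0, 0, 0, 0, 97419, 0, 0, 0, 0, 0, 0⟩ ⟨0, 0, 0, 0, 0, 0, 65174, 0, 0, 0, 0, 0, 0⟩ ⟨0, 0, 0, 0, 0, 0, 65174, 0, 0, 0, 0, 0, 0⟩ ⟨1238, -34, -2048, 60, 30, 234, 48966, 0, 0, 193117816, 0, 0, 0⟩))))))
    (.s0
    (.s2
    (.leaf (.box ⟨2048, -2, 420, 16, -13, 269, 204348, 0, 0, 0, 0, 0, 0⟩ ⟨0, 0, 0, 0, 0, 0, 101845, 0, 0, 0, 0, 0, 0⟩ ⟨0, 0, 0, 0, 0, 0, 101845, 0, 0, 0, 0, 0, 0⟩ ⟨0, 0, 0, 0, 0, 0, 67824, 0, 0, 0, 0, 0, 0⟩ ⟨0, 0, 0, 0, 0, 0, 67824, 0, 0, 0, 0, 0, 0⟩ ⟨2048, -8, 67, 64, -49, 263, 50840, 0, 0, 0, 0, 0, 0⟩))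
    (.s3
    (.leaf (.box ⟨2048, -10, -599, 23, 6, 165, 163787, 0, 0, 0, 0, 0, 0⟩ ⟨0, 0, 0, 0, 0, 0, 87850, 0, 0, 0, 0, 0, 0⟩ ⟨0, 0, 0, 0, 0, 0, 87850, 0, 0, 0, 0, 0, 0⟩ ⟨0, 0, 0, 0, 0, 0, 60022, 0, 0, 0, 0, 0, 0⟩ ⟨0, 0, 0, 0, 0, 0, 60022, 0, 0, 0, 0, 0, 0⟩ ⟨2048, -41, -704, 87, 26, 180, 45582, 0, 0, 0, 0, 0, 0⟩))
    (.leaf (.box ⟨2048, -8, -562, 19, 4, 190, 210095, 0, 0, 0, 0, 0, 0⟩ ⟨0, 0, 0, 0, 0, 0, 89324, 0, 0, 0, 0, 0, 0⟩ ⟨0, 0, 0, 0, 0, 0, 89324, 0, 0, 0, 0, 0, 0⟩ ⟨0, 0, 0, 0, 0, 0, 56720, 0, 0, 0, 0, 0, 0⟩ ⟨0, 0, 0, 0, 0, 0, 56720, 0, 0, 0, 0, 0, 0⟩ ⟨2048, -40, -892, 94, 25, 191, 41552, 0, 0, 0, 0, 0, 0⟩))))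
    (.s2
    (.s1
    (.leaf (.box ⟨2048, -8, -1857, 21, -17, 550, 229347, 0, 0, 0, 0, 0, 0⟩ ⟨0, 0, 0, 0, 0, 0, 115497, 0, 0, 0, 0, 0, 0⟩ ⟨0, 0, 0, 0, 0, 0, 115497, 0, 0, 0, 0, 0, 0⟩ ⟨0, 0, 0, 0, 0, 0, 77183, 0, 0, 0, 0, 0, 0⟩ ⟨0, 0, 0, 0, 0, 0, 77183, 0, 0, 0, 0, 0, 0⟩ ⟨1836, -26, -2048, 68, -52, 444, 57956, 0, 0, 0, 0, 0, 0⟩))
    (.leaf (.box ⟨2048, -4, -986, 20, -13, 493, 231554, 0, 0, 0, 0, 0, 0⟩ ⟨0, 0, 0, 0, 0, 0, 116175, 0, 0, 0, 0, 0, 0⟩ ⟨0, 0, 0, 0, 0, 0, 116175, 0, 0, 0, 0, 0, 0⟩ ⟨0, 0, 0, 0, 0, 0, 77539, 0, 0, 0, 0, 0, 0⟩ ⟨0, 0, 0, 0, 0, 0, 77539, 0, 0, 0, 0, 0, 0⟩ ⟨2048, -13, -1408, 73, -45, 444, 58187, 0, 0, 0, 0, 0, 0⟩)))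
    (.s2
    (.s1
    (.leaf (.box ⟨1171, -7, -2048, 14, 3, 326, 213434, 0, 0, 0, 0, 0, 0⟩ ⟨0, 0, 0, 0, 0, 0, 107774, 0, 0, 0, 0, 0, 0⟩ ⟨0, 0, 0, 0, 0, 0, 107774, 0, 0, 0, 0, 0, 0⟩ ⟨0, 0, 0, 0, 0, 0, 72088, 0, 0, 0, 0, 0, 0⟩ ⟨0, 0, 0, 0, 0, 0, 72088, 0, 0, 0, 0, 0, 0⟩ ⟨911, -22, -2048, 44, 15, 266, 54155, 0, 0, 0, 0, 0, 0⟩))
    (.leaf (.box ⟨1756, -5, -2048, 16, 9, 379, 215741, 0, 0, 0, 0, 0, 0⟩ ⟨0, 0, 0, 0, 0, 0, 108615, 0, 0, 0, 0, 0, 0⟩ ⟨0, 0, 0, 0, 0, 0, 108615, 0, 0, 0, 0, 0, 0⟩ ⟨0, 0, 0, 0, 0, 0, 72577, 0, 0, 0, 0, 0, 0⟩ ⟨0, 0, 0, 0, 0, 0, 72577, 0, 0, 0, 0, 0, 0⟩ ⟨1343, -17, -2048, 50, 32, 305, 54495, 0, 0, 0, 0, 0, 0⟩)))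
    (.leaf (.box ⟨1207, -9, -2048, 19, 16, 239, 199405, 0, 0, 0, 0, 0, 0⟩ ⟨0, 0, 0, 0, 0, 0, 101025, 0, 0, 0, 0, 0, 0⟩ ⟨0, 0, 0, 0, 0, 0, 101025, 0, 0, 0, 0, 0, 0⟩ ⟨0, 0, 0, 0, 0, 0, 67649, 0, 0, 0, 0, 0, 0⟩ ⟨0, 0, 0, 0, 0, 0, 67649, 0, 0, 0, 0, 0, 0⟩ ⟨998, -31, -2048, 65, 60, 215, 50849, 0, 0, 0, 0, 0, 0⟩)))))

/-- A piece of the tree. -/
noncomputable def tree29 : Tree LeafX :=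
  .s1
    (.s2
    (.leaf (.box ⟨2048, 0, 584, 31, -25, 442, 237187, 0, 0, 0, 0, 0, 0⟩ ⟨0, 0, 0, 0, 0, 0, 118397, 0, 0, 0, 0, 0, 0⟩ ⟨0, 0, 0, 0, 0, 0, 118397, 0, 0, 0, 0, 0, 0⟩ ⟨0, 0, 0, 0, 0, 0, 78888, 0, 0, 0, 0, 0, 0⟩ ⟨0, 0, 0, 0, 0, 0, 78888, 0, 0, 0, 0, 0, 0⟩ ⟨2048, -1, 271, 114, -86, 372, 59149, 0, 0, 0, 0, 0, 0⟩))
    (.s2
    (.leaf (.box ⟨2048, -3, 877, 26, -8, 347, 220696, 0, 0, 0, 0, 0, 0⟩ ⟨0, 0, 0, 0, 0, 0, 110339, 0, 0, 0, 0, 0, 0⟩ ⟨0, 0, 0, 0, 0, 0, 110339, 0, 0, 0, 0, 0, 0⟩ ⟨0, 0, 0, 0, 0, 0, 73558, 0, 0, 0, 0, 0, 0⟩ ⟨0, 0, 0, 0, 0, 0, 73558, 0, 0, 0, 0, 0, 0⟩ ⟨2048, -11, 596, 90, -28, 303, 55167, 0, 0, 0, 0, 0, 0⟩))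
    (.s2
    (.leaf (.box ⟨2048, -4, 1021, 23, -1, 301, 212520, 0, 0, 0, 0, 0, 0⟩ ⟨0, 0, 0, 0, 0, 0, 106324, 0, 0, 0, 0, 0, 0⟩ ⟨0, 0, 0, 0, 0, 0, 106324, 0, 0, 0, 0, 0, 0⟩ ⟨0, 0, 0, 0, 0, 0, 70897, 0, 0, 0, 0, 0, 0⟩ ⟨0, 0, 0, 0, 0, 0, 70897, 0, 0, 0, 0, 0, 0⟩ ⟨2048, -16, 773, 86, -4, 270, 53178, 0, 0, 0, 0, 0, 0⟩))
    (.s0
    (.s3
    (.leaf (.box ⟨2048, -4, 993, 16, 3, 320, 204440, 0, 0, 0, 0, 34439701286, 8079909469⟩ ⟨0, 0, 0, 0, 0, 0, 109219, 0, 0, 0, 0, 0, 0⟩ ⟨0, 0, 0, 0, 0, 0, 109219, 0, 0, 0, 0, 0, 0⟩ ⟨0, 0, 0, 0, 0, 0, 74513, 0, 0, 0, 0, 0, 0⟩ ⟨0, 0, 0, 0, 0, 0, 74513, 0, 0, 0, 0, 0, 0⟩ ⟨2048, -13, 875, 51, 10, 272, 56545, 0, 0, 0, 0, 28415997487, 3921039179⟩))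
    (.leaf (.box ⟨2048, -3, 813, 14, 2, 354, 261727, 0, 0, 0, 0, 39803109715, 8381238826⟩ ⟨0, 0, 0, 0, 0, 0, 110596, 0, 0, 0, 0, 0, 0⟩ ⟨0, 0, 0, 0, 0, 0, 110596, 0, 0, 0, 0, 0, 0⟩ ⟨0, 0, 0, 0, 0, 0, 70111, 0, 0, 0, 0, 0, 0⟩ ⟨0, 0, 0, 0, 0, 0, 70111, 0, 0, 0, 0, 0, 0⟩ ⟨2048, -13, 747, 57, 11, 280, 51323, 0, 0, 0, 0, 27834162412, 4002822478⟩)))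
    (.leaf (.box ⟨1798, -6, 2048, 28, 3, 422, 252142, 0, 0, 0, 0, 109032660811, 0⟩ ⟨0, 0, 0, 0, 0, 0, 126774, 0, 0, 0, 0, 0, 0⟩ ⟨0, 0, 0, 0, 0, 0, 126774, 0, 0, 0, 0, 0, 0⟩ ⟨0, 0, 0, 0, 0, 0, 84674, 0, 0, 0, 0, 0, 0⟩ ⟨0, 0, 0, 0, 0, 0, 84674, 0, 0, 0, 0, 0, 0⟩ ⟨2048, -26, 1991, 118, 15, 446, 63564, 0, 0, 0, 0, 137805385022, 0⟩))))))
    (.s2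
    (.leaf (.box ⟨2048, -7, -289, 37, -29, 449, 246374, 0, 0, 0, 0, 0, 0⟩ ⟨0, 0, 0, 0, 0, 0, 123952, 0, 0, 0, 0, 0, 0⟩ ⟨0, 0, 0, 0, 0, 0, 123952, 0, 0, 0, 0, 0, 0⟩ ⟨0, 0, 0, 0, 0, 0, 82807, 0, 0, 0, 0, 0, 0⟩ ⟨0, 0, 0, 0, 0, 0, 82807, 0, 0, 0, 0, 0, 0⟩ ⟨2048, -30, -755, 151, -112, 444, 62169, 0, 0, 0, 0, 0, 0⟩))
    (.s2
    (.leaf (.box ⟨2048, -6, -202, 22, -15, 345, 232007, 0, 0, 0, 0, 0, 0⟩ ⟨0, 0, 0, 0, 0, 0, 116946, 0, 0, 0, 0, 0, 0⟩ ⟨0, 0, 0, 0, 0, 0, 116946, 0, 0, 0, 0, 0, 0⟩ ⟨0, 0, 0, 0, 0, 0, 78176, 0, 0, 0, 0, 0, 0⟩ ⟨0, 0, 0, 0, 0, 0, 78176, 0, 0, 0, 0, 0, 0⟩ ⟨2048, -22, -390, 81, -52, 324, 58711, 0, 0, 0, 0, 0, 0⟩))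
    (.s2
    (.leaf (.box ⟨2048, -5, -168, 18, -8, 308, 225275, 0, 0, 0, 0, 0, 0⟩ ⟨0, 0, 0, 0, 0, 0, 113680, 0, 0, 0, 0, 0, 0⟩ ⟨0, 0, 0, 0, 0, 0, 113680, 0, 0, 0, 0, 0, 0⟩ ⟨0, 0, 0, 0, 0, 0, 76021, 0, 0, 0, 0, 0, 0⟩ ⟨0, 0, 0, 0, 0, 0, 76021, 0, 0, 0, 0, 0, 0⟩ ⟨2048, -20, -321, 67, -29, 292, 57104, 0, 0, 0, 0, 0, 0⟩))
    (.s2
    (.leaf (.box ⟨2048, -5, -151, 17, -5, 289, 222021, 0, 0, 0, 0, 0, 0⟩ ⟨0, 0, 0, 0, 0, 0, 112107, 0, 0, 0, 0, 0, 0⟩ ⟨0, 0, 0, 0, 0, 0, 112107, 0, 0, 0, 0, 0, 0⟩ ⟨0, 0, 0, 0, 0, 0, 74985, 0, 0, 0, 0, 0, 0⟩ ⟨0, 0, 0, 0, 0, 0, 74985, 0, 0, 0, 0, 0, 0⟩ ⟨2048, -20, -286, 64, -18, 276, 56331, 0, 0, 0, 0, 0, 0⟩))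
    (.s0
    (.leaf (.box ⟨2048, -7, -1011, 18, 1, 381, 218844, 0, 0, 0, 0, 71313042982, 0⟩ ⟨0, 0, 0, 0, 0, 0, 110574, 0, 0, 0, 0, 0, 0⟩ ⟨0, 0, 0, 0, 0, 0, 110574, 0, 0, 0, 0, 0, 0⟩ ⟨0, 0, 0, 0, 0, 0, 73975, 0, 0, 0, 0, 0, 0⟩ ⟨0, 0, 0, 0, 0, 0, 73975, 0, 0, 0, 0, 0, 0⟩ ⟨2048, -22, -651, 55, 8, 304, 55579, 0, 0, 0, 0, 43730368686, 0⟩))
    (.leaf (.box ⟨2048, -4, 411, 14, -13, 565, 262680, 0, 0, 0, 0, 268772630402, 0⟩ ⟨0, 0, 0, 0, 0, 0, 132849, 0, 0, 0, 0, 0, 0⟩ ⟨0, 0, 0, 0, 0, 0, 132849, 0, 0, 0, 0, 0, 0⟩ ⟨0, 0, 0, 0, 0, 0, 88907, 0, 0, 0, 0, 0, 0⟩ ⟨0, 0, 0, 0, 0, 0, 88907, 0, 0, 0, 0, 0, 0⟩ ⟨2048, -14, 186, 49, -45, 530, 66808, 0, 0, 0, 0, 243342854623, 0⟩)))))))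

/-- A piece of the tree. -/
noncomputable def tree30 : Tree LeafX :=
  .s0
    (.s2
    (.s1
    (.leaf (.box ⟨1654, -8, -2048, 25, -25, 623, 250751, 0, 0, 0, 0, 0, 0⟩ ⟨0, 0, 0, 0, 0, 0, 126326, 0, 0, 0, 0, 0, 0⟩ ⟨0, 0, 0, 0, 0, 0, 126326, 0, 0, 0, 0, 0, 0⟩ ⟨0, 0, 0, 0, 0, 0, 84431, 0, 0, 0, 0, 0, 0⟩ ⟨0, 0, 0, 0, 0, 0, 84431, 0, 0, 0, 0, 0, 0⟩ ⟨1323, -26, -2048, 77, -73, 481, 63403, 0, 0, 0, 0, 0, 0⟩))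
    (.leaf (.box ⟨1432, -5, -2048, 23, -17, 567, 252081, 0, 0, 0, 0, 0, 0⟩ ⟨0, 0, 0, 0, 0, 0, 126404, 0, 0, 0, 0, 0, 0⟩ ⟨0, 0, 0, 0, 0, 0, 126404, 0, 0, 0, 0, 0, 0⟩ ⟨0, 0, 0, 0, 0, 0, 84351, 0, 0, 0, 0, 0, 0⟩ ⟨0, 0, 0, 0, 0, 0, 84351, 0, 0, 0, 0, 0, 0⟩ ⟨1127, -16, -2048, 70, -50, 442, 63293, 0, 0, 0, 0, 0, 0⟩)))
    (.s2
    (.s1
    (.leaf (.box ⟨1561, -7, -2048, 21, -5, 453, 237587, 0, 0, 0, 0, 0, 0⟩ ⟨0, 0, 0, 0, 0, 0, 119943, 0, 0, 0, 0, 0, 0⟩ ⟨0, 0, 0, 0, 0, 0, 119943, 0, 0, 0, 0, 0, 0⟩ ⟨0, 0, 0, 0, 0, 0, 80221, 0, 0, 0, 0, 0, 0⟩ ⟨0, 0, 0, 0, 0, 0, 80221, 0, 0, 0, 0, 0, 0⟩ ⟨1290, -25, -2048, 69, -14, 372, 60263, 0, 0, 0, 0, 0, 0⟩))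
    (.leaf (.box ⟨970, -4, -2048, 17, 2, 370, 239562, 0, 0, 0, 0, 0, 0⟩ ⟨0, 0, 0, 0, 0, 0, 120390, 0, 0, 0, 0, 0, 0⟩ ⟨0, 0, 0, 0, 0, 0, 120390, 0, 0, 0, 0, 0, 0⟩ ⟨0, 0, 0, 0, 0, 0, 80396, 0, 0, 0, 0, 0, 0⟩ ⟨0, 0, 0, 0, 0, 0, 80396, 0, 0, 0, 0, 0, 0⟩ ⟨807, -15, -2048, 56, 10, 312, 60348, 0, 0, 0, 0, 0, 0⟩)))
    (.leaf (.box ⟨1473, -8, -2048, 27, 9, 327, 226235, 0, 0, 0, 0, 0, 0⟩ ⟨0, 0, 0, 0, 0, 0, 114499, 0, 0, 0, 0, 0, 0⟩ ⟨0, 0, 0, 0, 0, 0, 114499, 0, 0, 0, 0, 0, 0⟩ ⟨0, 0, 0, 0, 0, 0, 76645, 0, 0, 0, 0, 0, 0⟩ ⟨0, 0, 0, 0, 0, 0, 76645, 0, 0, 0, 0, 0, 0⟩ ⟨1322, -29, -2048, 90, 35, 288, 57601, 0, 0, 0, 0, 0, 0⟩))))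
    (.s1
    (.s0
    (.leaf (.box ⟨2048, -11, -1755, 45, -30, 726, 265534, 0, 0, 0, 0, 0, 0⟩ ⟨0, 0, 0, 0, 0, 0, 133891, 0, 0, 0, 0, 0, 0⟩ ⟨0, 0, 0, 0, 0, 0, 133891, 0, 0, 0, 0, 0, 0⟩ ⟨0, 0, 0, 0, 0, 0, 89514, 0, 0, 0, 0, 0, 0⟩ ⟨0, 0, 0, 0, 0, 0, 89514, 0, 0, 0, 0, 0, 0⟩ ⟨1904, -41, -2048, 161, -104, 666, 67230, 0, 0, 0, 0, 0, 0⟩))
    (.s2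
    (.leaf (.box ⟨2048, -6, -1356, 36, -72, 1134, 301374, 0, 0, 0, 0, 0, 0⟩ ⟨0, 0, 0, 0, 0, 0, 151521, 0, 0, 0, 0, 0, 0⟩ ⟨0, 0, 0, 0, 0, 0, 151521, 0, 0, 0, 0, 0, 0⟩ ⟨0, 0, 0, 0, 0, 0, 101200, 0, 0, 0, 0, 0, 0⟩ ⟨0, 0, 0, 0, 0, 0, 101200, 0, 0, 0, 0, 0, 0⟩ ⟨2048, -22, -1696, 127, -244, 983, 75970, 0, 0, 0, 0, 0, 0⟩))
    (.s2
    (.leaf (.box ⟨2048, -5, -1498, 24, -48, 1034, 294901, 0, 0, 0, 0, 0, 0⟩ ⟨0, 0, 0, 0, 0, 0, 148453, 0, 0, 0, 0, 0, 0⟩ ⟨0, 0, 0, 0, 0, 0, 148453, 0, 0, 0, 0, 0, 0⟩ ⟨0, 0, 0, 0, 0, 0, 99193, 0, 0, 0, 0, 0, 0⟩ ⟨0, 0, 0, 0, 0, 0, 99193, 0, 0, 0, 0, 0, 0⟩ ⟨2048, -19, -1825, 88, -167, 930, 74479, 0, 0, 0, 0, 0, 0⟩))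
    (.s2
    (.leaf (.box ⟨2048, -5, -1591, 22, -35, 994, 292599, 0, 0, 0, 0, 0, 0⟩ ⟨0, 0, 0, 0, 0, 0, 147395, 0, 0, 0, 0, 0, 0⟩ ⟨0, 0, 0, 0, 0, 0, 147395, 0, 0, 0, 0, 0, 0⟩ ⟨0, 0, 0, 0, 0, 0, 98509, 0, 0, 0, 0, 0, 0⟩ ⟨0, 0, 0, 0, 0, 0, 98509, 0, 0, 0, 0, 0, 0⟩ ⟨2048, -17, -1867, 75, -123, 907, 73974, 0, 0, 0, 0, 0, 0⟩))
    (.leaf (.box ⟨2048, -5, -1632, 23, -26, 956, 290921, 0, 0, 0, 0, 395045171200, 0⟩ ⟨0, 0, 0, 0, 0, 0, 146654, 0, 0, 0, 0, 0, 0⟩ ⟨0, 0, 0, 0, 0, 0, 146654, 0, 0, 0, 0, 0, 0⟩ ⟨0, 0, 0, 0, 0, 0, 98038, 0, 0, 0, 0, 0, 0⟩ ⟨0, 0, 0, 0, 0, 0, 98038, 0, 0, 0, 0, 0, 0⟩ ⟨2048, -19, -1859, 82, -90, 879, 73629, 0, 0, 0, 0, 309356635176, 0⟩))))))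
    (.s2
    (.s2
    (.leaf (.box ⟨1364, -4, -2048, 23, -41, 775, 288033, 0, 0, 0, 0, 0, 0⟩ ⟨0, 0, 0, 0, 0, 0, 144354, 0, 0, 0, 0, 0, 0⟩ ⟨0, 0, 0, 0, 0, 0, 144354, 0, 0, 0, 0, 0, 0⟩ ⟨0, 0, 0, 0, 0, 0, 96311, 0, 0, 0, 0, 0, 0⟩ ⟨0, 0, 0, 0, 0, 0, 96311, 0, 0, 0, 0, 0, 0⟩ ⟨1194, -15, -2048, 84, -143, 697, 72261, 0, 0, 0, 0, 0, 0⟩))
    (.leaf (.box ⟨1307, -4, -2048, 22, -28, 666, 276796, 0, 0, 0, 0, 0, 0⟩ ⟨0, 0, 0, 0, 0, 0, 138803, 0, 0, 0, 0, 0, 0⟩ ⟨0, 0, 0, 0, 0, 0, 138803, 0, 0, 0, 0, 0, 0⟩ ⟨0, 0, 0, 0, 0, 0, 92626, 0, 0, 0, 0, 0, 0⟩ ⟨0, 0, 0, 0, 0, 0, 92626, 0, 0, 0, 0, 0, 0⟩ ⟨1345, -11, -2048, 62, -75, 461, 69503, 0, 0, 0, 0, 0, 0⟩)))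
    (.leaf (.box ⟨1709, -6, -2048, 36, -9, 526, 262545, 0, 0, 0, 0, 0, 0⟩ ⟨0, 0, 0, 0, 0, 0, 131814, 0, 0, 0, 0, 0, 0⟩ ⟨0, 0, 0, 0, 0, 0, 131814, 0, 0, 0, 0, 0, 0⟩ ⟨0, 0, 0, 0, 0, 0, 87997, 0, 0, 0, 0, 0, 0⟩ ⟨0, 0, 0, 0, 0, 0, 87997, 0, 0, 0, 0, 0, 0⟩ ⟨1369, -19, -2048, 115, -29, 453, 66043, 0, 0, 0, 0, 0, 0⟩))))

/-- A piece of the tree. -/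
noncomputable def tree31 : Tree LeafX :=
  .s0
    (.s0
    (.leaf (.box ⟨2048, 0, 572, 24, 0, 104, 157412, 0, 0, 0, 0, 0, 0⟩ ⟨0, 0, 0, 0, 0, 0, 78478, 0, 0, 0, 0, 0, 0⟩ ⟨0, 0, 0, 0, 0, 0, 78478, 0, 0, 0, 0, 0, 0⟩ ⟨0, 0, 0, 0, 0, 0, 52268, 0, 0, 0, 0, 0, 0⟩ ⟨0, 0, 0, 0, 0, 0, 52268, 0, 0, 0, 0, 0, 0⟩ ⟨2048, 2, 412, 96, -2, 102, 39182, 0, 0, 0, 0, 0, 0⟩))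
    (.leaf (.box ⟨2048, -3, -219, 31, 3, 198, 202852, 0, 0, 0, 0, 0, 0⟩ ⟨0, 0, 0, 0, 0, 0, 102115, 0, 0, 0, 0, 0, 0⟩ ⟨0, 0, 0, 0, 0, 0, 102115, 0, 0, 0, 0, 0, 0⟩ ⟨0, 0, 0, 0, 0, 0, 68231, 0, 0, 0, 0, 0, 0⟩ ⟨0, 0, 0, 0, 0, 0, 68231, 0, 0, 0, 0, 0, 0⟩ ⟨2048, -11, -448, 125, 14, 203, 51231, 0, 0, 0, 0, 0, 0⟩)))
    (.s1
    (.s2
    (.s0
    (.leaf (.box ⟨2048, 0, -1337, 20, -10, 493, 251428, 0, 0, 0, 0, 0, 0⟩ ⟨0, 0, 0, 0, 0, 0, 125621, 0, 0, 0, 0, 0, 0⟩ ⟨0, 0, 0, 0, 0, 0, 125621, 0, 0, 0, 0, 0, 0⟩ ⟨0, 0, 0, 0, 0, 0, 83727, 0, 0, 0, 0, 0, 0⟩ ⟨0, 0, 0, 0, 0, 0, 83727, 0, 0, 0, 0, 0, 0⟩ ⟨2048, -1, -1762, 73, -36, 458, 62787, 0, 0, 0, 0, 0, 0⟩))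
    (.s1
    (.s2
    (.leaf (.box ⟨677, -2, -2048, 15, -25, 605, 284425, 0, 0, 0, 0, 0, 0⟩ ⟨0, 0, 0, 0, 0, 0, 142234, 0, 0, 0, 0, 0, 0⟩ ⟨0, 0, 0, 0, 0, 0, 142234, 0, 0, 0, 0, 0, 0⟩ ⟨0, 0, 0, 0, 0, 0, 94827, 0, 0, 0, 0, 0, 0⟩ ⟨0, 0, 0, 0, 0, 0, 94827, 0, 0, 0, 0, 0, 0⟩ ⟨707, -5, -2048, 47, -81, 487, 71122, 0, 0, 0, 0, 0, 0⟩))
    (.leaf (.box ⟨705, -2, -2048, 17, -15, 514, 272949, 0, 0, 0, 0, 0, 0⟩ ⟨0, 0, 0, 0, 0, 0, 136517, 0, 0, 0, 0, 0, 0⟩ ⟨0, 0, 0, 0, 0, 0, 136517, 0, 0, 0, 0, 0, 0⟩ ⟨0, 0, 0, 0, 0, 0, 91021, 0, 0, 0, 0, 0, 0⟩ ⟨0, 0, 0, 0, 0, 0, 91021, 0, 0, 0, 0, 0, 0⟩ ⟨720, -5, -2048, 52, -47, 422, 68269, 0, 0, 0, 0, 0, 0⟩)))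
    (.leaf (.box ⟨1155, -1, -2048, 19, -14, 509, 269993, 0, 0, 0, 0, 0, 0⟩ ⟨0, 0, 0, 0, 0, 0, 134821, 0, 0, 0, 0, 0, 0⟩ ⟨0, 0, 0, 0, 0, 0, 134821, 0, 0, 0, 0, 0, 0⟩ ⟨0, 0, 0, 0, 0, 0, 89841, 0, 0, 0, 0, 0, 0⟩ ⟨0, 0, 0, 0, 0, 0, 89841, 0, 0, 0, 0, 0, 0⟩ ⟨845, -2, -2048, 60, -46, 410, 67366, 0, 0, 0, 0, 0, 0⟩))))
    (.s2
    (.leaf (.box ⟨1416, -1, -2048, 25, 4, 398, 239340, 0, 0, 0, 0, 0, 0⟩ ⟨0, 0, 0, 0, 0, 0, 119808, 0, 0, 0, 0, 0, 0⟩ ⟨0, 0, 0, 0, 0, 0, 119808, 0, 0, 0, 0, 0, 0⟩ ⟨0, 0, 0, 0, 0, 0, 79903, 0, 0, 0, 0, 0, 0⟩ ⟨0, 0, 0, 0, 0, 0, 79903, 0, 0, 0, 0, 0, 0⟩ ⟨1504, -5, -2048, 99, 18, 394, 59938, 0, 0, 0, 0, 0, 0⟩))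
    (.leaf (.box ⟨1364, -1, -2048, 28, 15, 315, 229869, 0, 0, 0, 0, 0, 0⟩ ⟨0, 0, 0, 0, 0, 0, 115293, 0, 0, 0, 0, 0, 0⟩ ⟨0, 0, 0, 0, 0, 0, 115293, 0, 0, 0, 0, 0, 0⟩ ⟨0, 0, 0, 0, 0, 0, 76942, 0, 0, 0, 0, 0, 0⟩ ⟨0, 0, 0, 0, 0, 0, 76942, 0, 0, 0, 0, 0, 0⟩ ⟨1236, -4, -2048, 102, 53, 284, 57736, 0, 0, 0, 0, 0, 0⟩))))
    (.leaf (.box ⟨2048, -1, -1129, 32, 2, 241, 230862, 0, 0, 0, 0, 0, 0⟩ ⟨0, 0, 0, 0, 0, 0, 115689, 0, 0, 0, 0, 0, 0⟩ ⟨0, 0, 0, 0, 0, 0, 115689, 0, 0, 0, 0, 0, 0⟩ ⟨0, 0, 0, 0, 0, 0, 77184, 0, 0, 0, 0, 0, 0⟩ ⟨0, 0, 0, 0, 0, 0, 77184, 0, 0, 0, 0, 0, 0⟩ ⟨2048, -4, -1368, 128, 6, 238, 57909, 0, 0, 0, 0, 0, 0⟩)))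

/-- A piece of the tree. -/
noncomputable def tree32 : Tree LeafX :=
  .s1
    (.leaf (.box ⟨2048, 34, 1245, 264, -24, 643, 338422, 0, 0, 0, 0, 0, 0⟩ ⟨0, 0, 0, 0, 0, 0, 170257, 0, 0, 0, 0, 0, 0⟩ ⟨0, 0, 0, 0, 0, 0, 170257, 0, 0, 0, 0, 0, 0⟩ ⟨0, 0, 0, 0, 0, 0, 113739, 0, 0, 0, 0, 0, 0⟩ ⟨0, 0, 0, 0, 0, 0, 113739, 0, 0, 0, 0, 0, 0⟩ ⟨2048, 122, 1152, 868, -75, 519, 85392, 0, 0, 0, 0, 0, 0⟩))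
    (.s0
    (.leaf (.box ⟨2048, -3, -657, 61, -68, 764, 316729, 0, 0, 0, 0, 0, 0⟩ ⟨2048, -5, -937, 115, -125, 784, 176402, 0, 0, 0, 0, 0, 0⟩ ⟨2048, -5, -937, 115, -125, 784, 176402, 0, 0, 0, 0, 0, 0⟩ ⟨2048, -11, -935, 252, -96, 731, 114137, 0, 0, 0, 0, 0, 0⟩ ⟨2048, -11, -935, 252, -96, 731, 114137, 0, 0, 0, 0, 0, 0⟩ ⟨2048, -14, -940, 325, -148, 688, 79573, 0, 0, 0, 0, 0, 0⟩))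
    (.leaf (.box ⟨2048, 6, -103, 98, -79, 981, 472545, 0, 0, 0, 0, 0, 0⟩ ⟨0, 0, 0, 0, 0, 0, 235776, 0, 0, 0, 0, 0, 0⟩ ⟨0, 0, 0, 0, 0, 0, 235776, 0, 0, 0, 0, 0, 0⟩ ⟨0, 0, 0, 0, 0, 0, 157074, 0, 0, 0, 0, 0, 0⟩ ⟨0, 0, 0, 0, 0, 0, 157074, 0, 0, 0, 0, 0, 0⟩ ⟨2048, 24, -45, 343, -271, 840, 117764, 0, 0, 0, 0, 0, 0⟩)))

/-- A piece of the tree. -/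
noncomputable def tree33 : Tree LeafX :=
  .s0
    (.leaf (.box ⟨2048, -8, 494, 82, -18, 385, 314049, 0, 0, 0, 0, 0, 0⟩ ⟨0, 0, 0, 0, 0, 0, 157532, 0, 0, 0, 0, 0, 0⟩ ⟨0, 0, 0, 0, 0, 0, 157532, 0, 0, 0, 0, 0, 0⟩ ⟨0, 0, 0, 0, 0, 0, 105135, 0, 0, 0, 0, 0, 0⟩ ⟨0, 0, 0, 0, 0, 0, 105135, 0, 0, 0, 0, 0, 0⟩ ⟨2048, -31, 364, 307, -68, 367, 78893, 0, 0, 0, 0, 0, 0⟩))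
    (.leaf (.box ⟨2048, -7, 404, 178, 5, 476, 480047, 0, 0, 0, 0, 0, 0⟩ ⟨0, 0, 0, 0, 0, 0, 240735, 0, 0, 0, 0, 0, 0⟩ ⟨0, 0, 0, 0, 0, 0, 240735, 0, 0, 0, 0, 0, 0⟩ ⟨0, 0, 0, 0, 0, 0, 160649, 0, 0, 0, 0, 0, 0⟩ ⟨0, 0, 0, 0, 0, 0, 160649, 0, 0, 0, 0, 0, 0⟩ ⟨2048, -28, 565, 694, 17, 468, 120546, 0, 0, 0, 0, 0, 0⟩))

/-- A piece of the tree. -/
noncomputable def tree34 : Tree LeafX :=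
  .s2
    (.leaf (.box ⟨2048, -12, 363, 76, -9, 320, 313786, 0, 0, 0, 0, 0, 0⟩ ⟨0, 0, 0, 0, 0, 0, 157407, 0, 0, 0, 0, 0, 0⟩ ⟨0, 0, 0, 0, 0, 0, 157407, 0, 0, 0, 0, 0, 0⟩ ⟨0, 0, 0, 0, 0, 0, 105052, 0, 0, 0, 0, 0, 0⟩ ⟨0, 0, 0, 0, 0, 0, 105052, 0, 0, 0, 0, 0, 0⟩ ⟨2048, -49, 358, 303, -36, 325, 78832, 0, 0, 0, 0, 0, 0⟩))
    (.s2
    (.s0
    (.s1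
    (.leaf (.box ⟨2048, -10, 1503, 47, -3, 440, 329862, 0, 0, 0, 0, 0, 0⟩ ⟨0, 0, 0, 0, 0, 0, 166841, 0, 0, 0, 0, 0, 0⟩ ⟨0, 0, 0, 0, 0, 0, 166841, 0, 0, 0, 0, 0, 0⟩ ⟨0, 0, 0, 0, 0, 0, 111658, 0, 0, 0, 0, 0, 0⟩ ⟨0, 0, 0, 0, 0, 0, 111658, 0, 0, 0, 0, 0, 0⟩ ⟨2048, -40, 1494, 184, -9, 449, 83906, 0, 0, 0, 0, 0, 0⟩))
    (.leaf (.box ⟨2048, -5, -1154, 29, -33, 770, 313821, 0, 0, 0, 0, 0, 0⟩ ⟨0, 0, 0, 0, 0, 0, 157424, 0, 0, 0, 0, 0, 0⟩ ⟨0, 0, 0, 0, 0, 0, 157424, 0, 0, 0, 0, 0, 0⟩ ⟨0, 0, 0, 0, 0, 0, 105064, 0, 0, 0, 0, 0, 0⟩ ⟨0, 0, 0, 0, 0, 0, 105064, 0, 0, 0, 0, 0, 0⟩ ⟨2048, -16, -1222, 100, -116, 688, 78841, 0, 0, 0, 0, 0, 0⟩)))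
    (.s1
    (.leaf (.box ⟨2048, -12, 740, 55, 9, 390, 419473, 0, 0, 0, 0, 183668911791, 0⟩ ⟨0, 0, 0, 0, 0, 0, 212239, 0, 0, 0, 0, 0, 0⟩ ⟨0, 0, 0, 0, 0, 0, 212239, 0, 0, 0, 0, 0, 0⟩ ⟨0, 0, 0, 0, 0, 0, 142058, 0, 0, 0, 0, 0, 0⟩ ⟨0, 0, 0, 0, 0, 0, 142058, 0, 0, 0, 0, 0, 0⟩ ⟨2048, -64, 1874, 295, 46, 543, 106756, 0, 0, 0, 0, 419687237207, 0⟩))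
    (.s1
    (.leaf (.box ⟨2048, -7, 15, 36, -55, 1288, 404667, 0, 0, 0, 0, 1746477819274, 0⟩ ⟨0, 0, 0, 0, 0, 0, 204084, 0, 0, 0, 0, 0, 0⟩ ⟨0, 0, 0, 0, 0, 0, 204084, 0, 0, 0, 0, 0, 0⟩ ⟨0, 0, 0, 0, 0, 0, 136450, 0, 0, 0, 0, 0, 0⟩ ⟨0, 0, 0, 0, 0, 0, 136450, 0, 0, 0, 0, 0, 0⟩ ⟨2048, -25, -230, 136, -216, 1272, 102485, 0, 0, 0, 0, 1620418226933, 0⟩))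
    (.leaf (.box ⟨1360, -2, -2048, 18, -62, 1137, 389989, 0, 0, 0, 0, 1099117327559, 0⟩ ⟨0, 0, 0, 0, 0, 0, 195838, 0, 0, 0, 0, 0, 0⟩ ⟨0, 0, 0, 0, 0, 0, 195838, 0, 0, 0, 0, 0, 0⟩ ⟨0, 0, 0, 0, 0, 0, 130747, 0, 0, 0, 0, 0, 0⟩ ⟨0, 0, 0, 0, 0, 0, 130747, 0, 0, 0, 0, 0, 0⟩ ⟨1517, -8, -2048, 67, -231, 1064, 98131, 0, 0, 0, 0, 995257715003, 0⟩)))))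
    (.s0
    (.s1
    (.leaf (.box ⟨2048, -11, 1466, 44, 0, 407, 328446, 0, 0, 0, 0, 224079661004, 0⟩ ⟨0, 0, 0, 0, 0, 0, 166021, 0, 0, 0, 0, 0, 0⟩ ⟨0, 0, 0, 0, 0, 0, 166021, 0, 0, 0, 0, 0, 0⟩ ⟨0, 0, 0, 0, 0, 0, 111086, 0, 0, 0, 0, 0, 0⟩ ⟨0, 0, 0, 0, 0, 0, 111086, 0, 0, 0, 0, 0, 0⟩ ⟨2048, -43, 1468, 177, 0, 418, 83467, 0, 0, 0, 0, 245230207179, 0⟩))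
    (.leaf (.box ⟨2048, -5, -1169, 30, -30, 756, 314009, 0, 0, 0, 0, 716521876844, 0⟩ ⟨0, 0, 0, 0, 0, 0, 157521, 0, 0, 0, 0, 0, 0⟩ ⟨0, 0, 0, 0, 0, 0, 157521, 0, 0, 0, 0, 0, 0⟩ ⟨0, 0, 0, 0, 0, 0, 105129, 0, 0, 0, 0, 0, 0⟩ ⟨0, 0, 0, 0, 0, 0, 105129, 0, 0, 0, 0, 0, 0⟩ ⟨2048, -17, -1214, 102, -103, 674, 78890, 0, 0, 0, 0, 619013263107, 0⟩)))
    (.leaf (.skip 8 0))))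

/-- A piece of the tree. -/
noncomputable def tree35 : Tree LeafX :=
  .s2
    (.s3
    (.s3
    (.s1
    (.s1
    (.leaf (.skip 0 8))
    (.leaf (.box ⟨2048, -30, 1617, 197, 58, 1160, 537660, 0, 0, 0, 0, 2121108042646, 0⟩ ⟨0, 0, 0, 0, 0, 0, 299578, 0, 0, 0, 0, 0, 0⟩ ⟨0, 0, 0, 0, 0, 0, 299578, 0, 0, 0, 0, 0, 0⟩ ⟨0, 0, 0, 0, 0, 0, 207634, 0, 0, 0, 0, 0, 0⟩ ⟨0, 0, 0, 0, 0, 0, 207634, 0, 0, 0, 0, 0, 0⟩ ⟨1775, -98, 2048, 630, 180, 1119, 158874, 0, 0, 0, 0, 1825856181845, 0⟩)))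
    (.s0
    (.leaf (.box ⟨2048, -10, -863, 76, -46, 1109, 491617, 0, 0, 0, 0, 869375943778, 0⟩ ⟨0, 0, 0, 0, 0, 0, 272689, 0, 0, 0, 0, 0, 0⟩ ⟨0, 0, 0, 0, 0, 0, 272689, 0, 0, 0, 0, 0, 0⟩ ⟨0, 0, 0, 0, 0, 0, 188670, 0, 0, 0, 0, 0, 0⟩ ⟨0, 0, 0, 0, 0, 0, 188670, 0, 0, 0, 0, 0, 0⟩ ⟨2048, -32, -742, 251, -157, 1100, 144230, 0, 0, 0, 0, 838546344744, 0⟩))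
    (.s1
    (.leaf (.box ⟨2048, -17, -824, 125, 16, 1683, 659759, 0, 0, 0, 0, 4968206178518, 0⟩ ⟨0, 0, 0, 0, 0, 0, 366864, 0, 0, 0, 0, 0, 0⟩ ⟨0, 0, 0, 0, 0, 0, 366864, 0, 0, 0, 0, 0, 0⟩ ⟨0, 0, 0, 0, 0, 0, 254071, 0, 0, 0, 0, 0, 0⟩ ⟨0, 0, 0, 0, 0, 0, 254071, 0, 0, 0, 0, 0, 0⟩ ⟨2048, -56, -239, 420, 46, 1700, 194325, 0, 0, 0, 0, 5077273132407, 0⟩))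
    (.leaf (.box ⟨1152, -6, -2048, 54, -31, 1120, 634171, 0, 0, 0, 0, 1676745347357, 0⟩ ⟨0, 0, 0, 0, 0, 0, 352008, 0, 0, 0, 0, 0, 0⟩ ⟨0, 0, 0, 0, 0, 0, 352008, 0, 0, 0, 0, 0, 0⟩ ⟨0, 0, 0, 0, 0, 0, 243616, 0, 0, 0, 0, 0, 0⟩ ⟨0, 0, 0, 0, 0, 0, 243616, 0, 0, 0, 0, 0, 0⟩ ⟨1220, -21, -2048, 201, -120, 1253, 186261, 0, 0, 0, 0, 1990531405358, 0⟩)))))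
    (.s1
    (.leaf (.box ⟨2048, -20, 842, 135, 44, 510, 605497, 0, 0, 0, 0, 390611154696, 0⟩ ⟨0, 0, 0, 0, 0, 0, 302846, 0, 0, 0, 0, 0, 0⟩ ⟨0, 0, 0, 0, 0, 0, 302846, 0, 0, 0, 0, 0, 0⟩ ⟨0, 0, 0, 0, 0, 0, 201919, 0, 0, 0, 0, 0, 0⟩ ⟨0, 0, 0, 0, 0, 0, 201919, 0, 0, 0, 0, 0, 0⟩ ⟨2048, -103, 2002, 679, 223, 666, 151447, 0, 0, 0, 0, 627735718985, 0⟩))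
    (.s0
    (.leaf (.box ⟨2048, -9, -1002, 68, -41, 1143, 552551, 0, 0, 0, 0, 848219564970, 0⟩ ⟨0, 0, 0, 0, 0, 0, 274940, 0, 0, 0, 0, 0, 0⟩ ⟨0, 0, 0, 0, 0, 0, 274940, 0, 0, 0, 0, 0, 0⟩ ⟨0, 0, 0, 0, 0, 0, 182998, 0, 0, 0, 0, 0, 0⟩ ⟨0, 0, 0, 0, 0, 0, 182998, 0, 0, 0, 0, 0, 0⟩ ⟨2048, -34, -855, 266, -166, 1129, 137138, 0, 0, 0, 0, 830363229430, 0⟩))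
    (.leaf (.box ⟨2048, -11, -1402, 92, -8, 1058, 712903, 0, 0, 0, 0, 1415416350657, 0⟩ ⟨0, 0, 0, 0, 0, 0, 355044, 0, 0, 0, 0, 0, 0⟩ ⟨0, 0, 0, 0, 0, 0, 355044, 0, 0, 0, 0, 0, 0⟩ ⟨0, 0, 0, 0, 0, 0, 236385, 0, 0, 0, 0, 0, 0⟩ ⟨0, 0, 0, 0, 0, 0, 236385, 0, 0, 0, 0, 0, 0⟩ ⟨2048, -46, -980, 384, -38, 1126, 177172, 0, 0, 0, 0, 1645669380408, 0⟩)))))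
    (.s1
    (.leaf (.box ⟨2048, -22, 1506, 144, 48, 645, 691623, 0, 0, 0, 0, 597701016272, 0⟩ ⟨0, 0, 0, 0, 0, 0, 295761, 0, 0, 0, 0, 0, 0⟩ ⟨0, 0, 0, 0, 0, 0, 295761, 0, 0, 0, 0, 0, 0⟩ ⟨0, 0, 0, 0, 0, 0, 188100, 0, 0, 0, 0, 0, 0⟩ ⟨0, 0, 0, 0, 0, 0, 188100, 0, 0, 0, 0, 0, 0⟩ ⟨2048, -104, 1903, 679, 223, 617, 137901, 0, 0, 0, 0, 475911493890, 0⟩))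
    (.s0
    (.leaf (.box ⟨2048, -8, -1173, 59, -35, 1146, 630490, 0, 0, 0, 0, 757738149570, 0⟩ ⟨0, 0, 0, 0, 0, 0, 267896, 0, 0, 0, 0, 0, 0⟩ ⟨0, 0, 0, 0, 0, 0, 267896, 0, 0, 0, 0, 0, 0⟩ ⟨0, 0, 0, 0, 0, 0, 170082, 0, 0, 0, 0, 0, 0⟩ ⟨0, 0, 0, 0, 0, 0, 170082, 0, 0, 0, 0, 0, 0⟩ ⟨2048, -36, -983, 282, -173, 1113, 124591, 0, 0, 0, 0, 725826423742, 0⟩))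
    (.leaf (.box ⟨2048, -10, -1423, 86, -7, 1158, 813604, 0, 0, 0, 0, 1532781448286, 0⟩ ⟨0, 0, 0, 0, 0, 0, 346083, 0, 0, 0, 0, 0, 0⟩ ⟨0, 0, 0, 0, 0, 0, 346083, 0, 0, 0, 0, 0, 0⟩ ⟨0, 0, 0, 0, 0, 0, 219787, 0, 0, 0, 0, 0, 0⟩ ⟨0, 0, 0, 0, 0, 0, 219787, 0, 0, 0, 0, 0, 0⟩ ⟨2048, -48, -930, 398, -38, 1091, 161024, 0, 0, 0, 0, 1439685741841, 0⟩)))))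
    (.s1
    (.leaf (.box ⟨2048, -34, 711, 136, 62, 422, 539012, 0, 0, 0, 0, 703331315875, 0⟩ ⟨0, 0, 0, 0, 0, 0, 273058, 0, 0, 0, 0, 0, 0⟩ ⟨0, 0, 0, 0, 0, 0, 273058, 0, 0, 0, 0, 0, 0⟩ ⟨0, 0, 0, 0, 0, 0, 182842, 0, 0, 0, 0, 0, 0⟩ ⟨0, 0, 0, 0, 0, 0, 182842, 0, 0, 0, 0, 0, 0⟩ ⟨2048, -154, 1518, 621, 214, 470, 137434, 0, 0, 0, 0, 939206096860, 0⟩))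
    (.leaf (.box ⟨2048, -25, -1187, 152, -9, 876, 499496, 0, 0, 0, 0, 2441374830506, 0⟩ ⟨0, 0, 0, 0, 0, 0, 251286, 0, 0, 0, 0, 0, 0⟩ ⟨0, 0, 0, 0, 0, 0, 251286, 0, 0, 0, 0, 0, 0⟩ ⟨0, 0, 0, 0, 0, 0, 167869, 0, 0, 0, 0, 0, 0⟩ ⟨0, 0, 0, 0, 0, 0, 167869, 0, 0, 0, 0, 0, 0⟩ ⟨2048, -103, -975, 628, -43, 941, 126031, 0, 0, 0, 0, 2919917500494, 0⟩)))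

/-- A piece of the tree. -/
noncomputable def tree36 : Tree LeafX :=
  .s2
    (.s0
    (.s0
    (.s1
    (.s3
    (.leaf (.box ⟨1120, -2, -2048, 25, -42, 722, 307641, 0, 0, 0, 0, 0, 0⟩ ⟨0, 0, 0, 0, 0, 0, 164234, 0, 0, 0, 0, 0, 0⟩ ⟨0, 0, 0, 0, 0, 0, 164234, 0, 0, 0, 0, 0, 0⟩ ⟨0, 0, 0, 0, 0, 0, 112018, 0, 0, 0, 0, 0, 0⟩ ⟨0, 0, 0, 0, 0, 0, 112018, 0, 0, 0, 0, 0, 0⟩ ⟨1085, -6, -2048, 76, -128, 610, 84994, 0, 0, 0, 0, 0, 0⟩))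
    (.leaf (.box ⟨900, -1, -2048, 17, -28, 648, 393706, 0, 0, 0, 0, 0, 0⟩ ⟨0, 0, 0, 0, 0, 0, 166181, 0, 0, 0, 0, 0, 0⟩ ⟨0, 0, 0, 0, 0, 0, 166181, 0, 0, 0, 0, 0, 0⟩ ⟨0, 0, 0, 0, 0, 0, 105318, 0, 0, 0, 0, 0, 0⟩ ⟨0, 0, 0, 0, 0, 0, 105318, 0, 0, 0, 0, 0, 0⟩ ⟨979, -5, -2048, 65, -110, 496, 77085, 0, 0, 0, 0, 0, 0⟩)))
    (.leaf (.box ⟨729, -1, -2048, 17, -24, 512, 300316, 0, 0, 0, 0, 0, 0⟩ ⟨0, 0, 0, 0, 0, 0, 150056, 0, 0, 0, 0, 0, 0⟩ ⟨0, 0, 0, 0, 0, 0, 150056, 0, 0, 0, 0, 0, 0⟩ ⟨0, 0, 0, 0, 0, 0, 100015, 0, 0, 0, 0, 0, 0⟩ ⟨0, 0, 0, 0, 0, 0, 100015, 0, 0, 0, 0, 0, 0⟩ ⟨751, -4, -2048, 60, -88, 474, 75002, 0, 0, 0, 0, 0, 0⟩)))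
    (.s1
    (.leaf (.box ⟨1404, -1, -2048, 32, -68, 894, 364001, 0, 0, 0, 0, 0, 0⟩ ⟨0, 0, 0, 0, 0, 0, 182378, 0, 0, 0, 0, 0, 0⟩ ⟨0, 0, 0, 0, 0, 0, 182378, 0, 0, 0, 0, 0, 0⟩ ⟨0, 0, 0, 0, 0, 0, 121669, 0, 0, 0, 0, 0, 0⟩ ⟨0, 0, 0, 0, 0, 0, 121669, 0, 0, 0, 0, 0, 0⟩ ⟨1372, -5, -2048, 114, -231, 769, 91283, 0, 0, 0, 0, 0, 0⟩))
    (.leaf (.box ⟨946, -1, -2048, 19, -40, 602, 350844, 0, 0, 0, 0, 0, 0⟩ ⟨0, 0, 0, 0, 0, 0, 175811, 0, 0, 0, 0, 0, 0⟩ ⟨0, 0, 0, 0, 0, 0, 175811, 0, 0, 0, 0, 0, 0⟩ ⟨0, 0, 0, 0, 0, 0, 117294, 0, 0, 0, 0, 0, 0⟩ ⟨0, 0, 0, 0, 0, 0, 117294, 0, 0, 0, 0, 0, 0⟩ ⟨901, -5, -2048, 89, -127, 548, 88003, 0, 0, 0, 0, 0, 0⟩))))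
    (.leaf (.box ⟨1990, 0, -2048, 67, -93, 966, 420674, 0, 0, 0, 0, 0, 0⟩ ⟨0, 0, 0, 0, 0, 0, 211068, 0, 0, 0, 0, 0, 0⟩ ⟨0, 0, 0, 0, 0, 0, 211068, 0, 0, 0, 0, 0, 0⟩ ⟨0, 0, 0, 0, 0, 0, 140875, 0, 0, 0, 0, 0, 0⟩ ⟨0, 0, 0, 0, 0, 0, 140875, 0, 0, 0, 0, 0, 0⟩ ⟨2029, 0, -2048, 252, -337, 879, 105717, 0, 0, 0, 0, 0, 0⟩)))
    (.s2
    (.s0
    (.leaf (.box ⟨1186, -1, -2048, 37, -33, 589, 297343, 0, 0, 0, 0, 0, 0⟩ ⟨0, 0, 0, 0, 0, 0, 148055, 0, 0, 0, 0, 0, 0⟩ ⟨0, 0, 0, 0, 0, 0, 148055, 0, 0, 0, 0, 0, 0⟩ ⟨0, 0, 0, 0, 0, 0, 98567, 0, 0, 0, 0, 0, 0⟩ ⟨0, 0, 0, 0, 0, 0, 98567, 0, 0, 0, 0, 0, 0⟩ ⟨1231, -5, -2048, 124, -110, 492, 73874, 0, 0, 0, 0, 0, 0⟩))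
    (.leaf (.box ⟨1062, -1, -2048, 24, -56, 700, 439889, 0, 0, 0, 0, 0, 0⟩ ⟨0, 0, 0, 0, 0, 0, 220469, 0, 0, 0, 0, 0, 0⟩ ⟨0, 0, 0, 0, 0, 0, 220469, 0, 0, 0, 0, 0, 0⟩ ⟨0, 0, 0, 0, 0, 0, 147097, 0, 0, 0, 0, 0, 0⟩ ⟨0, 0, 0, 0, 0, 0, 147097, 0, 0, 0, 0, 0, 0⟩ ⟨1102, -4, -2048, 89, -214, 674, 110366, 0, 0, 0, 0, 0, 0⟩)))
    (.s0
    (.s2
    (.leaf (.box ⟨1201, -1, -2048, 38, -27, 561, 297141, 0, 0, 0, 0, 0, 0⟩ ⟨0, 0, 0, 0, 0, 0, 147665, 0, 0, 0, 0, 0, 0⟩ ⟨0, 0, 0, 0, 0, 0, 147665, 0, 0, 0, 0, 0, 0⟩ ⟨0, 0, 0, 0, 0, 0, 98244, 0, 0, 0, 0, 0, 0⟩ ⟨0, 0, 0, 0, 0, 0, 98244, 0, 0, 0, 0, 0, 0⟩ ⟨1306, -3, -2048, 138, -98, 509, 73608, 0, 0, 0, 0, 0, 0⟩))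
    (.leaf (.box ⟨1285, -1, -2048, 41, -23, 546, 297237, 0, 0, 0, 0, 169581212885, 0⟩ ⟨0, 0, 0, 0, 0, 0, 147583, 0, 0, 0, 0, 0, 0⟩ ⟨0, 0, 0, 0, 0, 0, 147583, 0, 0, 0, 0, 0, 0⟩ ⟨0, 0, 0, 0, 0, 0, 98161, 0, 0, 0, 0, 0, 0⟩ ⟨0, 0, 0, 0, 0, 0, 98161, 0, 0, 0, 0, 0, 0⟩ ⟨1372, -2, -2048, 150, -85, 501, 73535, 0, 0, 0, 0, 160409185287, 0⟩)))
    (.s2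
    (.s2
    (.leaf (.box ⟨837, -1, -2048, 23, -45, 635, 460058, 0, 0, 0, 0, 0, 0⟩ ⟨0, 0, 0, 0, 0, 0, 230179, 0, 0, 0, 0, 0, 0⟩ ⟨0, 0, 0, 0, 0, 0, 230179, 0, 0, 0, 0, 0, 0⟩ ⟨0, 0, 0, 0, 0, 0, 153486, 0, 0, 0, 0, 0, 0⟩ ⟨0, 0, 0, 0, 0, 0, 153486, 0, 0, 0, 0, 0, 0⟩ ⟨866, -5, -2048, 85, -176, 624, 115127, 0, 0, 0, 0, 0, 0⟩))
    (.s0
    (.leaf (.box ⟨779, -1, -2048, 12, -40, 630, 466200, 0, 0, 0, 0, 276626066872, 0⟩ ⟨0, 0, 0, 0, 0, 0, 233128, 0, 0, 0, 0, 0, 0⟩ ⟨0, 0, 0, 0, 0, 0, 233128, 0, 0, 0, 0, 0, 0⟩ ⟨0, 0, 0, 0, 0, 0, 155425, 0, 0, 0, 0, 0, 0⟩ ⟨0, 0, 0, 0, 0, 0, 155425, 0, 0, 0, 0, 0, 0⟩ ⟨802, -2, -2048, 40, -155, 607, 116571, 0, 0, 0, 0, 260501342198, 0⟩))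
    (.leaf (.box ⟨742, -1, -2048, 21, -32, 603, 612250, 0, 0, 0, 0, 468857066815, 0⟩ ⟨0, 0, 0, 0, 0, 0, 306964, 0, 0, 0, 0, 0, 0⟩ ⟨0, 0, 0, 0, 0, 0, 306964, 0, 0, 0, 0, 0, 0⟩ ⟨0, 0, 0, 0, 0, 0, 204830, 0, 0, 0, 0, 0, 0⟩ ⟨0, 0, 0, 0, 0, 0, 204830, 0, 0, 0, 0, 0, 0⟩ ⟨756, -5, -2048, 78, -130, 609, 153692, 0, 0, 0, 0, 507349774174, 0⟩))))
    (.leaf (.skip 8 0)))))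

/-- A piece of the tree. -/
noncomputable def tree37 : Tree LeafX :=
  .s0
    (.s0
    (.leaf (.box ⟨898, -1, -2048, 28, -11, 386, 289410, 0, 0, 0, 0, 0, 0⟩ ⟨0, 0, 0, 0, 0, 0, 143966, 0, 0, 0, 0, 0, 0⟩ ⟨0, 0, 0, 0, 0, 0, 143966, 0, 0, 0, 0, 0, 0⟩ ⟨0, 0, 0, 0, 0, 0, 95814, 0, 0, 0, 0, 0, 0⟩ ⟨0, 0, 0, 0, 0, 0, 95814, 0, 0, 0, 0, 0, 0⟩ ⟨677, -2, -2048, 87, -36, 324, 71799, 0, 0, 0, 0, 0, 0⟩))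
    (.s1
    (.leaf (.box ⟨691, -1, -2048, 20, -25, 458, 340490, 0, 0, 0, 0, 0, 0⟩ ⟨0, 0, 0, 0, 0, 0, 170827, 0, 0, 0, 0, 0, 0⟩ ⟨0, 0, 0, 0, 0, 0, 170827, 0, 0, 0, 0, 0, 0⟩ ⟨0, 0, 0, 0, 0, 0, 114014, 0, 0, 0, 0, 0, 0⟩ ⟨0, 0, 0, 0, 0, 0, 114014, 0, 0, 0, 0, 0, 0⟩ ⟨676, -2, -2048, 68, -90, 415, 85559, 0, 0, 0, 0, 0, 0⟩))
    (.leaf (.box ⟨431, -1, -2048, 16, -21, 400, 334815, 0, 0, 0, 0, 0, 0⟩ ⟨0, 0, 0, 0, 0, 0, 168707, 0, 0, 0, 0, 0, 0⟩ ⟨0, 0, 0, 0, 0, 0, 168707, 0, 0, 0, 0, 0, 0⟩ ⟨0, 0, 0, 0, 0, 0, 112763, 0, 0, 0, 0, 0, 0⟩ ⟨0, 0, 0, 0, 0, 0, 112763, 0, 0, 0, 0, 0, 0⟩ ⟨425, -4, -2048, 55, -74, 365, 84682, 0, 0, 0, 0, 0, 0⟩))))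
    (.s0
    (.s0
    (.leaf (.box ⟨853, -1, -2048, 11, -31, 457, 393177, 0, 0, 0, 0, 0, 0⟩ ⟨0, 0, 0, 0, 0, 0, 198983, 0, 0, 0, 0, 0, 0⟩ ⟨0, 0, 0, 0, 0, 0, 198983, 0, 0, 0, 0, 0, 0⟩ ⟨0, 0, 0, 0, 0, 0, 133196, 0, 0, 0, 0, 0, 0⟩ ⟨0, 0, 0, 0, 0, 0, 133196, 0, 0, 0, 0, 0, 0⟩ ⟨868, -2, -2048, 39, -107, 406, 100101, 0, 0, 0, 0, 0, 0⟩))
    (.leaf (.box ⟨948, -1, -2048, 13, -36, 474, 433377, 0, 0, 0, 0, 0, 0⟩ ⟨0, 0, 0, 0, 0, 0, 219469, 0, 0, 0, 0, 0, 0⟩ ⟨0, 0, 0, 0, 0, 0, 219469, 0, 0, 0, 0, 0, 0⟩ ⟨0, 0, 0, 0, 0, 0, 146942, 0, 0, 0, 0, 0, 0⟩ ⟨0, 0, 0, 0, 0, 0, 146942, 0, 0, 0, 0, 0, 0⟩ ⟨824, -3, -2048, 46, -140, 479, 110443, 0, 0, 0, 0, 0, 0⟩)))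
    (.s2
    (.leaf (.box ⟨1018, -2, -2048, 24, -46, 550, 484466, 0, 0, 0, 0, 0, 0⟩ ⟨0, 0, 0, 0, 0, 0, 245346, 0, 0, 0, 0, 0, 0⟩ ⟨0, 0, 0, 0, 0, 0, 245346, 0, 0, 0, 0, 0, 0⟩ ⟨0, 0, 0, 0, 0, 0, 164268, 0, 0, 0, 0, 0, 0⟩ ⟨0, 0, 0, 0, 0, 0, 164268, 0, 0, 0, 0, 0, 0⟩ ⟨1014, -7, -2048, 88, -166, 507, 123466, 0, 0, 0, 0, 0, 0⟩))
    (.s2
    (.leaf (.box ⟨510, -1, -2048, 9, -35, 472, 548934, 0, 0, 0, 0, 0, 0⟩ ⟨0, 0, 0, 0, 0, 0, 276723, 0, 0, 0, 0, 0, 0⟩ ⟨0, 0, 0, 0, 0, 0, 276723, 0, 0, 0, 0, 0, 0⟩ ⟨0, 0, 0, 0, 0, 0, 184989, 0, 0, 0, 0, 0, 0⟩ ⟨0, 0, 0, 0, 0, 0, 184989, 0, 0, 0, 0, 0, 0⟩ ⟨529, -2, -2048, 32, -132, 452, 138932, 0, 0, 0, 0, 0, 0⟩))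
    (.leaf (.box ⟨356, 0, -2048, 11, -32, 452, 596002, 0, 0, 0, 0, 56769786709, 0⟩ ⟨0, 0, 0, 0, 0, 0, 298965, 0, 0, 0, 0, 0, 0⟩ ⟨0, 0, 0, 0, 0, 0, 298965, 0, 0, 0, 0, 0, 0⟩ ⟨0, 0, 0, 0, 0, 0, 199525, 0, 0, 0, 0, 0, 0⟩ ⟨0, 0, 0, 0, 0, 0, 199525, 0, 0, 0, 0, 0, 0⟩ ⟨351, -2, -2048, 38, -122, 439, 149724, 0, 0, 0, 0, 65121101569, 0⟩)))))

/-- A piece of the tree. -/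
noncomputable def tree38 : Tree LeafX :=
  .s1
    (.s2
    (.leaf (.box ⟨2048, -26, 43, 55, -12, 276, 249580, 0, 0, 0, 0, 0, 0⟩ ⟨0, 0, 0, 0, 0, 0, 127335, 0, 0, 0, 0, 0, 0⟩ ⟨0, 0, 0, 0, 0, 0, 127335, 0, 0, 0, 0, 0, 0⟩ ⟨0, 0, 0, 0, 0, 0, 85471, 0, 0, 0, 0, 0, 0⟩ ⟨0, 0, 0, 0, 0, 0, 85471, 0, 0, 0, 0, 0, 0⟩ ⟨2048, -97, -64, 203, -40, 249, 64323, 0, 0, 0, 0, 0, 0⟩))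
    (.s2
    (.leaf (.box ⟨2048, -44, 357, 51, -17, 227, 242549, 0, 0, 0, 0, 0, 0⟩ ⟨0, 0, 0, 0, 0, 0, 122972, 0, 0, 0, 0, 0, 0⟩ ⟨0, 0, 0, 0, 0, 0, 122972, 0, 0, 0, 0, 0, 0⟩ ⟨0, 0, 0, 0, 0, 0, 82366, 0, 0, 0, 0, 0, 0⟩ ⟨0, 0, 0, 0, 0, 0, 82366, 0, 0, 0, 0, 0, 0⟩ ⟨2048, -170, 174, 188, -55, 193, 61919, 0, 0, 0, 0, 0, 0⟩))
    (.leaf (.box ⟨2048, -47, 511, 43, -16, 175, 231893, 0, 0, 0, 0, 0, 0⟩ ⟨0, 0, 0, 0, 0, 0, 116578, 0, 0, 0, 0, 0, 0⟩ ⟨0, 0, 0, 0, 0, 0, 116578, 0, 0, 0, 0, 0, 0⟩ ⟨0, 0, 0, 0, 0, 0, 77860, 0, 0, 0, 0, 0, 0⟩ ⟨0, 0, 0, 0, 0, 0, 77860, 0, 0, 0, 0, 0, 0⟩ ⟨2048, -176, 261, 151, -46, 132, 58448, 0, 0, 0, 0, 0, 0⟩))))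
    (.s1
    (.s2
    (.leaf (.box ⟨2048, -127, -392, 83, 18, 270, 249916, 0, 0, 0, 0, 0, 0⟩ ⟨0, 0, 0, 0, 0, 0, 127795, 0, 0, 0, 0, 0, 0⟩ ⟨0, 0, 0, 0, 0, 0, 127795, 0, 0, 0, 0, 0, 0⟩ ⟨0, 0, 0, 0, 0, 0, 85847, 0, 0, 0, 0, 0, 0⟩ ⟨0, 0, 0, 0, 0, 0, 85847, 0, 0, 0, 0, 0, 0⟩ ⟨2048, -378, -630, 229, 59, 187, 64631, 0, 0, 0, 0, 0, 0⟩))
    (.leaf (.box ⟨2048, -216, 162, 88, 6, 199, 240424, 0, 0, 0, 0, 0, 0⟩ ⟨0, 0, 0, 0, 0, 0, 123407, 0, 0, 0, 0, 0, 0⟩ ⟨0, 0, 0, 0, 0, 0, 123407, 0, 0, 0, 0, 0, 0⟩ ⟨0, 0, 0, 0, 0, 0, 83007, 0, 0, 0, 0, 0, 0⟩ ⟨0, 0, 0, 0, 0, 0, 83007, 0, 0, 0, 0, 0, 0⟩ ⟨2048, -683, -328, 243, 38, 142, 62534, 0, 0, 0, 0, 0, 0⟩)))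
    (.s0
    (.s0
    (.s0
    (.s1
    (.s2
    (.leaf (.box ⟨1715, -87, 2048, 121, 136, 444, 258625, 0, 0, 0, 0, 0, 0⟩ ⟨0, 0, 0, 0, 0, 0, 131585, 0, 0, 0, 0, 0, 0⟩ ⟨0, 0, 0, 0, 0, 0, 131585, 0, 0, 0, 0, 0, 0⟩ ⟨0, 0, 0, 0, 0, 0, 88240, 0, 0, 0, 0, 0, 0⟩ ⟨0, 0, 0, 0, 0, 0, 88240, 0, 0, 0, 0, 0, 0⟩ ⟨2048, -206, 673, 272, 350, 269, 66375, 0, 0, 0, 0, 0, 0⟩))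
    (.leaf (.box ⟨1850, -173, 2048, 134, 203, 448, 255602, 0, 0, 0, 0, 0, 0⟩ ⟨0, 0, 0, 0, 0, 0, 130836, 0, 0, 0, 0, 0, 0⟩ ⟨0, 0, 0, 0, 0, 0, 130836, 0, 0, 0, 0, 0, 0⟩ ⟨0, 0, 0, 0, 0, 0, 87920, 0, 0, 0, 0, 0, 0⟩ ⟨0, 0, 0, 0, 0, 0, 87920, 0, 0, 0, 0, 0, 0⟩ ⟨2048, -500, -31, 343, 567, 305, 66204, 0, 0, 0, 0, 0, 0⟩)))
    (.s2
    (.leaf (.box ⟨1395, 35, 2048, 114, 128, 279, 269753, 0, 0, 0, 0, 0, 0⟩ ⟨0, 0, 0, 0, 0, 0, 133869, 0, 0, 0, 0, 0, 0⟩ ⟨0, 0, 0, 0, 0, 0, 133869, 0, 0, 0, 0, 0, 0⟩ ⟨0, 0, 0, 0, 0, 0, 89024, 0, 0, 0, 0, 0, 0⟩ ⟨0, 0, 0, 0, 0, 0, 89024, 0, 0, 0, 0, 0, 0⟩ ⟨2048, 112, 1260, 361, 391, 211, 66685, 0, 0, 0, 0, 0, 0⟩))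
    (.leaf (.box ⟨1563, -29, 2048, 152, 250, 352, 265519, 0, 0, 0, 0, 0, 0⟩ ⟨0, 0, 0, 0, 0, 0, 132919, 0, 0, 0, 0, 0, 0⟩ ⟨0, 0, 0, 0, 0, 0, 132919, 0, 0, 0, 0, 0, 0⟩ ⟨0, 0, 0, 0, 0, 0, 88648, 0, 0, 0, 0, 0, 0⟩ ⟨0, 0, 0, 0, 0, 0, 88648, 0, 0, 0, 0, 0, 0⟩ ⟨2048, -79, 503, 385, 630, 221, 66499, 0, 0, 0, 0, 0, 0⟩))))
    (.leaf (.box ⟨2048, -178, 1156, 187, 127, 340, 269798, 0, 0, 30207618132, 0, 0, 0⟩ ⟨0, 0, 0, 0, 0, 0, 136434, 0, 0, 0, 0, 0, 0⟩ ⟨0, 0, 0, 0, 0, 0, 136434, 0, 0, 0, 0, 0, 0⟩ ⟨0, 0, 0, 0, 0, 0, 91302, 0, 0, 0, 0, 0, 0⟩ ⟨0, 0, 0, 0, 0, 0, 91302, 0, 0, 0, 0, 0, 0⟩ ⟨2048, -367, 113, 368, 255, 166, 68607, 0, 0, 0, 0, 0, 0⟩)))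
    (.leaf (.box ⟨2048, -268, 229, 165, 94, 361, 280231, 0, 0, 0, 0, 0, 0⟩ ⟨0, 0, 0, 0, 0, 0, 141594, 0, 0, 0, 0, 0, 0⟩ ⟨0, 0, 0, 0, 0, 0, 141594, 0, 0, 0, 0, 0, 0⟩ ⟨0, 0, 0, 0, 0, 0, 94729, 0, 0, 0, 0, 0, 0⟩ ⟨0, 0, 0, 0, 0, 0, 94729, 0, 0, 0, 0, 0, 0⟩ ⟨2048, -524, -658, 310, 193, 167, 71172, 0, 0, 0, 0, 0, 0⟩)))
    (.leaf (.box ⟨2048, -280, -1194, 112, 48, 365, 287572, 0, 0, 0, 0, 0, 0⟩ ⟨0, 0, 0, 0, 0, 0, 148105, 0, 0, 0, 0, 0, 0⟩ ⟨0, 0, 0, 0, 0, 0, 148105, 0, 0, 0, 0, 0, 0⟩ ⟨0, 0, 0, 0, 0, 0, 99735, 0, 0, 0, 0, 0, 0⟩ ⟨0, 0, 0, 0, 0, 0, 99735, 0, 0, 0, 0, 0, 0⟩ ⟨2048, -767, -1907, 305, 176, 241, 75181, 0, 0, 0, 0, 0, 0⟩))))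

/-- A piece of the tree. -/
noncomputable def tree39 : Tree LeafX :=
  .s1
    (.s0
    (.leaf (.box ⟨1029, -9, -2048, 14, -23, 442, 309603, 0, 0, 0, 0, 0, 0⟩ ⟨0, 0, 0, 0, 0, 0, 155910, 0, 0, 0, 0, 0, 0⟩ ⟨0, 0, 0, 0, 0, 0, 155910, 0, 0, 0, 0, 0, 0⟩ ⟨0, 0, 0, 0, 0, 0, 104189, 0, 0, 0, 0, 0, 0⟩ ⟨0, 0, 0, 0, 0, 0, 104189, 0, 0, 0, 0, 0, 0⟩ ⟨867, -27, -2048, 45, -75, 379, 78235, 0, 0, 0, 0, 0, 0⟩))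
    (.s1
    (.s2
    (.s2
    (.s2
    (.leaf (.box ⟨457, -1, -2048, 8, -17, 438, 391976, 0, 0, 0, 0, 0, 0⟩ ⟨0, 0, 0, 0, 0, 0, 196913, 0, 0, 0, 0, 0, 0⟩ ⟨0, 0, 0, 0, 0, 0, 196913, 0, 0, 0, 0, 0, 0⟩ ⟨0, 0, 0, 0, 0, 0, 131482, 0, 0, 0, 0, 0, 0⟩ ⟨0, 0, 0, 0, 0, 0, 131482, 0, 0, 0, 0, 0, 0⟩ ⟨431, -8, -2048, 46, -93, 429, 98689, 0, 0, 0, 0, 0, 0⟩))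
    (.leaf (.box ⟨469, -2, -2048, 8, -18, 424, 379483, 0, 0, 0, 0, 0, 0⟩ ⟨0, 0, 0, 0, 0, 0, 191108, 0, 0, 0, 0, 0, 0⟩ ⟨0, 0, 0, 0, 0, 0, 191108, 0, 0, 0, 0, 0, 0⟩ ⟨0, 0, 0, 0, 0, 0, 127712, 0, 0, 0, 0, 0, 0⟩ ⟨0, 0, 0, 0, 0, 0, 127712, 0, 0, 0, 0, 0, 0⟩ ⟨440, -12, -2048, 41, -93, 407, 95899, 0, 0, 0, 0, 0, 0⟩)))
    (.leaf (.box ⟨496, -4, -2048, 9, -19, 402, 359085, 0, 0, 0, 0, 0, 0⟩ ⟨0, 0, 0, 0, 0, 0, 181543, 0, 0, 0, 0, 0, 0⟩ ⟨0, 0, 0, 0, 0, 0, 181543, 0, 0, 0, 0, 0, 0⟩ ⟨0, 0, 0, 0, 0, 0, 121480, 0, 0, 0, 0, 0, 0⟩ ⟨0, 0, 0, 0, 0, 0, 121480, 0, 0, 0, 0, 0, 0⟩ ⟨483, -17, -2048, 39, -93, 376, 91280, 0, 0, 0, 0, 0, 0⟩)))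
    (.leaf (.box ⟨478, -4, -2048, 8, -20, 369, 336645, 0, 0, 0, 0, 0, 0⟩ ⟨0, 0, 0, 0, 0, 0, 170600, 0, 0, 0, 0, 0, 0⟩ ⟨0, 0, 0, 0, 0, 0, 170600, 0, 0, 0, 0, 0, 0⟩ ⟨0, 0, 0, 0, 0, 0, 114249, 0, 0, 0, 0, 0, 0⟩ ⟨0, 0, 0, 0, 0, 0, 114249, 0, 0, 0, 0, 0, 0⟩ ⟨513, -14, -2048, 28, -65, 328, 85881, 0, 0, 0, 0, 0, 0⟩)))
    (.leaf (.box ⟨492, -6, -2048, 9, -16, 353, 336364, 0, 0, 0, 0, 0, 0⟩ ⟨0, 0, 0, 0, 0, 0, 170858, 0, 0, 0, 0, 0, 0⟩ ⟨0, 0, 0, 0, 0, 0, 170858, 0, 0, 0, 0, 0, 0⟩ ⟨0, 0, 0, 0, 0, 0, 114513, 0, 0, 0, 0, 0, 0⟩ ⟨0, 0, 0, 0, 0, 0, 114513, 0, 0, 0, 0, 0, 0⟩ ⟨550, -36, -2048, 51, -76, 329, 86114, 0, 0, 0, 0, 0, 0⟩))))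
    (.leaf (.box ⟨1389, -36, -2048, 26, -16, 370, 309943, 0, 0, 0, 0, 0, 0⟩ ⟨1228, -58, -2048, 42, -25, 345, 174091, 0, 0, 0, 0, 0, 0⟩ ⟨1228, -58, -2048, 42, -25, 345, 174091, 0, 0, 0, 0, 0, 0⟩ ⟨1088, -76, -2048, 56, -32, 324, 113611, 0, 0, 0, 0, 0, 0⟩ ⟨1088, -76, -2048, 56, -32, 324, 113611, 0, 0, 0, 0, 0, 0⟩ ⟨1040, -107, -2048, 79, -42, 327, 79839, 0, 0, 0, 0, 0, 0⟩))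

/-- A piece of the tree. -/
noncomputable def tree40 : Tree LeafX :=
  .s2
    (.s1
    (.s3
    (.s0
    (.leaf (.box ⟨392, -1, -2412, 6, -31, 618, 409943, 0, 0, 0, 0, 0, 0⟩ ⟨0, 0, 0, 0, 0, 0, 220386, 0, 0, 0, 0, 0, 0⟩ ⟨0, 0, 0, 0, 0, 0, 220386, 0, 0, 0, 0, 0, 0⟩ ⟨0, 0, 0, 0, 0, 0, 150702, 0, 0, 0, 0, 0, 0⟩ ⟨0, 0, 0, 0, 0, 0, 150702, 0, 0, 0, 0, 0, 0⟩ ⟨381, -2, -2048, 16, -86, 485, 114498, 0, 0, 0, 0, 0, 0⟩))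
    (.leaf (.box ⟨366, -1, -2048, 6, -30, 572, 421436, 0, 0, 0, 0, 0, 0⟩ ⟨0, 0, 0, 0, 0, 0, 226570, 0, 0, 0, 0, 0, 0⟩ ⟨0, 0, 0, 0, 0, 0, 226570, 0, 0, 0, 0, 0, 0⟩ ⟨0, 0, 0, 0, 0, 0, 154931, 0, 0, 0, 0, 0, 0⟩ ⟨0, 0, 0, 0, 0, 0, 154931, 0, 0, 0, 0, 0, 0⟩ ⟨399, -2, -2048, 18, -98, 516, 117712, 0, 0, 0, 0, 0, 0⟩)))
    (.s0
    (.leaf (.box ⟨486, -1, -3602, 6, -31, 871, 526454, 0, 0, 0, 0, 0, 0⟩ ⟨0, 0, 0, 0, 0, 0, 224621, 0, 0, 0, 0, 0, 0⟩ ⟨0, 0, 0, 0, 0, 0, 224621, 0, 0, 0, 0, 0, 0⟩ ⟨0, 0, 0, 0, 0, 0, 142768, 0, 0, 0, 0, 0, 0⟩ ⟨0, 0, 0, 0, 0, 0, 142768, 0, 0, 0, 0, 0, 0⟩ ⟨320, -2, -2048, 16, -81, 452, 104637, 0, 0, 0, 0, 0, 0⟩))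
    (.leaf (.box ⟨426, -1, -2684, 6, -27, 698, 541219, 0, 0, 0, 0, 0, 0⟩ ⟨0, 0, 0, 0, 0, 0, 230929, 0, 0, 0, 0, 0, 0⟩ ⟨0, 0, 0, 0, 0, 0, 230929, 0, 0, 0, 0, 0, 0⟩ ⟨0, 0, 0, 0, 0, 0, 146779, 0, 0, 0, 0, 0, 0⟩ ⟨0, 0, 0, 0, 0, 0, 146779, 0, 0, 0, 0, 0, 0⟩ ⟨346, -2, -2048, 22, -96, 478, 107577, 0, 0, 0, 0, 0, 0⟩))))
    (.s3
    (.s2
    (.leaf (.box ⟨350, -1, -2066, 6, -23, 511, 418360, 0, 0, 0, 0, 0, 0⟩ ⟨0, 0, 0, 0, 0, 0, 224749, 0, 0, 0, 0, 0, 0⟩ ⟨0, 0, 0, 0, 0, 0, 224749, 0, 0, 0, 0, 0, 0⟩ ⟨0, 0, 0, 0, 0, 0, 153645, 0, 0, 0, 0, 0, 0⟩ ⟨0, 0, 0, 0, 0, 0, 153645, 0, 0, 0, 0, 0, 0⟩ ⟨366, -3, -2048, 23, -82, 469, 116718, 0, 0, 0, 0, 0, 0⟩))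
    (.leaf (.box ⟨396, -1, -2291, 6, -27, 547, 407038, 0, 0, 0, 0, 0, 0⟩ ⟨0, 0, 0, 0, 0, 0, 219349, 0, 0, 0, 0, 0, 0⟩ ⟨0, 0, 0, 0, 0, 0, 219349, 0, 0, 0, 0, 0, 0⟩ ⟨0, 0, 0, 0, 0, 0, 150125, 0, 0, 0, 0, 0, 0⟩ ⟨0, 0, 0, 0, 0, 0, 150125, 0, 0, 0, 0, 0, 0⟩ ⟨380, -5, -2048, 19, -76, 446, 114112, 0, 0, 0, 0, 0, 0⟩)))
    (.leaf (.box ⟨465, -1, -2928, 6, -23, 676, 523349, 0, 0, 0, 0, 0, 0⟩ ⟨0, 0, 0, 0, 0, 0, 224088, 0, 0, 0, 0, 0, 0⟩ ⟨0, 0, 0, 0, 0, 0, 224088, 0, 0, 0, 0, 0, 0⟩ ⟨0, 0, 0, 0, 0, 0, 142566, 0, 0, 0, 0, 0, 0⟩ ⟨0, 0, 0, 0, 0, 0, 142566, 0, 0, 0, 0, 0, 0⟩ ⟨365, -4, -2048, 19, -72, 429, 104536, 0, 0, 0, 0, 0, 0⟩))))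
    (.s1
    (.s2
    (.leaf (.box ⟨442, -2, -2048, 8, -27, 502, 401036, 0, 0, 0, 0, 0, 0⟩ ⟨0, 0, 0, 0, 0, 0, 202614, 0, 0, 0, 0, 0, 0⟩ ⟨0, 0, 0, 0, 0, 0, 202614, 0, 0, 0, 0, 0, 0⟩ ⟨0, 0, 0, 0, 0, 0, 135548, 0, 0, 0, 0, 0, 0⟩ ⟨0, 0, 0, 0, 0, 0, 135548, 0, 0, 0, 0, 0, 0⟩ ⟨464, -8, -2048, 34, -109, 456, 101839, 0, 0, 0, 0, 0, 0⟩))
    (.leaf (.box ⟨434, -2, -2048, 7, -27, 478, 394347, 0, 0, 0, 0, 0, 0⟩ ⟨0, 0, 0, 0, 0, 0, 199636, 0, 0, 0, 0, 0, 0⟩ ⟨0, 0, 0, 0, 0, 0, 199636, 0, 0, 0, 0, 0, 0⟩ ⟨0, 0, 0, 0, 0, 0, 133647, 0, 0, 0, 0, 0, 0⟩ ⟨0, 0, 0, 0, 0, 0, 133647, 0, 0, 0, 0, 0, 0⟩ ⟨465, -8, -2048, 27, -91, 424, 100445, 0, 0, 0, 0, 0, 0⟩)))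
    (.s3
    (.leaf (.box ⟨467, -2, -2388, 6, -29, 532, 391318, 0, 0, 0, 0, 0, 0⟩ ⟨0, 0, 0, 0, 0, 0, 211916, 0, 0, 0, 0, 0, 0⟩ ⟨0, 0, 0, 0, 0, 0, 211916, 0, 0, 0, 0, 0, 0⟩ ⟨0, 0, 0, 0, 0, 0, 145301, 0, 0, 0, 0, 0, 0⟩ ⟨0, 0, 0, 0, 0, 0, 145301, 0, 0, 0, 0, 0, 0⟩ ⟨443, -8, -2048, 21, -75, 409, 110550, 0, 0, 0, 0, 0, 0⟩))
    (.leaf (.box ⟨591, -2, -3499, 6, -29, 745, 504381, 0, 0, 0, 0, 0, 0⟩ ⟨0, 0, 0, 0, 0, 0, 217515, 0, 0, 0, 0, 0, 0⟩ ⟨0, 0, 0, 0, 0, 0, 217515, 0, 0, 0, 0, 0, 0⟩ ⟨0, 0, 0, 0, 0, 0, 138655, 0, 0, 0, 0, 0, 0⟩ ⟨0, 0, 0, 0, 0, 0, 138655, 0, 0, 0, 0, 0, 0⟩ ⟨366, -7, -2048, 19, -70, 385, 101761, 0, 0, 0, 0, 0, 0⟩))))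

/-- A piece of the tree. -/
noncomputable def tree41 : Tree LeafX :=
  .s2
    (.s3
    (.s1
    (.leaf (.box ⟨538, -1, -2048, 10, -39, 657, 435032, 0, 0, 0, 0, 0, 0⟩ ⟨0, 0, 0, 0, 0, 0, 233830, 0, 0, 0, 0, 0, 0⟩ ⟨0, 0, 0, 0, 0, 0, 233830, 0, 0, 0, 0, 0, 0⟩ ⟨0, 0, 0, 0, 0, 0, 159884, 0, 0, 0, 0, 0, 0⟩ ⟨0, 0, 0, 0, 0, 0, 159884, 0, 0, 0, 0, 0, 0⟩ ⟨526, -2, -2048, 29, -122, 577, 121470, 0, 0, 0, 0, 0, 0⟩))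
    (.s2
    (.leaf (.box ⟨424, -1, -2048, 9, -31, 601, 440859, 0, 0, 0, 0, 0, 0⟩ ⟨0, 0, 0, 0, 0, 0, 236797, 0, 0, 0, 0, 0, 0⟩ ⟨0, 0, 0, 0, 0, 0, 236797, 0, 0, 0, 0, 0, 0⟩ ⟨0, 0, 0, 0, 0, 0, 161871, 0, 0, 0, 0, 0, 0⟩ ⟨0, 0, 0, 0, 0, 0, 161871, 0, 0, 0, 0, 0, 0⟩ ⟨451, -2, -2048, 25, -102, 550, 122963, 0, 0, 0, 0, 0, 0⟩))
    (.leaf (.box ⟨432, -1, -2048, 7, -33, 579, 430282, 0, 0, 0, 0, 0, 0⟩ ⟨0, 0, 0, 0, 0, 0, 231916, 0, 0, 0, 0, 0, 0⟩ ⟨0, 0, 0, 0, 0, 0, 231916, 0, 0, 0, 0, 0, 0⟩ ⟨0, 0, 0, 0, 0, 0, 158737, 0, 0, 0, 0, 0, 0⟩ ⟨0, 0, 0, 0, 0, 0, 158737, 0, 0, 0, 0, 0, 0⟩ ⟨461, -4, -2048, 25, -103, 522, 120662, 0, 0, 0, 0, 0, 0⟩))))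
    (.s1
    (.s2
    (.leaf (.box ⟨425, 0, -2172, 6, -27, 647, 571110, 0, 0, 0, 0, 0, 0⟩ ⟨0, 0, 0, 0, 0, 0, 242454, 0, 0, 0, 0, 0, 0⟩ ⟨0, 0, 0, 0, 0, 0, 242454, 0, 0, 0, 0, 0, 0⟩ ⟨0, 0, 0, 0, 0, 0, 153894, 0, 0, 0, 0, 0, 0⟩ ⟨0, 0, 0, 0, 0, 0, 153894, 0, 0, 0, 0, 0, 0⟩ ⟨437, -1, -2048, 27, -110, 533, 112720, 0, 0, 0, 0, 0, 0⟩))
    (.leaf (.box ⟨410, -1, -2048, 6, -26, 590, 558621, 0, 0, 0, 0, 0, 0⟩ ⟨0, 0, 0, 0, 0, 0, 238277, 0, 0, 0, 0, 0, 0⟩ ⟨0, 0, 0, 0, 0, 0, 238277, 0, 0, 0, 0, 0, 0⟩ ⟨0, 0, 0, 0, 0, 0, 151436, 0, 0, 0, 0, 0, 0⟩ ⟨0, 0, 0, 0, 0, 0, 151436, 0, 0, 0, 0, 0, 0⟩ ⟨425, -3, -2048, 27, -113, 523, 110986, 0, 0, 0, 0, 0, 0⟩)))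
    (.s0
    (.s2
    (.leaf (.box ⟨389, -1, -2933, 6, -27, 764, 565905, 0, 0, 0, 0, 0, 0⟩ ⟨0, 0, 0, 0, 0, 0, 241124, 0, 0, 0, 0, 0, 0⟩ ⟨0, 0, 0, 0, 0, 0, 241124, 0, 0, 0, 0, 0, 0⟩ ⟨0, 0, 0, 0, 0, 0, 153201, 0, 0, 0, 0, 0, 0⟩ ⟨0, 0, 0, 0, 0, 0, 153201, 0, 0, 0, 0, 0, 0⟩ ⟨301, -2, -2048, 18, -85, 483, 112264, 0, 0, 0, 0, 0, 0⟩))
    (.leaf (.box ⟨462, -1, -3475, 6, -33, 874, 553284, 0, 0, 0, 0, 0, 0⟩ ⟨0, 0, 0, 0, 0, 0, 236999, 0, 0, 0, 0, 0, 0⟩ ⟨0, 0, 0, 0, 0, 0, 236999, 0, 0, 0, 0, 0, 0⟩ ⟨0, 0, 0, 0, 0, 0, 150796, 0, 0, 0, 0, 0, 0⟩ ⟨0, 0, 0, 0, 0, 0, 150796, 0, 0, 0, 0, 0, 0⟩ ⟨299, -3, -2048, 16, -85, 458, 110576, 0, 0, 0, 0, 0, 0⟩)))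
    (.leaf (.box ⟨378, -1, -2256, 6, -25, 623, 572249, 0, 0, 0, 0, 0, 0⟩ ⟨0, 0, 0, 0, 0, 0, 245025, 0, 0, 0, 0, 0, 0⟩ ⟨0, 0, 0, 0, 0, 0, 245025, 0, 0, 0, 0, 0, 0⟩ ⟨0, 0, 0, 0, 0, 0, 155886, 0, 0, 0, 0, 0, 0⟩ ⟨0, 0, 0, 0, 0, 0, 155886, 0, 0, 0, 0, 0, 0⟩ ⟨373, -2, -2048, 20, -98, 500, 114303, 0, 0, 0, 0, 0, 0⟩)))))
    (.s3
    (.s3
    (.leaf (.box ⟨623, -2, -2048, 10, -37, 576, 415550, 0, 0, 0, 0, 0, 0⟩ ⟨0, 0, 0, 0, 0, 0, 233424, 0, 0, 0, 0, 0, 0⟩ ⟨0, 0, 0, 0, 0, 0, 233424, 0, 0, 0, 0, 0, 0⟩ ⟨0, 0, 0, 0, 0, 0, 162294, 0, 0, 0, 0, 0, 0⟩ ⟨0, 0, 0, 0, 0, 0, 162294, 0, 0, 0, 0, 0, 0⟩ ⟨642, -8, -2048, 34, -109, 516, 124389, 0, 0, 0, 0, 0, 0⟩))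
    (.leaf (.box ⟨574, -2, -2048, 9, -30, 552, 470579, 0, 0, 0, 0, 0, 0⟩ ⟨0, 0, 0, 0, 0, 0, 237262, 0, 0, 0, 0, 0, 0⟩ ⟨0, 0, 0, 0, 0, 0, 237262, 0, 0, 0, 0, 0, 0⟩ ⟨0, 0, 0, 0, 0, 0, 158618, 0, 0, 0, 0, 0, 0⟩ ⟨0, 0, 0, 0, 0, 0, 158618, 0, 0, 0, 0, 0, 0⟩ ⟨593, -8, -2048, 33, -104, 489, 119130, 0, 0, 0, 0, 0, 0⟩)))
    (.s3
    (.leaf (.box ⟨530, -1, -2048, 6, -25, 531, 538395, 0, 0, 0, 0, 0, 0⟩ ⟨0, 0, 0, 0, 0, 0, 240597, 0, 0, 0, 0, 0, 0⟩ ⟨0, 0, 0, 0, 0, 0, 240597, 0, 0, 0, 0, 0, 0⟩ ⟨0, 0, 0, 0, 0, 0, 154912, 0, 0, 0, 0, 0, 0⟩ ⟨0, 0, 0, 0, 0, 0, 154912, 0, 0, 0, 0, 0, 0⟩ ⟨539, -7, -2048, 31, -99, 465, 114230, 0, 0, 0, 0, 0, 0⟩))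
    (.leaf (.box ⟨600, -1, -2498, 6, -24, 625, 628203, 0, 0, 0, 0, 0, 0⟩ ⟨0, 0, 0, 0, 0, 0, 243966, 0, 0, 0, 0, 0, 0⟩ ⟨0, 0, 0, 0, 0, 0, 243966, 0, 0, 0, 0, 0, 0⟩ ⟨0, 0, 0, 0, 0, 0, 151378, 0, 0, 0, 0, 0, 0⟩ ⟨0, 0, 0, 0, 0, 0, 151378, 0, 0, 0, 0, 0, 0⟩ ⟨495, -7, -2048, 30, -94, 446, 109732, 0, 0, 0, 0, 0, 0⟩))))

/-- A piece of the tree. -/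
noncomputable def tree42 : Tree LeafX :=
  .s2
    (.s0
    (.leaf (.box ⟨522, -3, -2048, 8, -24, 424, 384831, 0, 0, 0, 0, 0, 0⟩ ⟨0, 0, 0, 0, 0, 0, 195979, 0, 0, 0, 0, 0, 0⟩ ⟨0, 0, 0, 0, 0, 0, 195979, 0, 0, 0, 0, 0, 0⟩ ⟨0, 0, 0, 0, 0, 0, 131464, 0, 0, 0, 0, 0, 0⟩ ⟨0, 0, 0, 0, 0, 0, 131464, 0, 0, 0, 0, 0, 0⟩ ⟨550, -13, -2048, 33, -96, 397, 98905, 0, 0, 0, 0, 0, 0⟩))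
    (.s3
    (.leaf (.box ⟨547, -3, -2048, 10, -33, 495, 414984, 0, 0, 0, 0, 0, 0⟩ ⟨0, 0, 0, 0, 0, 0, 225352, 0, 0, 0, 0, 0, 0⟩ ⟨0, 0, 0, 0, 0, 0, 225352, 0, 0, 0, 0, 0, 0⟩ ⟨0, 0, 0, 0, 0, 0, 154673, 0, 0, 0, 0, 0, 0⟩ ⟨0, 0, 0, 0, 0, 0, 154673, 0, 0, 0, 0, 0, 0⟩ ⟨554, -11, -2048, 34, -98, 441, 117743, 0, 0, 0, 0, 0, 0⟩))
    (.leaf (.box ⟨485, -2, -2048, 7, -22, 465, 531750, 0, 0, 0, 0, 0, 0⟩ ⟨492, -4, -2048, 14, -46, 443, 243807, 0, 0, 0, 0, 0, 0⟩ ⟨492, -4, -2048, 14, -46, 443, 243807, 0, 0, 0, 0, 0, 0⟩ ⟨488, -7, -2048, 22, -68, 424, 153920, 0, 0, 0, 0, 0, 0⟩ ⟨488, -7, -2048, 22, -68, 424, 153920, 0, 0, 0, 0, 0, 0⟩ ⟨487, -10, -2048, 31, -91, 406, 108504, 0, 0, 0, 0, 0, 0⟩))))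
    (.leaf (.box ⟨560, -4, -2048, 12, -27, 414, 384457, 0, 0, 0, 0, 0, 0⟩ ⟨0, 0, 0, 0, 0, 0, 195853, 0, 0, 0, 0, 0, 0⟩ ⟨0, 0, 0, 0, 0, 0, 195853, 0, 0, 0, 0, 0, 0⟩ ⟨0, 0, 0, 0, 0, 0, 131394, 0, 0, 0, 0, 0, 0⟩ ⟨0, 0, 0, 0, 0, 0, 131394, 0, 0, 0, 0, 0, 0⟩ ⟨541, -16, -2048, 45, -93, 389, 98858, 0, 0, 0, 0, 0, 0⟩))

/-- A piece of the tree. -/
noncomputable def tree43 : Tree LeafX :=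
  .s2
    (.s2
    (.s3
    (.s2
    (.leaf (.box ⟨370, -2, -2048, 7, -17, 450, 415690, 0, 0, 0, 0, 0, 0⟩ ⟨0, 0, 0, 0, 0, 0, 224091, 0, 0, 0, 0, 0, 0⟩ ⟨0, 0, 0, 0, 0, 0, 224091, 0, 0, 0, 0, 0, 0⟩ ⟨0, 0, 0, 0, 0, 0, 153390, 0, 0, 0, 0, 0, 0⟩ ⟨0, 0, 0, 0, 0, 0, 153390, 0, 0, 0, 0, 0, 0⟩ ⟨399, -9, -2048, 34, -69, 415, 116602, 0, 0, 0, 0, 0, 0⟩))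
    (.leaf (.box ⟨383, -3, -2048, 7, -18, 433, 404048, 0, 0, 0, 0, 0, 0⟩ ⟨0, 0, 0, 0, 0, 0, 218630, 0, 0, 0, 0, 0, 0⟩ ⟨0, 0, 0, 0, 0, 0, 218630, 0, 0, 0, 0, 0, 0⟩ ⟨0, 0, 0, 0, 0, 0, 149860, 0, 0, 0, 0, 0, 0⟩ ⟨0, 0, 0, 0, 0, 0, 149860, 0, 0, 0, 0, 0, 0⟩ ⟨404, -12, -2048, 30, -68, 395, 114000, 0, 0, 0, 0, 0, 0⟩)))
    (.leaf (.box ⟨416, -2, -2470, 6, -15, 516, 520958, 0, 0, 0, 0, 0, 0⟩ ⟨0, 0, 0, 0, 0, 0, 223819, 0, 0, 0, 0, 0, 0⟩ ⟨0, 0, 0, 0, 0, 0, 223819, 0, 0, 0, 0, 0, 0⟩ ⟨0, 0, 0, 0, 0, 0, 142527, 0, 0, 0, 0, 0, 0⟩ ⟨0, 0, 0, 0, 0, 0, 142527, 0, 0, 0, 0, 0, 0⟩ ⟨388, -7, -2048, 22, -53, 386, 104552, 0, 0, 0, 0, 0, 0⟩)))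
    (.s3
    (.leaf (.box ⟨425, -4, -2048, 7, -19, 404, 388218, 0, 0, 0, 0, 0, 0⟩ ⟨0, 0, 0, 0, 0, 0, 211226, 0, 0, 0, 0, 0, 0⟩ ⟨0, 0, 0, 0, 0, 0, 211226, 0, 0, 0, 0, 0, 0⟩ ⟨0, 0, 0, 0, 0, 0, 145082, 0, 0, 0, 0, 0, 0⟩ ⟨0, 0, 0, 0, 0, 0, 145082, 0, 0, 0, 0, 0, 0⟩ ⟨444, -17, -2048, 29, -68, 365, 110484, 0, 0, 0, 0, 0, 0⟩))
    (.leaf (.box ⟨463, -3, -2589, 6, -17, 497, 502105, 0, 0, 0, 0, 0, 0⟩ ⟨0, 0, 0, 0, 0, 0, 217323, 0, 0, 0, 0, 0, 0⟩ ⟨0, 0, 0, 0, 0, 0, 217323, 0, 0, 0, 0, 0, 0⟩ ⟨0, 0, 0, 0, 0, 0, 138672, 0, 0, 0, 0, 0, 0⟩ ⟨0, 0, 0, 0, 0, 0, 138672, 0, 0, 0, 0, 0, 0⟩ ⟨396, -12, -2048, 23, -53, 345, 101821, 0, 0, 0, 0, 0, 0⟩))))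
    (.leaf (.box ⟨444, -4, -2048, 7, -19, 356, 381145, 0, 0, 0, 0, 0, 0⟩ ⟨0, 0, 0, 0, 0, 0, 195011, 0, 0, 0, 0, 0, 0⟩ ⟨0, 0, 0, 0, 0, 0, 195011, 0, 0, 0, 0, 0, 0⟩ ⟨0, 0, 0, 0, 0, 0, 131025, 0, 0, 0, 0, 0, 0⟩ ⟨0, 0, 0, 0, 0, 0, 131025, 0, 0, 0, 0, 0, 0⟩ ⟨462, -18, -2048, 28, -59, 318, 98654, 0, 0, 0, 0, 0, 0⟩))

/-- A piece of the tree. -/
noncomputable def tree44 : Tree LeafX :=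
  .s2
    (.s3
    (.s3
    (.s1
    (.s2
    (.leaf (.box ⟨377, -1, -2048, 7, -27, 557, 437176, 0, 0, 0, 0, 0, 0⟩ ⟨0, 0, 0, 0, 0, 0, 243653, 0, 0, 0, 0, 0, 0⟩ ⟨0, 0, 0, 0, 0, 0, 243653, 0, 0, 0, 0, 0, 0⟩ ⟨0, 0, 0, 0, 0, 0, 168891, 0, 0, 0, 0, 0, 0⟩ ⟨0, 0, 0, 0, 0, 0, 168891, 0, 0, 0, 0, 0, 0⟩ ⟨402, -3, -2048, 20, -83, 511, 129236, 0, 0, 0, 0, 0, 0⟩))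
    (.leaf (.box ⟨379, -2, -2048, 7, -28, 536, 425456, 0, 0, 0, 0, 0, 0⟩ ⟨0, 0, 0, 0, 0, 0, 238263, 0, 0, 0, 0, 0, 0⟩ ⟨0, 0, 0, 0, 0, 0, 238263, 0, 0, 0, 0, 0, 0⟩ ⟨0, 0, 0, 0, 0, 0, 165463, 0, 0, 0, 0, 0, 0⟩ ⟨0, 0, 0, 0, 0, 0, 165463, 0, 0, 0, 0, 0, 0⟩ ⟨401, -5, -2048, 20, -84, 485, 126738, 0, 0, 0, 0, 0, 0⟩)))
    (.s2
    (.leaf (.box ⟨335, -1, -2048, 6, -22, 513, 434707, 0, 0, 0, 0, 0, 0⟩ ⟨0, 0, 0, 0, 0, 0, 243002, 0, 0, 0, 0, 0, 0⟩ ⟨0, 0, 0, 0, 0, 0, 243002, 0, 0, 0, 0, 0, 0⟩ ⟨0, 0, 0, 0, 0, 0, 168635, 0, 0, 0, 0, 0, 0⟩ ⟨0, 0, 0, 0, 0, 0, 168635, 0, 0, 0, 0, 0, 0⟩ ⟨360, -4, -2048, 18, -67, 469, 129119, 0, 0, 0, 0, 0, 0⟩))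
    (.leaf (.box ⟨358, -2, -2048, 6, -24, 492, 422823, 0, 0, 0, 0, 0, 0⟩ ⟨0, 0, 0, 0, 0, 0, 237584, 0, 0, 0, 0, 0, 0⟩ ⟨0, 0, 0, 0, 0, 0, 237584, 0, 0, 0, 0, 0, 0⟩ ⟨0, 0, 0, 0, 0, 0, 165207, 0, 0, 0, 0, 0, 0⟩ ⟨0, 0, 0, 0, 0, 0, 165207, 0, 0, 0, 0, 0, 0⟩ ⟨371, -7, -2048, 19, -68, 444, 126630, 0, 0, 0, 0, 0, 0⟩))))
    (.s0
    (.s0
    (.leaf (.box ⟨331, -2, -2148, 6, -19, 500, 478711, 0, 0, 0, 0, 0, 0⟩ ⟨0, 0, 0, 0, 0, 0, 241279, 0, 0, 0, 0, 0, 0⟩ ⟨0, 0, 0, 0, 0, 0, 241279, 0, 0, 0, 0, 0, 0⟩ ⟨0, 0, 0, 0, 0, 0, 161285, 0, 0, 0, 0, 0, 0⟩ ⟨0, 0, 0, 0, 0, 0, 161285, 0, 0, 0, 0, 0, 0⟩ ⟨366, -5, -2048, 18, -63, 431, 121126, 0, 0, 0, 0, 0, 0⟩))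
    (.leaf (.box ⟨353, -2, -2218, 6, -21, 537, 485821, 0, 0, 0, 0, 0, 0⟩ ⟨0, 0, 0, 0, 0, 0, 244959, 0, 0, 0, 0, 0, 0⟩ ⟨0, 0, 0, 0, 0, 0, 244959, 0, 0, 0, 0, 0, 0⟩ ⟨0, 0, 0, 0, 0, 0, 163767, 0, 0, 0, 0, 0, 0⟩ ⟨0, 0, 0, 0, 0, 0, 163767, 0, 0, 0, 0, 0, 0⟩ ⟨362, -6, -2048, 22, -70, 440, 122998, 0, 0, 0, 0, 0, 0⟩)))
    (.s2
    (.leaf (.box ⟨332, -1, -2094, 6, -22, 549, 504748, 0, 0, 0, 0, 0, 0⟩ ⟨0, 0, 0, 0, 0, 0, 253250, 0, 0, 0, 0, 0, 0⟩ ⟨0, 0, 0, 0, 0, 0, 253250, 0, 0, 0, 0, 0, 0⟩ ⟨0, 0, 0, 0, 0, 0, 169029, 0, 0, 0, 0, 0, 0⟩ ⟨0, 0, 0, 0, 0, 0, 169029, 0, 0, 0, 0, 0, 0⟩ ⟨356, -4, -2048, 21, -76, 486, 126845, 0, 0, 0, 0, 0, 0⟩))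
    (.leaf (.box ⟨383, -2, -2313, 6, -26, 582, 493504, 0, 0, 0, 0, 0, 0⟩ ⟨0, 0, 0, 0, 0, 0, 248915, 0, 0, 0, 0, 0, 0⟩ ⟨0, 0, 0, 0, 0, 0, 248915, 0, 0, 0, 0, 0, 0⟩ ⟨0, 0, 0, 0, 0, 0, 166430, 0, 0, 0, 0, 0, 0⟩ ⟨0, 0, 0, 0, 0, 0, 166430, 0, 0, 0, 0, 0, 0⟩ ⟨364, -6, -2048, 20, -77, 460, 125005, 0, 0, 0, 0, 0, 0⟩)))))
    (.s2
    (.s0
    (.leaf (.box ⟨389, -1, -2720, 6, -19, 634, 560658, 0, 0, 0, 0, 0, 0⟩ ⟨0, 0, 0, 0, 0, 0, 240300, 0, 0, 0, 0, 0, 0⟩ ⟨0, 0, 0, 0, 0, 0, 240300, 0, 0, 0, 0, 0, 0⟩ ⟨0, 0, 0, 0, 0, 0, 152921, 0, 0, 0, 0, 0, 0⟩ ⟨0, 0, 0, 0, 0, 0, 152921, 0, 0, 0, 0, 0, 0⟩ ⟨321, -4, -2048, 20, -62, 431, 112143, 0, 0, 0, 0, 0, 0⟩))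
    (.s1
    (.leaf (.box ⟨367, -1, -2837, 6, -25, 734, 579705, 0, 0, 0, 0, 0, 0⟩ ⟨0, 0, 0, 0, 0, 0, 247882, 0, 0, 0, 0, 0, 0⟩ ⟨0, 0, 0, 0, 0, 0, 247882, 0, 0, 0, 0, 0, 0⟩ ⟨0, 0, 0, 0, 0, 0, 157646, 0, 0, 0, 0, 0, 0⟩ ⟨0, 0, 0, 0, 0, 0, 157646, 0, 0, 0, 0, 0, 0⟩ ⟨290, -2, -2048, 17, -80, 476, 115573, 0, 0, 0, 0, 0, 0⟩))
    (.leaf (.box ⟨367, -1, -3263, 6, -24, 786, 576960, 0, 0, 0, 0, 0, 0⟩ ⟨0, 0, 0, 0, 0, 0, 247540, 0, 0, 0, 0, 0, 0⟩ ⟨0, 0, 0, 0, 0, 0, 247540, 0, 0, 0, 0, 0, 0⟩ ⟨0, 0, 0, 0, 0, 0, 157573, 0, 0, 0, 0, 0, 0⟩ ⟨0, 0, 0, 0, 0, 0, 157573, 0, 0, 0, 0, 0, 0⟩ ⟨263, -3, -2048, 16, -65, 442, 115569, 0, 0, 0, 0, 0, 0⟩))))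
    (.s0
    (.leaf (.box ⟨417, -2, -2790, 6, -21, 625, 547800, 0, 0, 0, 0, 0, 0⟩ ⟨0, 0, 0, 0, 0, 0, 236198, 0, 0, 0, 0, 0, 0⟩ ⟨0, 0, 0, 0, 0, 0, 236198, 0, 0, 0, 0, 0, 0⟩ ⟨0, 0, 0, 0, 0, 0, 150557, 0, 0, 0, 0, 0, 0⟩ ⟨0, 0, 0, 0, 0, 0, 150557, 0, 0, 0, 0, 0, 0⟩ ⟨332, -7, -2048, 21, -63, 407, 110494, 0, 0, 0, 0, 0, 0⟩))
    (.s1
    (.leaf (.box ⟨429, -1, -3193, 6, -30, 795, 567581, 0, 0, 0, 0, 0, 0⟩ ⟨0, 0, 0, 0, 0, 0, 244183, 0, 0, 0, 0, 0, 0⟩ ⟨0, 0, 0, 0, 0, 0, 244183, 0, 0, 0, 0, 0, 0⟩ ⟨0, 0, 0, 0, 0, 0, 155552, 0, 0, 0, 0, 0, 0⟩ ⟨0, 0, 0, 0, 0, 0, 155552, 0, 0, 0, 0, 0, 0⟩ ⟨294, -4, -2048, 16, -81, 450, 114127, 0, 0, 0, 0, 0, 0⟩))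
    (.leaf (.box ⟨422, -2, -3560, 6, -28, 824, 564739, 0, 0, 0, 0, 0, 0⟩ ⟨0, 0, 0, 0, 0, 0, 243843, 0, 0, 0, 0, 0, 0⟩ ⟨0, 0, 0, 0, 0, 0, 243843, 0, 0, 0, 0, 0, 0⟩ ⟨0, 0, 0, 0, 0, 0, 155491, 0, 0, 0, 0, 0, 0⟩ ⟨0, 0, 0, 0, 0, 0, 155491, 0, 0, 0, 0, 0, 0⟩ ⟨268, -5, -2048, 15, -66, 417, 114135, 0, 0, 0, 0, 0, 0⟩))))))
    (.s2
    (.s3
    (.s1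
    (.leaf (.box ⟨385, -2, -2048, 6, -28, 500, 419089, 0, 0, 0, 0, 0, 0⟩ ⟨0, 0, 0, 0, 0, 0, 227313, 0, 0, 0, 0, 0, 0⟩ ⟨0, 0, 0, 0, 0, 0, 227313, 0, 0, 0, 0, 0, 0⟩ ⟨0, 0, 0, 0, 0, 0, 155950, 0, 0, 0, 0, 0, 0⟩ ⟨0, 0, 0, 0, 0, 0, 155950, 0, 0, 0, 0, 0, 0⟩ ⟨415, -8, -2048, 23, -83, 446, 118688, 0, 0, 0, 0, 0, 0⟩))
    (.leaf (.box ⟨341, -3, -2048, 7, -23, 460, 416860, 0, 0, 0, 0, 0, 0⟩ ⟨0, 0, 0, 0, 0, 0, 226822, 0, 0, 0, 0, 0, 0⟩ ⟨0, 0, 0, 0, 0, 0, 226822, 0, 0, 0, 0, 0, 0⟩ ⟨0, 0, 0, 0, 0, 0, 155797, 0, 0, 0, 0, 0, 0⟩ ⟨0, 0, 0, 0, 0, 0, 155797, 0, 0, 0, 0, 0, 0⟩ ⟨371, -10, -2048, 21, -69, 409, 118645, 0, 0, 0, 0, 0, 0⟩)))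
    (.s1
    (.leaf (.box ⟨453, -2, -2855, 6, -26, 655, 540607, 0, 0, 0, 0, 0, 0⟩ ⟨0, 0, 0, 0, 0, 0, 233646, 0, 0, 0, 0, 0, 0⟩ ⟨0, 0, 0, 0, 0, 0, 233646, 0, 0, 0, 0, 0, 0⟩ ⟨0, 0, 0, 0, 0, 0, 149027, 0, 0, 0, 0, 0, 0⟩ ⟨0, 0, 0, 0, 0, 0, 149027, 0, 0, 0, 0, 0, 0⟩ ⟨343, -7, -2048, 21, -76, 411, 109404, 0, 0, 0, 0, 0, 0⟩))
    (.leaf (.box ⟨375, -3, -2548, 6, -20, 545, 538700, 0, 0, 0, 0, 0, 0⟩ ⟨0, 0, 0, 0, 0, 0, 233553, 0, 0, 0, 0, 0, 0⟩ ⟨0, 0, 0, 0, 0, 0, 233553, 0, 0, 0, 0, 0, 0⟩ ⟨0, 0, 0, 0, 0, 0, 149097, 0, 0, 0, 0, 0, 0⟩ ⟨0, 0, 0, 0, 0, 0, 149097, 0, 0, 0, 0, 0, 0⟩ ⟨320, -9, -2048, 20, -63, 382, 109500, 0, 0, 0, 0, 0, 0⟩))))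
    (.s3
    (.leaf (.box ⟨426, -4, -2048, 9, -25, 453, 412097, 0, 0, 0, 0, 0, 0⟩ ⟨0, 0, 0, 0, 0, 0, 224798, 0, 0, 0, 0, 0, 0⟩ ⟨0, 0, 0, 0, 0, 0, 224798, 0, 0, 0, 0, 0, 0⟩ ⟨0, 0, 0, 0, 0, 0, 154553, 0, 0, 0, 0, 0, 0⟩ ⟨0, 0, 0, 0, 0, 0, 154553, 0, 0, 0, 0, 0, 0⟩ ⟨449, -14, -2048, 29, -74, 402, 117756, 0, 0, 0, 0, 0, 0⟩))
    (.leaf (.box ⟨388, -3, -2048, 7, -17, 431, 533359, 0, 0, 0, 0, 0, 0⟩ ⟨0, 0, 0, 0, 0, 0, 231869, 0, 0, 0, 0, 0, 0⟩ ⟨0, 0, 0, 0, 0, 0, 231869, 0, 0, 0, 0, 0, 0⟩ ⟨0, 0, 0, 0, 0, 0, 148134, 0, 0, 0, 0, 0, 0⟩ ⟨0, 0, 0, 0, 0, 0, 148134, 0, 0, 0, 0, 0, 0⟩ ⟨411, -15, -2048, 32, -81, 384, 108831, 0, 0, 0, 0, 0, 0⟩))))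

/-- A piece of the tree. -/
noncomputable def tree45 : Tree LeafX :=
  .s2
    (.leaf (.box ⟨482, -5, -2048, 9, -23, 407, 410067, 0, 0, 0, 0, 0, 0⟩ ⟨0, 0, 0, 0, 0, 0, 210181, 0, 0, 0, 0, 0, 0⟩ ⟨0, 0, 0, 0, 0, 0, 210181, 0, 0, 0, 0, 0, 0⟩ ⟨0, 0, 0, 0, 0, 0, 141303, 0, 0, 0, 0, 0, 0⟩ ⟨0, 0, 0, 0, 0, 0, 141303, 0, 0, 0, 0, 0, 0⟩ ⟨555, -19, -2048, 36, -89, 386, 106426, 0, 0, 0, 0, 0, 0⟩))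
    (.leaf (.box ⟨387, -4, -2048, 7, -23, 374, 411785, 0, 0, 0, 0, 0, 0⟩ ⟨0, 0, 0, 0, 0, 0, 211198, 0, 0, 0, 0, 0, 0⟩ ⟨0, 0, 0, 0, 0, 0, 211198, 0, 0, 0, 0, 0, 0⟩ ⟨0, 0, 0, 0, 0, 0, 142019, 0, 0, 0, 0, 0, 0⟩ ⟨0, 0, 0, 0, 0, 0, 142019, 0, 0, 0, 0, 0, 0⟩ ⟨398, -14, -2048, 27, -73, 338, 106977, 0, 0, 0, 0, 0, 0⟩))

/-- A piece of the tree. -/
noncomputable def tree46 : Tree LeafX :=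
  .s1
    (.s0
    (.s3
    (.s2
    (.leaf (.box ⟨615, 0, -2048, 13, -48, 760, 472134, 0, 0, 0, 0, 0, 0⟩ ⟨0, 0, 0, 0, 0, 0, 253312, 0, 0, 0, 0, 0, 0⟩ ⟨0, 0, 0, 0, 0, 0, 253312, 0, 0, 0, 0, 0, 0⟩ ⟨0, 0, 0, 0, 0, 0, 173089, 0, 0, 0, 0, 0, 0⟩ ⟨0, 0, 0, 0, 0, 0, 173089, 0, 0, 0, 0, 0, 0⟩ ⟨655, 0, -2048, 45, -155, 689, 131457, 0, 0, 0, 0, 0, 0⟩))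
    (.leaf (.box ⟨631, -1, -2048, 13, -49, 730, 462353, 0, 0, 0, 0, 0, 0⟩ ⟨0, 0, 0, 0, 0, 0, 249013, 0, 0, 0, 0, 0, 0⟩ ⟨0, 0, 0, 0, 0, 0, 249013, 0, 0, 0, 0, 0, 0⟩ ⟨0, 0, 0, 0, 0, 0, 170391, 0, 0, 0, 0, 0, 0⟩ ⟨0, 0, 0, 0, 0, 0, 170391, 0, 0, 0, 0, 0, 0⟩ ⟨669, -3, -2048, 44, -154, 653, 129502, 0, 0, 0, 0, 0, 0⟩)))
    (.s1
    (.leaf (.box ⟨505, 0, -2048, 8, -34, 706, 602603, 0, 0, 0, 0, 0, 0⟩ ⟨0, 0, 0, 0, 0, 0, 256582, 0, 0, 0, 0, 0, 0⟩ ⟨0, 0, 0, 0, 0, 0, 256582, 0, 0, 0, 0, 0, 0⟩ ⟨0, 0, 0, 0, 0, 0, 162991, 0, 0, 0, 0, 0, 0⟩ ⟨0, 0, 0, 0, 0, 0, 162991, 0, 0, 0, 0, 0, 0⟩ ⟨550, 0, -2048, 35, -152, 623, 119428, 0, 0, 0, 0, 0, 0⟩))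
    (.s2
    (.leaf (.box ⟨410, 0, -2048, 7, -28, 651, 605714, 0, 0, 0, 0, 0, 0⟩ ⟨0, 0, 0, 0, 0, 0, 257646, 0, 0, 0, 0, 0, 0⟩ ⟨0, 0, 0, 0, 0, 0, 257646, 0, 0, 0, 0, 0, 0⟩ ⟨0, 0, 0, 0, 0, 0, 163622, 0, 0, 0, 0, 0, 0⟩ ⟨0, 0, 0, 0, 0, 0, 163622, 0, 0, 0, 0, 0, 0⟩ ⟨412, -1, -2048, 43, -139, 570, 119875, 0, 0, 0, 0, 0, 0⟩))
    (.leaf (.box ⟨416, -1, -2048, 7, -29, 625, 594297, 0, 0, 0, 0, 0, 0⟩ ⟨0, 0, 0, 0, 0, 0, 254271, 0, 0, 0, 0, 0, 0⟩ ⟨0, 0, 0, 0, 0, 0, 254271, 0, 0, 0, 0, 0, 0⟩ ⟨0, 0, 0, 0, 0, 0, 161735, 0, 0, 0, 0, 0, 0⟩ ⟨0, 0, 0, 0, 0, 0, 161735, 0, 0, 0, 0, 0, 0⟩ ⟨440, -3, -2048, 30, -124, 547, 118580, 0, 0, 0, 0, 0, 0⟩)))))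
    (.leaf (.box ⟨813, 0, -2048, 19, -59, 837, 505341, 0, 0, 0, 0, 0, 0⟩ ⟨0, 0, 0, 0, 0, 0, 254698, 0, 0, 0, 0, 0, 0⟩ ⟨0, 0, 0, 0, 0, 0, 254698, 0, 0, 0, 0, 0, 0⟩ ⟨0, 0, 0, 0, 0, 0, 170255, 0, 0, 0, 0, 0, 0⟩ ⟨0, 0, 0, 0, 0, 0, 170255, 0, 0, 0, 0, 0, 0⟩ ⟨907, 1, -2048, 70, -205, 739, 127862, 0, 0, 0, 0, 0, 0⟩)))
    (.s0
    (.s0
    (.s3
    (.s2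
    (.leaf (.box ⟨390, -1, -2048, 8, -30, 594, 462185, 0, 0, 0, 0, 0, 0⟩ ⟨408, -2, -2048, 14, -51, 575, 258731, 0, 0, 0, 0, 0, 0⟩ ⟨408, -2, -2048, 14, -51, 575, 258731, 0, 0, 0, 0, 0, 0⟩ ⟨424, -3, -2048, 20, -73, 557, 175526, 0, 0, 0, 0, 0, 0⟩ ⟨424, -3, -2048, 20, -73, 557, 175526, 0, 0, 0, 0, 0, 0⟩ ⟨442, -4, -2048, 27, -94, 539, 130061, 0, 0, 0, 0, 0, 0⟩))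
    (.leaf (.box ⟨406, -2, -2048, 8, -31, 570, 453104, 0, 0, 0, 0, 0, 0⟩ ⟨0, 0, 0, 0, 0, 0, 245708, 0, 0, 0, 0, 0, 0⟩ ⟨0, 0, 0, 0, 0, 0, 245708, 0, 0, 0, 0, 0, 0⟩ ⟨0, 0, 0, 0, 0, 0, 168556, 0, 0, 0, 0, 0, 0⟩ ⟨0, 0, 0, 0, 0, 0, 168556, 0, 0, 0, 0, 0, 0⟩ ⟨450, -6, -2048, 25, -96, 510, 128277, 0, 0, 0, 0, 0, 0⟩)))
    (.s1
    (.leaf (.box ⟨387, -1, -2366, 6, -25, 647, 588318, 0, 0, 0, 0, 0, 0⟩ ⟨0, 0, 0, 0, 0, 0, 252993, 0, 0, 0, 0, 0, 0⟩ ⟨0, 0, 0, 0, 0, 0, 252993, 0, 0, 0, 0, 0, 0⟩ ⟨0, 0, 0, 0, 0, 0, 161145, 0, 0, 0, 0, 0, 0⟩ ⟨0, 0, 0, 0, 0, 0, 161145, 0, 0, 0, 0, 0, 0⟩ ⟨366, -3, -2048, 21, -93, 489, 118224, 0, 0, 0, 0, 0, 0⟩))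
    (.s2
    (.leaf (.box ⟨343, -1, -2816, 6, -24, 729, 595951, 0, 0, 0, 0, 0, 0⟩ ⟨0, 0, 0, 0, 0, 0, 255717, 0, 0, 0, 0, 0, 0⟩ ⟨0, 0, 0, 0, 0, 0, 255717, 0, 0, 0, 0, 0, 0⟩ ⟨0, 0, 0, 0, 0, 0, 162783, 0, 0, 0, 0, 0, 0⟩ ⟨0, 0, 0, 0, 0, 0, 162783, 0, 0, 0, 0, 0, 0⟩ ⟨285, -3, -2048, 18, -76, 472, 119392, 0, 0, 0, 0, 0, 0⟩))
    (.leaf (.box ⟨362, -2, -2817, 6, -26, 700, 584420, 0, 0, 0, 0, 0, 0⟩ ⟨0, 0, 0, 0, 0, 0, 252469, 0, 0, 0, 0, 0, 0⟩ ⟨0, 0, 0, 0, 0, 0, 252469, 0, 0, 0, 0, 0, 0⟩ ⟨0, 0, 0, 0, 0, 0, 161014, 0, 0, 0, 0, 0, 0⟩ ⟨0, 0, 0, 0, 0, 0, 161014, 0, 0, 0, 0, 0, 0⟩ ⟨294, -5, -2048, 18, -77, 446, 118197, 0, 0, 0, 0, 0, 0⟩)))))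
    (.s3
    (.leaf (.box ⟨485, -1, -2048, 10, -36, 633, 470826, 0, 0, 0, 0, 0, 0⟩ ⟨0, 0, 0, 0, 0, 0, 255215, 0, 0, 0, 0, 0, 0⟩ ⟨0, 0, 0, 0, 0, 0, 255215, 0, 0, 0, 0, 0, 0⟩ ⟨0, 0, 0, 0, 0, 0, 175052, 0, 0, 0, 0, 0, 0⟩ ⟨0, 0, 0, 0, 0, 0, 175052, 0, 0, 0, 0, 0, 0⟩ ⟨552, -5, -2048, 31, -112, 568, 133210, 0, 0, 0, 0, 0, 0⟩))
    (.s1
    (.leaf (.box ⟨360, -1, -2048, 6, -25, 605, 612280, 0, 0, 0, 0, 0, 0⟩ ⟨0, 0, 0, 0, 0, 0, 263068, 0, 0, 0, 0, 0, 0⟩ ⟨0, 0, 0, 0, 0, 0, 263068, 0, 0, 0, 0, 0, 0⟩ ⟨0, 0, 0, 0, 0, 0, 167523, 0, 0, 0, 0, 0, 0⟩ ⟨0, 0, 0, 0, 0, 0, 167523, 0, 0, 0, 0, 0, 0⟩ ⟨410, -3, -2048, 24, -109, 532, 122889, 0, 0, 0, 0, 0, 0⟩))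
    (.leaf (.box ⟨363, -1, -2238, 6, -23, 611, 607154, 0, 0, 0, 0, 0, 0⟩ ⟨0, 0, 0, 0, 0, 0, 262259, 0, 0, 0, 0, 0, 0⟩ ⟨0, 0, 0, 0, 0, 0, 262259, 0, 0, 0, 0, 0, 0⟩ ⟨0, 0, 0, 0, 0, 0, 167251, 0, 0, 0, 0, 0, 0⟩ ⟨0, 0, 0, 0, 0, 0, 167251, 0, 0, 0, 0, 0, 0⟩ ⟨365, -7, -2048, 35, -76, 484, 122774, 0, 0, 0, 0, 0, 0⟩)))))
    (.s3
    (.leaf (.box ⟨619, -1, -2048, 14, -46, 718, 491239, 0, 0, 0, 0, 0, 0⟩ ⟨0, 0, 0, 0, 0, 0, 266104, 0, 0, 0, 0, 0, 0⟩ ⟨0, 0, 0, 0, 0, 0, 266104, 0, 0, 0, 0, 0, 0⟩ ⟨0, 0, 0, 0, 0, 0, 182475, 0, 0, 0, 0, 0, 0⟩ ⟨0, 0, 0, 0, 0, 0, 182475, 0, 0, 0, 0, 0, 0⟩ ⟨682, -4, -2048, 46, -144, 641, 138841, 0, 0, 0, 0, 0, 0⟩))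
    (.s2
    (.leaf (.box ⟨485, 0, -2048, 9, -29, 668, 643286, 0, 0, 0, 0, 0, 0⟩ ⟨0, 0, 0, 0, 0, 0, 275559, 0, 0, 0, 0, 0, 0⟩ ⟨0, 0, 0, 0, 0, 0, 275559, 0, 0, 0, 0, 0, 0⟩ ⟨0, 0, 0, 0, 0, 0, 175333, 0, 0, 0, 0, 0, 0⟩ ⟨0, 0, 0, 0, 0, 0, 175333, 0, 0, 0, 0, 0, 0⟩ ⟨520, -2, -2048, 42, -127, 587, 128569, 0, 0, 0, 0, 0, 0⟩))
    (.leaf (.box ⟨494, -1, -2048, 9, -30, 638, 633265, 0, 0, 0, 0, 0, 0⟩ ⟨0, 0, 0, 0, 0, 0, 273332, 0, 0, 0, 0, 0, 0⟩ ⟨0, 0, 0, 0, 0, 0, 273332, 0, 0, 0, 0, 0, 0⟩ ⟨0, 0, 0, 0, 0, 0, 174277, 0, 0, 0, 0, 0, 0⟩ ⟨0, 0, 0, 0, 0, 0, 174277, 0, 0, 0, 0, 0, 0⟩ ⟨527, -6, -2048, 42, -127, 553, 127919, 0, 0, 0, 0, 0, 0⟩)))))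

/-- A piece of the tree. -/
noncomputable def tree47 : Tree LeafX :=
  .s1
    (.s0
    (.s3
    (.leaf (.box ⟨704, -2, -2048, 13, -47, 664, 452944, 0, 0, 0, 0, 0, 0⟩ ⟨0, 0, 0, 0, 0, 0, 245364, 0, 0, 0, 0, 0, 0⟩ ⟨0, 0, 0, 0, 0, 0, 245364, 0, 0, 0, 0, 0, 0⟩ ⟨0, 0, 0, 0, 0, 0, 168254, 0, 0, 0, 0, 0, 0⟩ ⟨0, 0, 0, 0, 0, 0, 168254, 0, 0, 0, 0, 0, 0⟩ ⟨737, -7, -2048, 45, -145, 588, 128021, 0, 0, 0, 0, 0, 0⟩))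
    (.s2
    (.leaf (.box ⟨548, -1, -2048, 9, -31, 624, 587047, 0, 0, 0, 0, 0, 0⟩ ⟨0, 0, 0, 0, 0, 0, 252434, 0, 0, 0, 0, 0, 0⟩ ⟨0, 0, 0, 0, 0, 0, 252434, 0, 0, 0, 0, 0, 0⟩ ⟨0, 0, 0, 0, 0, 0, 160786, 0, 0, 0, 0, 0, 0⟩ ⟨0, 0, 0, 0, 0, 0, 160786, 0, 0, 0, 0, 0, 0⟩ ⟨565, -6, -2048, 41, -133, 541, 117960, 0, 0, 0, 0, 0, 0⟩))
    (.leaf (.box ⟨548, -2, -2048, 10, -30, 585, 583963, 0, 0, 0, 0, 0, 0⟩ ⟨0, 0, 0, 0, 0, 0, 251930, 0, 0, 0, 0, 0, 0⟩ ⟨0, 0, 0, 0, 0, 0, 251930, 0, 0, 0, 0, 0, 0⟩ ⟨0, 0, 0, 0, 0, 0, 160610, 0, 0, 0, 0, 0, 0⟩ ⟨0, 0, 0, 0, 0, 0, 160610, 0, 0, 0, 0, 0, 0⟩ ⟨537, -7, -2048, 39, -126, 505, 117880, 0, 0, 0, 0, 0, 0⟩))))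
    (.leaf (.box ⟨820, -2, -2048, 19, -55, 739, 499011, 0, 0, 0, 0, 0, 0⟩ ⟨0, 0, 0, 0, 0, 0, 252769, 0, 0, 0, 0, 0, 0⟩ ⟨0, 0, 0, 0, 0, 0, 252769, 0, 0, 0, 0, 0, 0⟩ ⟨0, 0, 0, 0, 0, 0, 169251, 0, 0, 0, 0, 0, 0⟩ ⟨0, 0, 0, 0, 0, 0, 169251, 0, 0, 0, 0, 0, 0⟩ ⟨879, -6, -2048, 65, -187, 642, 127216, 0, 0, 0, 0, 0, 0⟩)))
    (.s0
    (.s3
    (.s2
    (.leaf (.box ⟨515, -3, -2048, 11, -35, 562, 445283, 0, 0, 0, 0, 0, 0⟩ ⟨523, -5, -2048, 18, -59, 539, 250532, 0, 0, 0, 0, 0, 0⟩ ⟨523, -5, -2048, 18, -59, 539, 250532, 0, 0, 0, 0, 0, 0⟩ ⟨536, -8, -2048, 27, -82, 518, 170766, 0, 0, 0, 0, 0, 0⟩ ⟨536, -8, -2048, 27, -82, 518, 170766, 0, 0, 0, 0, 0, 0⟩ ⟨540, -13, -2048, 42, -117, 498, 127119,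 0, 0, 0, 0, 0, 0⟩))
    (.leaf (.box ⟨489, -3, -2048, 10, -34, 525, 444300, 0, 0, 0, 0, 0, 0⟩ ⟨0, 0, 0, 0, 0, 0, 242546, 0, 0, 0, 0, 0, 0⟩ ⟨0, 0, 0, 0, 0, 0, 242546, 0, 0, 0, 0, 0, 0⟩ ⟨0, 0, 0, 0, 0, 0, 166803, 0, 0, 0, 0, 0, 0⟩ ⟨0, 0, 0, 0, 0, 0, 166803, 0, 0, 0, 0, 0, 0⟩ ⟨514, -13, -2048, 36, -99, 464, 127108, 0, 0, 0, 0, 0, 0⟩)))
    (.s0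
    (.leaf (.box ⟨490, -2, -2464, 6, -25, 586, 575166, 0, 0, 0, 0, 0, 0⟩ ⟨0, 0, 0, 0, 0, 0, 250336, 0, 0, 0, 0, 0, 0⟩ ⟨0, 0, 0, 0, 0, 0, 250336, 0, 0, 0, 0, 0, 0⟩ ⟨0, 0, 0, 0, 0, 0, 159984, 0, 0, 0, 0, 0, 0⟩ ⟨0, 0, 0, 0, 0, 0, 159984, 0, 0, 0, 0, 0, 0⟩ ⟨425, -9, -2048, 25, -83, 422, 117555, 0, 0, 0, 0, 0, 0⟩))
    (.leaf (.box ⟨456, -2, -2132, 6, -25, 543, 600011, 0, 0, 0, 0, 0, 0⟩ ⟨0, 0, 0, 0, 0, 0, 260900, 0, 0, 0, 0, 0, 0⟩ ⟨0, 0, 0, 0, 0, 0, 260900, 0, 0, 0, 0, 0, 0⟩ ⟨0, 0, 0, 0, 0, 0, 166691, 0, 0, 0, 0, 0, 0⟩ ⟨0, 0, 0, 0, 0, 0, 166691, 0, 0, 0, 0, 0, 0⟩ ⟨451, -8, -2048, 27, -95, 450, 122468, 0, 0, 0, 0, 0, 0⟩))))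
    (.s2
    (.leaf (.box ⟨606, -3, -2048, 15, -42, 628, 486717, 0, 0, 0, 0, 0, 0⟩ ⟨0, 0, 0, 0, 0, 0, 248283, 0, 0, 0, 0, 0, 0⟩ ⟨0, 0, 0, 0, 0, 0, 248283, 0, 0, 0, 0, 0, 0⟩ ⟨0, 0, 0, 0, 0, 0, 166646, 0, 0, 0, 0, 0, 0⟩ ⟨0, 0, 0, 0, 0, 0, 166646, 0, 0, 0, 0, 0, 0⟩ ⟨665, -11, -2048, 53, -139, 548, 125410, 0, 0, 0, 0, 0, 0⟩))
    (.leaf (.box ⟨573, -3, -2048, 13, -41, 583, 486032, 0, 0, 0, 0, 0, 0⟩ ⟨0, 0, 0, 0, 0, 0, 248211, 0, 0, 0, 0, 0, 0⟩ ⟨0, 0, 0, 0, 0, 0, 248211, 0, 0, 0, 0, 0, 0⟩ ⟨0, 0, 0, 0, 0, 0, 166662, 0, 0, 0, 0, 0, 0⟩ ⟨0, 0, 0, 0, 0, 0, 166662, 0, 0, 0, 0, 0, 0⟩ ⟨620, -14, -2048, 51, -132, 508, 125446, 0, 0, 0, 0, 0, 0⟩))))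

/-- A piece of the tree. -/
noncomputable def tree48 : Tree LeafX :=
  .s1
    (.s0
    (.s3
    (.leaf (.box ⟨695, -3, -2048, 12, -39, 524, 451887, 0, 0, 0, 0, 0, 0⟩ ⟨0, 0, 0, 0, 0, 0, 245207, 0, 0, 0, 0, 0, 0⟩ ⟨0, 0, 0, 0, 0, 0, 245207, 0, 0, 0, 0, 0, 0⟩ ⟨0, 0, 0, 0, 0, 0, 168253, 0, 0, 0, 0, 0, 0⟩ ⟨0, 0, 0, 0, 0, 0, 168253, 0, 0, 0, 0, 0, 0⟩ ⟨693, -11, -2048, 42, -118, 470, 128062, 0, 0, 0, 0, 0, 0⟩))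
    (.leaf (.box ⟨635, -2, -2048, 9, -26, 490, 583163, 0, 0, 0, 0, 0, 0⟩ ⟨0, 0, 0, 0, 0, 0, 252036, 0, 0, 0, 0, 0, 0⟩ ⟨0, 0, 0, 0, 0, 0, 252036, 0, 0, 0, 0, 0, 0⟩ ⟨0, 0, 0, 0, 0, 0, 160757, 0, 0, 0, 0, 0, 0⟩ ⟨0, 0, 0, 0, 0, 0, 160757, 0, 0, 0, 0, 0, 0⟩ ⟨612, -10, -2048, 39, -115, 450, 118015, 0, 0, 0, 0, 0, 0⟩)))
    (.leaf (.box ⟨794, -3, -2048, 16, -44, 568, 499440, 0, 0, 0, 0, 0, 0⟩ ⟨0, 0, 0, 0, 0, 0, 253451, 0, 0, 0, 0, 0, 0⟩ ⟨0, 0, 0, 0, 0, 0, 253451, 0, 0, 0, 0, 0, 0⟩ ⟨0, 0, 0, 0, 0, 0, 169813, 0, 0, 0, 0, 0, 0⟩ ⟨0, 0, 0, 0, 0, 0, 169813, 0, 0, 0, 0, 0, 0⟩ ⟨806, -11, -2048, 58, -149, 503, 127679, 0, 0, 0, 0, 0, 0⟩)))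
    (.s0
    (.s3
    (.leaf (.box ⟨596, -4, -2048, 10, -30, 440, 443776, 0, 0, 0, 0, 0, 0⟩ ⟨0, 0, 0, 0, 0, 0, 242553, 0, 0, 0, 0, 0, 0⟩ ⟨0, 0, 0, 0, 0, 0, 242553, 0, 0, 0, 0, 0, 0⟩ ⟨0, 0, 0, 0, 0, 0, 166882, 0, 0, 0, 0, 0, 0⟩ ⟨0, 0, 0, 0, 0, 0, 166882, 0, 0, 0, 0, 0, 0⟩ ⟨591, -14, -2048, 33, -89, 397, 127199, 0, 0, 0, 0, 0, 0⟩))
    (.leaf (.box ⟨557, -3, -2048, 7, -21, 420, 575147, 0, 0, 0, 0, 0, 0⟩ ⟨0, 0, 0, 0, 0, 0, 250737, 0, 0, 0, 0, 0, 0⟩ ⟨0, 0, 0, 0, 0, 0, 250737, 0, 0, 0, 0, 0, 0⟩ ⟨0, 0, 0, 0, 0, 0, 160313, 0, 0, 0, 0, 0, 0⟩ ⟨0, 0, 0, 0, 0, 0, 160313, 0, 0, 0, 0, 0, 0⟩ ⟨516, -12, -2048, 29, -83, 372, 117822, 0, 0, 0, 0, 0, 0⟩)))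
    (.s2
    (.leaf (.box ⟨577, -4, -2048, 13, -37, 517, 486702, 0, 0, 0, 0, 0, 0⟩ ⟨0, 0, 0, 0, 0, 0, 249209, 0, 0, 0, 0, 0, 0⟩ ⟨0, 0, 0, 0, 0, 0, 249209, 0, 0, 0, 0, 0, 0⟩ ⟨0, 0, 0, 0, 0, 0, 167483, 0, 0, 0, 0, 0, 0⟩ ⟨0, 0, 0, 0, 0, 0, 167483, 0, 0, 0, 0, 0, 0⟩ ⟨605, -16, -2048, 49, -120, 455, 126122, 0, 0, 0, 0, 0, 0⟩))
    (.leaf (.box ⟨486, -3, -2048, 10, -32, 447, 500197, 0, 0, 0, 0, 0, 0⟩ ⟨0, 0, 0, 0, 0, 0, 257110, 0, 0, 0, 0, 0, 0⟩ ⟨0, 0, 0, 0, 0, 0, 257110, 0, 0, 0, 0, 0, 0⟩ ⟨0, 0, 0, 0, 0, 0, 173023, 0, 0, 0, 0, 0, 0⟩ ⟨0, 0, 0, 0, 0, 0, 173023, 0, 0, 0, 0, 0, 0⟩ ⟨498, -12, -2048, 35, -106, 404, 130382, 0, 0, 0, 0, 0, 0⟩))))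

/-- A piece of the tree. -/
noncomputable def tree49 : Tree LeafX :=
  .s2
    (.s1
    (.leaf (.box ⟨337, -4, -2048, 7, -11, 391, 403595, 0, 0, 0, 0, 0, 0⟩ ⟨0, 0, 0, 0, 0, 0, 205237, 0, 0, 0, 0, 0, 0⟩ ⟨0, 0, 0, 0, 0, 0, 205237, 0, 0, 0, 0, 0, 0⟩ ⟨0, 0, 0, 0, 0, 0, 137606, 0, 0, 0, 0, 0, 0⟩ ⟨0, 0, 0, 0, 0, 0, 137606, 0, 0, 0, 0, 0, 0⟩ ⟨406, -15, -2048, 26, -34, 350, 103500, 0, 0, 0, 0, 0, 0⟩))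
    (.leaf (.box ⟨307, -7, -2048, 8, -5, 366, 403815, 0, 0, 0, 0, 0, 0⟩ ⟨0, 0, 0, 0, 0, 0, 206586, 0, 0, 0, 0, 0, 0⟩ ⟨0, 0, 0, 0, 0, 0, 206586, 0, 0, 0, 0, 0, 0⟩ ⟨0, 0, 0, 0, 0, 0, 138796, 0, 0, 0, 0, 0, 0⟩ ⟨0, 0, 0, 0, 0, 0, 138796, 0, 0, 0, 0, 0, 0⟩ ⟨357, -21, -2048, 25, -12, 321, 104503, 0, 0, 0, 0, 0, 0⟩)))
    (.leaf (.box ⟨402, -11, -2048, 10, -11, 346, 387657, 0, 0, 0, 0, 0, 0⟩ ⟨0, 0, 0, 0, 0, 0, 198437, 0, 0, 0, 0, 0, 0⟩ ⟨0, 0, 0, 0, 0, 0, 198437, 0, 0, 0, 0, 0, 0⟩ ⟨0, 0, 0, 0, 0, 0, 133348, 0, 0, 0, 0, 0, 0⟩ ⟨0, 0, 0, 0, 0, 0, 133348, 0, 0, 0, 0, 0, 0⟩ ⟨494, -55, -2048, 52, -46, 300, 100412, 0, 0, 0, 0, 0, 0⟩))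

/-- A piece of the tree. -/
noncomputable def tree50 : Tree LeafX :=
  .s2
    (.s1
    (.s0
    (.s2
    (.leaf (.box ⟨297, -3, -2048, 7, -13, 434, 434290, 0, 0, 0, 0, 0, 0⟩ ⟨0, 0, 0, 0, 0, 0, 220329, 0, 0, 0, 0, 0, 0⟩ ⟨0, 0, 0, 0, 0, 0, 220329, 0, 0, 0, 0, 0, 0⟩ ⟨0, 0, 0, 0, 0, 0, 147608, 0, 0, 0, 0, 0, 0⟩ ⟨0, 0, 0, 0, 0, 0, 147608, 0, 0, 0, 0, 0, 0⟩ ⟨339, -12, -2048, 30, -36, 396, 110978, 0, 0, 0, 0, 0, 0⟩))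
    (.s3
    (.leaf (.box ⟨286, -3, -2092, 6, -16, 432, 423161, 0, 0, 0, 0, 0, 0⟩ ⟨0, 0, 0, 0, 0, 0, 230019, 0, 0, 0, 0, 0, 0⟩ ⟨0, 0, 0, 0, 0, 0, 230019, 0, 0, 0, 0, 0, 0⟩ ⟨0, 0, 0, 0, 0, 0, 157934, 0, 0, 0, 0, 0, 0⟩ ⟨0, 0, 0, 0, 0, 0, 157934, 0, 0, 0, 0, 0, 0⟩ ⟨320, -11, -2048, 19, -44, 377, 120249, 0, 0, 0, 0, 0, 0⟩))
    (.leaf (.box ⟨348, -3, -2937, 6, -15, 587, 547088, 0, 0, 0, 0, 0, 0⟩ ⟨0, 0, 0, 0, 0, 0, 236763, 0, 0, 0, 0, 0, 0⟩ ⟨0, 0, 0, 0, 0, 0, 236763, 0, 0, 0, 0, 0, 0⟩ ⟨0, 0, 0, 0, 0, 0, 151071, 0, 0, 0, 0, 0, 0⟩ ⟨0, 0, 0, 0, 0, 0, 151071, 0, 0, 0, 0, 0, 0⟩ ⟨276, -10, -2048, 18, -39, 359, 110924, 0, 0, 0, 0, 0, 0⟩))))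
    (.s3
    (.s2
    (.leaf (.box ⟨288, -2, -2048, 7, -17, 475, 446085, 0, 0, 0, 0, 0, 0⟩ ⟨0, 0, 0, 0, 0, 0, 241618, 0, 0, 0, 0, 0, 0⟩ ⟨0, 0, 0, 0, 0, 0, 241618, 0, 0, 0, 0, 0, 0⟩ ⟨0, 0, 0, 0, 0, 0, 165678, 0, 0, 0, 0, 0, 0⟩ ⟨0, 0, 0, 0, 0, 0, 165678, 0, 0, 0, 0, 0, 0⟩ ⟨332, -8, -2048, 22, -50, 429, 126058, 0, 0, 0, 0, 0, 0⟩))
    (.leaf (.box ⟨302, -3, -2048, 7, -18, 455, 435322, 0, 0, 0, 0, 0, 0⟩ ⟨0, 0, 0, 0, 0, 0, 236963, 0, 0, 0, 0, 0, 0⟩ ⟨0, 0, 0, 0, 0, 0, 236963, 0, 0, 0, 0, 0, 0⟩ ⟨0, 0, 0, 0, 0, 0, 162787, 0, 0, 0, 0, 0, 0⟩ ⟨0, 0, 0, 0, 0, 0, 162787, 0, 0, 0, 0, 0, 0⟩ ⟨340, -10, -2048, 21, -53, 405, 123978, 0, 0, 0, 0, 0, 0⟩)))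
    (.s2
    (.leaf (.box ⟨327, -2, -2659, 6, -14, 589, 575582, 0, 0, 0, 0, 0, 0⟩ ⟨0, 0, 0, 0, 0, 0, 247644, 0, 0, 0, 0, 0, 0⟩ ⟨0, 0, 0, 0, 0, 0, 247644, 0, 0, 0, 0, 0, 0⟩ ⟨0, 0, 0, 0, 0, 0, 157760, 0, 0, 0, 0, 0, 0⟩ ⟨0, 0, 0, 0, 0, 0, 157760, 0, 0, 0, 0, 0, 0⟩ ⟨287, -7, -2048, 21, -45, 404, 115748, 0, 0, 0, 0, 0, 0⟩))
    (.leaf (.box ⟨362, -3, -2796, 6, -17, 594, 563257, 0, 0, 0, 0, 0, 0⟩ ⟨0, 0, 0, 0, 0, 0, 244022, 0, 0, 0, 0, 0, 0⟩ ⟨0, 0, 0, 0, 0, 0, 244022, 0, 0, 0, 0, 0, 0⟩ ⟨0, 0, 0, 0, 0, 0, 155749, 0, 0, 0, 0, 0, 0⟩ ⟨0, 0, 0, 0, 0, 0, 155749, 0, 0, 0, 0, 0, 0⟩ ⟨298, -10, -2048, 20, -47, 380, 114374, 0, 0, 0, 0, 0, 0⟩)))))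
    (.s3
    (.s2
    (.leaf (.box ⟨284, -5, -2048, 8, -9, 419, 434342, 0, 0, 0, 0, 0, 0⟩ ⟨0, 0, 0, 0, 0, 0, 235995, 0, 0, 0, 0, 0, 0⟩ ⟨0, 0, 0, 0, 0, 0, 235995, 0, 0, 0, 0, 0, 0⟩ ⟨0, 0, 0, 0, 0, 0, 162011, 0, 0, 0, 0, 0, 0⟩ ⟨0, 0, 0, 0, 0, 0, 162011, 0, 0, 0, 0, 0, 0⟩ ⟨331, -16, -2048, 26, -22, 374, 123343, 0, 0, 0, 0, 0, 0⟩))
    (.s1
    (.leaf (.box ⟨262, -5, -2048, 7, -12, 408, 423171, 0, 0, 0, 0, 0, 0⟩ ⟨0, 0, 0, 0, 0, 0, 231099, 0, 0, 0, 0, 0, 0⟩ ⟨0, 0, 0, 0, 0, 0, 231099, 0, 0, 0, 0, 0, 0⟩ ⟨0, 0, 0, 0, 0, 0, 158953, 0, 0, 0, 0, 0, 0⟩ ⟨0, 0, 0, 0, 0, 0, 158953, 0, 0, 0, 0, 0, 0⟩ ⟨305, -14, -2048, 19, -31, 359, 121135, 0, 0, 0, 0, 0, 0⟩))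
    (.leaf (.box ⟨241, -5, -2048, 6, -9, 393, 423502, 0, 0, 0, 0, 0, 0⟩ ⟨0, 0, 0, 0, 0, 0, 232142, 0, 0, 0, 0, 0, 0⟩ ⟨0, 0, 0, 0, 0, 0, 232142, 0, 0, 0, 0, 0, 0⟩ ⟨0, 0, 0, 0, 0, 0, 159894, 0, 0, 0, 0, 0, 0⟩ ⟨0, 0, 0, 0, 0, 0, 159894, 0, 0, 0, 0, 0, 0⟩ ⟨281, -16, -2048, 18, -21, 344, 121942, 0, 0, 0, 0, 0, 0⟩))))
    (.leaf (.box ⟨284, -4, -2048, 7, -7, 400, 547774, 0, 0, 0, 0, 0, 0⟩ ⟨0, 0, 0, 0, 0, 0, 239329, 0, 0, 0, 0, 0, 0⟩ ⟨0, 0, 0, 0, 0, 0, 239329, 0, 0, 0, 0, 0, 0⟩ ⟨0, 0, 0, 0, 0, 0, 153113, 0, 0, 0, 0, 0, 0⟩ ⟨0, 0, 0, 0, 0, 0, 153113, 0, 0, 0, 0, 0, 0⟩ ⟨341, -17, -2048, 25, -21, 349, 112563, 0, 0, 0, 0, 0, 0⟩))))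
    (.s1
    (.s0
    (.leaf (.box ⟨368, -5, -2048, 7, -16, 386, 410743, 0, 0, 0, 0, 0, 0⟩ ⟨0, 0, 0, 0, 0, 0, 210793, 0, 0, 0, 0, 0, 0⟩ ⟨0, 0, 0, 0, 0, 0, 210793, 0, 0, 0, 0, 0, 0⟩ ⟨0, 0, 0, 0, 0, 0, 141776, 0, 0, 0, 0, 0, 0⟩ ⟨0, 0, 0, 0, 0, 0, 141776, 0, 0, 0, 0, 0, 0⟩ ⟨374, -23, -2048, 30, -57, 346, 106806, 0, 0, 0, 0, 0, 0⟩))
    (.s3
    (.s2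
    (.leaf (.box ⟨307, -4, -2048, 7, -19, 431, 428270, 0, 0, 0, 0, 0, 0⟩ ⟨0, 0, 0, 0, 0, 0, 234020, 0, 0, 0, 0, 0, 0⟩ ⟨0, 0, 0, 0, 0, 0, 234020, 0, 0, 0, 0, 0, 0⟩ ⟨0, 0, 0, 0, 0, 0, 160997, 0, 0, 0, 0, 0, 0⟩ ⟨0, 0, 0, 0, 0, 0, 160997, 0, 0, 0, 0, 0, 0⟩ ⟨340, -13, -2048, 21, -54, 381, 122707, 0, 0, 0, 0, 0, 0⟩))
    (.leaf (.box ⟨360, -4, -2463, 6, -24, 490, 424929, 0, 0, 0, 0, 0, 0⟩ ⟨0, 0, 0, 0, 0, 0, 232802, 0, 0, 0, 0, 0, 0⟩ ⟨0, 0, 0, 0, 0, 0, 232802, 0, 0, 0, 0, 0, 0⟩ ⟨0, 0, 0, 0, 0, 0, 160317, 0, 0, 0, 0, 0, 0⟩ ⟨0, 0, 0, 0, 0, 0, 160317, 0, 0, 0, 0, 0, 0⟩ ⟨326, -15, -2048, 21, -53, 359, 122252, 0, 0, 0, 0, 0, 0⟩)))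
    (.leaf (.box ⟨438, -4, -2857, 6, -19, 562, 551779, 0, 0, 0, 0, 0, 0⟩ ⟨0, 0, 0, 0, 0, 0, 241243, 0, 0, 0, 0, 0, 0⟩ ⟨0, 0, 0, 0, 0, 0, 241243, 0, 0, 0, 0, 0, 0⟩ ⟨0, 0, 0, 0, 0, 0, 154367, 0, 0, 0, 0, 0, 0⟩ ⟨0, 0, 0, 0, 0, 0, 154367, 0, 0, 0, 0, 0, 0⟩ ⟨341, -13, -2048, 20, -48, 349, 113495, 0, 0, 0, 0, 0, 0⟩))))
    (.s0
    (.leaf (.box ⟨274, -6, -2048, 6, -11, 357, 408576, 0, 0, 0, 0, 0, 0⟩ ⟨293, -11, -2048, 10, -17, 339, 231253, 0, 0, 0, 0, 0, 0⟩ ⟨293, -11, -2048, 10, -17, 339, 231253, 0, 0, 0, 0, 0, 0⟩ ⟨328, -16, -2048, 15, -22, 322, 152059, 0, 0, 0, 0, 0, 0⟩ ⟨328, -16, -2048, 15, -22, 322, 152059, 0, 0, 0, 0, 0, 0⟩ ⟨329, -23, -2048, 22, -25, 308, 107607, 0, 0, 0, 0, 0, 0⟩))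
    (.s2
    (.leaf (.box ⟨273, -5, -2107, 6, -13, 398, 428165, 0, 0, 0, 0, 0, 0⟩ ⟨0, 0, 0, 0, 0, 0, 220470, 0, 0, 0, 0, 0, 0⟩ ⟨0, 0, 0, 0, 0, 0, 220470, 0, 0, 0, 0, 0, 0⟩ ⟨0, 0, 0, 0, 0, 0, 148456, 0, 0, 0, 0, 0, 0⟩ ⟨0, 0, 0, 0, 0, 0, 148456, 0, 0, 0, 0, 0, 0⟩ ⟨301, -21, -2048, 24, -33, 342, 111904, 0, 0, 0, 0, 0, 0⟩))
    (.leaf (.box ⟨277, -6, -2237, 6, -15, 401, 424898, 0, 0, 0, 0, 0, 0⟩ ⟨0, 0, 0, 0, 0, 0, 219546, 0, 0, 0, 0, 0, 0⟩ ⟨0, 0, 0, 0, 0, 0, 219546, 0, 0, 0, 0, 0, 0⟩ ⟨0, 0, 0, 0, 0, 0, 148012, 0, 0, 0, 0, 0, 0⟩ ⟨0, 0, 0, 0, 0, 0, 148012, 0, 0, 0, 0, 0, 0⟩ ⟨301, -22, -2048, 22, -34, 317, 111637, 0, 0, 0, 0, 0, 0⟩)))))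

/-- A piece of the tree. -/
noncomputable def tree51 : Tree LeafX :=
  .s2
    (.s1
    (.s3
    (.s1
    (.leaf (.box ⟨361, -2, -2048, 8, -25, 552, 460826, 0, 0, 0, 0, 0, 0⟩ ⟨0, 0, 0, 0, 0, 0, 249466, 0, 0, 0, 0, 0, 0⟩ ⟨0, 0, 0, 0, 0, 0, 249466, 0, 0, 0, 0, 0, 0⟩ ⟨0, 0, 0, 0, 0, 0, 171025, 0, 0, 0, 0, 0, 0⟩ ⟨0, 0, 0, 0, 0, 0, 171025, 0, 0, 0, 0, 0, 0⟩ ⟨407, -6, -2048, 26, -77, 498, 130112, 0, 0, 0, 0, 0, 0⟩))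
    (.leaf (.box ⟨331, -2, -2048, 8, -20, 518, 459719, 0, 0, 0, 0, 0, 0⟩ ⟨0, 0, 0, 0, 0, 0, 249331, 0, 0, 0, 0, 0, 0⟩ ⟨0, 0, 0, 0, 0, 0, 249331, 0, 0, 0, 0, 0, 0⟩ ⟨0, 0, 0, 0, 0, 0, 171051, 0, 0, 0, 0, 0, 0⟩ ⟨0, 0, 0, 0, 0, 0, 171051, 0, 0, 0, 0, 0, 0⟩ ⟨374, -8, -2048, 25, -61, 465, 130179, 0, 0, 0, 0, 0, 0⟩)))
    (.s1
    (.leaf (.box ⟨336, -1, -2183, 6, -17, 551, 593962, 0, 0, 0, 0, 0, 0⟩ ⟨0, 0, 0, 0, 0, 0, 255591, 0, 0, 0, 0, 0, 0⟩ ⟨0, 0, 0, 0, 0, 0, 255591, 0, 0, 0, 0, 0, 0⟩ ⟨0, 0, 0, 0, 0, 0, 162830, 0, 0, 0, 0, 0, 0⟩ ⟨0, 0, 0, 0, 0, 0, 162830, 0, 0, 0, 0, 0, 0⟩ ⟨335, -6, -2048, 27, -65, 454, 119470, 0, 0, 0, 0, 0, 0⟩))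
    (.leaf (.box ⟨298, -2, -2138, 6, -14, 510, 593496, 0, 0, 0, 0, 0, 0⟩ ⟨0, 0, 0, 0, 0, 0, 256184, 0, 0, 0, 0, 0, 0⟩ ⟨0, 0, 0, 0, 0, 0, 256184, 0, 0, 0, 0, 0, 0⟩ ⟨0, 0, 0, 0, 0, 0, 163347, 0, 0, 0, 0, 0, 0⟩ ⟨0, 0, 0, 0, 0, 0, 163347, 0, 0, 0, 0, 0, 0⟩ ⟨316, -7, -2048, 23, -54, 431, 119897, 0, 0, 0, 0, 0, 0⟩))))
    (.s3
    (.leaf (.box ⟨325, -4, -2048, 10, -14, 480, 459457, 0, 0, 0, 0, 0, 0⟩ ⟨0, 0, 0, 0, 0, 0, 249744, 0, 0, 0, 0, 0, 0⟩ ⟨0, 0, 0, 0, 0, 0, 249744, 0, 0, 0, 0, 0, 0⟩ ⟨0, 0, 0, 0, 0, 0, 171476, 0, 0, 0, 0, 0, 0⟩ ⟨0, 0, 0, 0, 0, 0, 171476, 0, 0, 0, 0, 0, 0⟩ ⟨386, -15, -2048, 32, -40, 429, 130559, 0, 0, 0, 0, 0, 0⟩))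
    (.leaf (.box ⟨285, -3, -2048, 7, -9, 459, 593556, 0, 0, 0, 0, 0, 0⟩ ⟨0, 0, 0, 0, 0, 0, 257381, 0, 0, 0, 0, 0, 0⟩ ⟨0, 0, 0, 0, 0, 0, 257381, 0, 0, 0, 0, 0, 0⟩ ⟨0, 0, 0, 0, 0, 0, 164316, 0, 0, 0, 0, 0, 0⟩ ⟨0, 0, 0, 0, 0, 0, 164316, 0, 0, 0, 0, 0, 0⟩ ⟨323, -13, -2048, 29, -34, 402, 120680, 0, 0, 0, 0, 0, 0⟩))))
    (.s1
    (.s3
    (.s1
    (.leaf (.box ⟨384, -3, -2048, 8, -27, 528, 450663, 0, 0, 0, 0, 0, 0⟩ ⟨0, 0, 0, 0, 0, 0, 245178, 0, 0, 0, 0, 0, 0⟩ ⟨0, 0, 0, 0, 0, 0, 245178, 0, 0, 0, 0, 0, 0⟩ ⟨0, 0, 0, 0, 0, 0, 168396, 0, 0, 0, 0, 0, 0⟩ ⟨0, 0, 0, 0, 0, 0, 168396, 0, 0, 0, 0, 0, 0⟩ ⟨397, -13, -2048, 37, -66, 463, 128236, 0, 0, 0, 0, 0, 0⟩))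
    (.leaf (.box ⟨351, -3, -2048, 8, -23, 495, 449419, 0, 0, 0, 0, 0, 0⟩ ⟨0, 0, 0, 0, 0, 0, 245039, 0, 0, 0, 0, 0, 0⟩ ⟨0, 0, 0, 0, 0, 0, 245039, 0, 0, 0, 0, 0, 0⟩ ⟨0, 0, 0, 0, 0, 0, 168439, 0, 0, 0, 0, 0, 0⟩ ⟨0, 0, 0, 0, 0, 0, 168439, 0, 0, 0, 0, 0, 0⟩ ⟨374, -17, -2048, 37, -52, 433, 128324, 0, 0, 0, 0, 0, 0⟩)))
    (.s0
    (.s1
    (.leaf (.box ⟨384, -2, -3334, 6, -26, 776, 582358, 0, 0, 0, 0, 0, 0⟩ ⟨0, 0, 0, 0, 0, 0, 252399, 0, 0, 0, 0, 0, 0⟩ ⟨0, 0, 0, 0, 0, 0, 252399, 0, 0, 0, 0, 0, 0⟩ ⟨0, 0, 0, 0, 0, 0, 161114, 0, 0, 0, 0, 0, 0⟩ ⟨0, 0, 0, 0, 0, 0, 161114, 0, 0, 0, 0, 0, 0⟩ ⟨265, -6, -2048, 16, -63, 416, 118320, 0, 0, 0, 0, 0, 0⟩))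
    (.leaf (.box ⟨348, -3, -3282, 6, -21, 723, 581837, 0, 0, 0, 0, 0, 0⟩ ⟨0, 0, 0, 0, 0, 0, 253095, 0, 0, 0, 0, 0, 0⟩ ⟨0, 0, 0, 0, 0, 0, 253095, 0, 0, 0, 0, 0, 0⟩ ⟨0, 0, 0, 0, 0, 0, 161722, 0, 0, 0, 0, 0, 0⟩ ⟨0, 0, 0, 0, 0, 0, 161722, 0, 0, 0, 0, 0, 0⟩ ⟨243, -8, -2048, 16, -50, 393, 118823, 0, 0, 0, 0, 0, 0⟩)))
    (.leaf (.box ⟨335, -2, -2278, 6, -19, 552, 602920, 0, 0, 0, 0, 0, 0⟩ ⟨0, 0, 0, 0, 0, 0, 261793, 0, 0, 0, 0, 0, 0⟩ ⟨0, 0, 0, 0, 0, 0, 261793, 0, 0, 0, 0, 0, 0⟩ ⟨0, 0, 0, 0, 0, 0, 167196, 0, 0, 0, 0, 0, 0⟩ ⟨0, 0, 0, 0, 0, 0, 167196, 0, 0, 0, 0, 0, 0⟩ ⟨332, -9, -2048, 24, -68, 431, 122816, 0, 0, 0, 0, 0, 0⟩))))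
    (.s3
    (.s1
    (.leaf (.box ⟨311, -4, -2048, 8, -19, 469, 449137, 0, 0, 0, 0, 0, 0⟩ ⟨0, 0, 0, 0, 0, 0, 245488, 0, 0, 0, 0, 0, 0⟩ ⟨0, 0, 0, 0, 0, 0, 245488, 0, 0, 0, 0, 0, 0⟩ ⟨0, 0, 0, 0, 0, 0, 168903, 0, 0, 0, 0, 0, 0⟩ ⟨0, 0, 0, 0, 0, 0, 168903, 0, 0, 0, 0, 0, 0⟩ ⟨352, -14, -2048, 24, -52, 414, 128740, 0, 0, 0, 0, 0, 0⟩))
    (.leaf (.box ⟨291, -5, -2048, 8, -16, 449, 449176, 0, 0, 0, 0, 0, 0⟩ ⟨0, 0, 0, 0, 0, 0, 246378, 0, 0, 0, 0, 0, 0⟩ ⟨0, 0, 0, 0, 0, 0, 246378, 0, 0, 0, 0, 0, 0⟩ ⟨0, 0, 0, 0, 0, 0, 169741, 0, 0, 0, 0, 0, 0⟩ ⟨0, 0, 0, 0, 0, 0, 169741, 0, 0, 0, 0, 0, 0⟩ ⟨332, -16, -2048, 24, -39, 394, 129469, 0, 0, 0, 0, 0, 0⟩)))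
    (.s1
    (.leaf (.box ⟨295, -3, -2263, 6, -14, 493, 581885, 0, 0, 0, 0, 0, 0⟩ ⟨0, 0, 0, 0, 0, 0, 254404, 0, 0, 0, 0, 0, 0⟩ ⟨0, 0, 0, 0, 0, 0, 254404, 0, 0, 0, 0, 0, 0⟩ ⟨0, 0, 0, 0, 0, 0, 162788, 0, 0, 0, 0, 0, 0⟩ ⟨0, 0, 0, 0, 0, 0, 162788, 0, 0, 0, 0, 0, 0⟩ ⟨293, -12, -2048, 22, -44, 386, 119686, 0, 0, 0, 0, 0, 0⟩))
    (.leaf (.box ⟨286, -4, -2385, 6, -12, 501, 582746, 0, 0, 0, 0, 0, 0⟩ ⟨0, 0, 0, 0, 0, 0, 256273, 0, 0, 0, 0, 0, 0⟩ ⟨0, 0, 0, 0, 0, 0, 256273, 0, 0, 0, 0, 0, 0⟩ ⟨0, 0, 0, 0, 0, 0, 164254, 0, 0, 0, 0, 0, 0⟩ ⟨0, 0, 0, 0, 0, 0, 164254, 0, 0, 0, 0, 0, 0⟩ ⟨276, -15, -2048, 22, -33, 370, 120857, 0, 0, 0, 0, 0, 0⟩)))))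

/-- A piece of the tree. -/
noncomputable def tree52 : Tree LeafX :=
  .s1
    (.s3
    (.leaf (.box ⟨524, -3, -2048, 13, -34, 610, 484399, 0, 0, 0, 0, 0, 0⟩ ⟨0, 0, 0, 0, 0, 0, 264276, 0, 0, 0, 0, 0, 0⟩ ⟨0, 0, 0, 0, 0, 0, 264276, 0, 0, 0, 0, 0, 0⟩ ⟨0, 0, 0, 0, 0, 0, 181704, 0, 0, 0, 0, 0, 0⟩ ⟨0, 0, 0, 0, 0, 0, 181704, 0, 0, 0, 0, 0, 0⟩ ⟨592, -9, -2048, 39, -101, 544, 138447, 0, 0, 0, 0, 0, 0⟩))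
    (.s0
    (.s2
    (.leaf (.box ⟨320, -1, -2048, 7, -19, 557, 637045, 0, 0, 0, 0, 0, 0⟩ ⟨0, 0, 0, 0, 0, 0, 274722, 0, 0, 0, 0, 0, 0⟩ ⟨0, 0, 0, 0, 0, 0, 274722, 0, 0, 0, 0, 0, 0⟩ ⟨0, 0, 0, 0, 0, 0, 175121, 0, 0, 0, 0, 0, 0⟩ ⟨0, 0, 0, 0, 0, 0, 175121, 0, 0, 0, 0, 0, 0⟩ ⟨353, -6, -2048, 28, -78, 489, 128524, 0, 0, 0, 0, 0, 0⟩))
    (.leaf (.box ⟨335, -2, -2128, 6, -21, 553, 627012, 0, 0, 0, 0, 0, 0⟩ ⟨0, 0, 0, 0, 0, 0, 272542, 0, 0, 0, 0, 0, 0⟩ ⟨0, 0, 0, 0, 0, 0, 272542, 0, 0, 0, 0, 0, 0⟩ ⟨0, 0, 0, 0, 0, 0, 174112, 0, 0, 0, 0, 0, 0⟩ ⟨0, 0, 0, 0, 0, 0, 174112, 0, 0, 0, 0, 0, 0⟩ ⟨356, -8, -2048, 26, -80, 461, 127914, 0, 0, 0, 0, 0, 0⟩)))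
    (.leaf (.box ⟨398, -2, -2048, 8, -23, 584, 654479, 0, 0, 0, 0, 0, 0⟩ ⟨0, 0, 0, 0, 0, 0, 284497, 0, 0, 0, 0, 0, 0⟩ ⟨0, 0, 0, 0, 0, 0, 284497, 0, 0, 0, 0, 0, 0⟩ ⟨0, 0, 0, 0, 0, 0, 181752, 0, 0, 0, 0, 0, 0⟩ ⟨0, 0, 0, 0, 0, 0, 181752, 0, 0, 0, 0, 0, 0⟩ ⟨450, -7, -2048, 32, -94, 507, 133528, 0, 0, 0, 0, 0, 0⟩))))
    (.s3
    (.leaf (.box ⟨460, -5, -2048, 13, -24, 542, 482907, 0, 0, 0, 0, 0, 0⟩ ⟨0, 0, 0, 0, 0, 0, 264225, 0, 0, 0, 0, 0, 0⟩ ⟨0, 0, 0, 0, 0, 0, 264225, 0, 0, 0, 0, 0, 0⟩ ⟨0, 0, 0, 0, 0, 0, 181867, 0, 0, 0, 0, 0, 0⟩ ⟨0, 0, 0, 0, 0, 0, 181867, 0, 0, 0, 0, 0, 0⟩ ⟨480, -15, -2048, 37, -67, 468, 138650, 0, 0, 0, 0, 0, 0⟩))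
    (.s2
    (.leaf (.box ⟨337, -3, -2048, 9, -14, 521, 636534, 0, 0, 0, 0, 0, 0⟩ ⟨0, 0, 0, 0, 0, 0, 275814, 0, 0, 0, 0, 0, 0⟩ ⟨0, 0, 0, 0, 0, 0, 275814, 0, 0, 0, 0, 0, 0⟩ ⟨0, 0, 0, 0, 0, 0, 176048, 0, 0, 0, 0, 0, 0⟩ ⟨0, 0, 0, 0, 0, 0, 176048, 0, 0, 0, 0, 0, 0⟩ ⟨368, -12, -2048, 35, -56, 454, 129284, 0, 0, 0, 0, 0, 0⟩))
    (.leaf (.box ⟨346, -4, -2048, 8, -17, 497, 626473, 0, 0, 0, 0, 0, 0⟩ ⟨0, 0, 0, 0, 0, 0, 273846, 0, 0, 0, 0, 0, 0⟩ ⟨0, 0, 0, 0, 0, 0, 273846, 0, 0, 0, 0, 0, 0⟩ ⟨0, 0, 0, 0, 0, 0, 175220, 0, 0, 0, 0, 0, 0⟩ ⟨0, 0, 0, 0, 0, 0, 175220, 0, 0, 0, 0, 0, 0⟩ ⟨379, -17, -2048, 35, -61, 427, 128823, 0, 0, 0, 0, 0, 0⟩))))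

/-- A piece of the tree. -/
noncomputable def tree53 : Tree LeafX :=
  .s0
    (.s1
    (.s2
    (.s3
    (.s1
    (.leaf (.box ⟨364, -3, -2048, 8, -27, 498, 444433, 0, 0, 0, 0, 0, 0⟩ ⟨0, 0, 0, 0, 0, 0, 242777, 0, 0, 0, 0, 0, 0⟩ ⟨0, 0, 0, 0, 0, 0, 242777, 0, 0, 0, 0, 0, 0⟩ ⟨0, 0, 0, 0, 0, 0, 167002, 0, 0, 0, 0, 0, 0⟩ ⟨0, 0, 0, 0, 0, 0, 167002, 0, 0, 0, 0, 0, 0⟩ ⟨395, -12, -2048, 26, -79, 440, 127276, 0, 0, 0, 0, 0, 0⟩))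
    (.leaf (.box ⟨330, -4, -2048, 7, -24, 467, 443237, 0, 0, 0, 0, 0, 0⟩ ⟨0, 0, 0, 0, 0, 0, 242705, 0, 0, 0, 0, 0, 0⟩ ⟨0, 0, 0, 0, 0, 0, 242705, 0, 0, 0, 0, 0, 0⟩ ⟨0, 0, 0, 0, 0, 0, 167104, 0, 0, 0, 0, 0, 0⟩ ⟨0, 0, 0, 0, 0, 0, 167104, 0, 0, 0, 0, 0, 0⟩ ⟨362, -14, -2048, 24, -66, 411, 127414, 0, 0, 0, 0, 0, 0⟩)))
    (.s1
    (.leaf (.box ⟨336, -3, -2191, 6, -20, 501, 570091, 0, 0, 0, 0, 0, 0⟩ ⟨322, -5, -2048, 11, -37, 446, 263002, 0, 0, 0, 0, 0, 0⟩ ⟨322, -5, -2048, 11, -37, 446, 263002, 0, 0, 0, 0, 0, 0⟩ ⟨329, -7, -2048, 16, -54, 425, 166538, 0, 0, 0, 0, 0, 0⟩ ⟨329, -7, -2048, 16, -54, 425, 166538, 0, 0, 0, 0, 0, 0⟩ ⟨330, -11, -2048, 24, -70, 405, 117653, 0, 0, 0, 0, 0, 0⟩))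
    (.leaf (.box ⟨360, -3, -2573, 6, -20, 557, 575172, 0, 0, 0, 0, 0, 0⟩ ⟨0, 0, 0, 0, 0, 0, 251765, 0, 0, 0, 0, 0, 0⟩ ⟨0, 0, 0, 0, 0, 0, 251765, 0, 0, 0, 0, 0, 0⟩ ⟨0, 0, 0, 0, 0, 0, 161153, 0, 0, 0, 0, 0, 0⟩ ⟨0, 0, 0, 0, 0, 0, 161153, 0, 0, 0, 0, 0, 0⟩ ⟨307, -12, -2048, 22, -58, 382, 118502, 0, 0, 0, 0, 0, 0⟩))))
    (.s3
    (.leaf (.box ⟨390, -5, -2048, 9, -26, 452, 441173, 0, 0, 0, 0, 0, 0⟩ ⟨0, 0, 0, 0, 0, 0, 241914, 0, 0, 0, 0, 0, 0⟩ ⟨0, 0, 0, 0, 0, 0, 241914, 0, 0, 0, 0, 0, 0⟩ ⟨0, 0, 0, 0, 0, 0, 166647, 0, 0, 0, 0, 0, 0⟩ ⟨0, 0, 0, 0, 0, 0, 166647, 0, 0, 0, 0, 0, 0⟩ ⟨416, -19, -2048, 32, -71, 399, 127101, 0, 0, 0, 0, 0, 0⟩))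
    (.leaf (.box ⟨347, -3, -2055, 6, -17, 431, 573225, 0, 0, 0, 0, 0, 0⟩ ⟨0, 0, 0, 0, 0, 0, 250606, 0, 0, 0, 0, 0, 0⟩ ⟨0, 0, 0, 0, 0, 0, 250606, 0, 0, 0, 0, 0, 0⟩ ⟨0, 0, 0, 0, 0, 0, 160356, 0, 0, 0, 0, 0, 0⟩ ⟨0, 0, 0, 0, 0, 0, 160356, 0, 0, 0, 0, 0, 0⟩ ⟨365, -17, -2048, 30, -63, 371, 117897, 0, 0, 0, 0, 0, 0⟩))))
    (.s2
    (.s3
    (.leaf (.box ⟨336, -7, -2048, 9, -19, 434, 442910, 0, 0, 0, 0, 0, 0⟩ ⟨0, 0, 0, 0, 0, 0, 243236, 0, 0, 0, 0, 0, 0⟩ ⟨0, 0, 0, 0, 0, 0, 243236, 0, 0, 0, 0, 0, 0⟩ ⟨0, 0, 0, 0, 0, 0, 167654, 0, 0, 0, 0, 0, 0⟩ ⟨0, 0, 0, 0, 0, 0, 167654, 0, 0, 0, 0, 0, 0⟩ ⟨392, -24, -2048, 31, -54, 384, 127908, 0, 0, 0, 0, 0, 0⟩))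
    (.s1
    (.leaf (.box ⟨344, -4, -2648, 6, -18, 547, 575263, 0, 0, 0, 0, 0, 0⟩ ⟨0, 0, 0, 0, 0, 0, 253200, 0, 0, 0, 0, 0, 0⟩ ⟨0, 0, 0, 0, 0, 0, 253200, 0, 0, 0, 0, 0, 0⟩ ⟨0, 0, 0, 0, 0, 0, 162323, 0, 0, 0, 0, 0, 0⟩ ⟨0, 0, 0, 0, 0, 0, 162323, 0, 0, 0, 0, 0, 0⟩ ⟨288, -15, -2048, 22, -46, 363, 119450, 0, 0, 0, 0, 0, 0⟩))
    (.leaf (.box ⟨292, -5, -2444, 6, -14, 487, 576294, 0, 0, 0, 0, 0, 0⟩ ⟨0, 0, 0, 0, 0, 0, 255180, 0, 0, 0, 0, 0, 0⟩ ⟨0, 0, 0, 0, 0, 0, 255180, 0, 0, 0, 0, 0, 0⟩ ⟨0, 0, 0, 0, 0, 0, 163871, 0, 0, 0, 0, 0, 0⟩ ⟨0, 0, 0, 0, 0, 0, 163871, 0, 0, 0, 0, 0, 0⟩ ⟨280, -17, -2048, 21, -36, 348, 120686, 0, 0, 0, 0, 0, 0⟩))))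
    (.s3
    (.leaf (.box ⟨329, -6, -2048, 8, -20, 407, 440978, 0, 0, 0, 0, 0, 0⟩ ⟨0, 0, 0, 0, 0, 0, 242743, 0, 0, 0, 0, 0, 0⟩ ⟨0, 0, 0, 0, 0, 0, 242743, 0, 0, 0, 0, 0, 0⟩ ⟨0, 0, 0, 0, 0, 0, 167463, 0, 0, 0, 0, 0, 0⟩ ⟨0, 0, 0, 0, 0, 0, 167463, 0, 0, 0, 0, 0, 0⟩ ⟨357, -27, -2048, 31, -49, 357, 127822, 0, 0, 0, 0, 0, 0⟩))
    (.leaf (.box ⟨302, -5, -2146, 6, -14, 412, 573501, 0, 0, 0, 0, 0, 0⟩ ⟨0, 0, 0, 0, 0, 0, 253035, 0, 0, 0, 0, 0, 0⟩ ⟨0, 0, 0, 0, 0, 0, 253035, 0, 0, 0, 0, 0, 0⟩ ⟨0, 0, 0, 0, 0, 0, 162328, 0, 0, 0, 0, 0, 0⟩ ⟨0, 0, 0, 0, 0, 0, 162328, 0, 0, 0, 0, 0, 0⟩ ⟨305, -21, -2048, 26, -43, 337, 119492, 0, 0, 0, 0, 0, 0⟩)))))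
    (.s1
    (.s0
    (.s3
    (.leaf (.box ⟨434, -3, -2048, 8, -31, 518, 479344, 0, 0, 0, 0, 0, 0⟩ ⟨0, 0, 0, 0, 0, 0, 262772, 0, 0, 0, 0, 0, 0⟩ ⟨0, 0, 0, 0, 0, 0, 262772, 0, 0, 0, 0, 0, 0⟩ ⟨0, 0, 0, 0, 0, 0, 180997, 0, 0, 0, 0, 0, 0⟩ ⟨0, 0, 0, 0, 0, 0, 180997, 0, 0, 0, 0, 0, 0⟩ ⟨464, -12, -2048, 27, -90, 457, 138038, 0, 0, 0, 0, 0, 0⟩))
    (.leaf (.box ⟨394, -3, -2115, 6, -22, 501, 622372, 0, 0, 0, 0, 0, 0⟩ ⟨0, 0, 0, 0, 0, 0, 271842, 0, 0, 0, 0, 0, 0⟩ ⟨0, 0, 0, 0, 0, 0, 271842, 0, 0, 0, 0, 0, 0⟩ ⟨0, 0, 0, 0, 0, 0, 173899, 0, 0, 0, 0, 0, 0⟩ ⟨0, 0, 0, 0, 0, 0, 173899, 0, 0, 0, 0, 0, 0⟩ ⟨399, -12, -2048, 26, -79, 418, 127839, 0, 0, 0, 0, 0, 0⟩)))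
    (.leaf (.box ⟨494, -4, -2048, 10, -34, 537, 502037, 0, 0, 0, 0, 0, 0⟩ ⟨0, 0, 0, 0, 0, 0, 257934, 0, 0, 0, 0, 0, 0⟩ ⟨0, 0, 0, 0, 0, 0, 257934, 0, 0, 0, 0, 0, 0⟩ ⟨0, 0, 0, 0, 0, 0, 173550, 0, 0, 0, 0, 0, 0⟩ ⟨0, 0, 0, 0, 0, 0, 173550, 0, 0, 0, 0, 0, 0⟩ ⟨540, -15, -2048, 38, -105, 467, 130768, 0, 0, 0, 0, 0, 0⟩)))
    (.s3
    (.leaf (.box ⟨440, -6, -2048, 10, -27, 479, 478056, 0, 0, 0, 0, 0, 0⟩ ⟨0, 0, 0, 0, 0, 0, 262834, 0, 0, 0, 0, 0, 0⟩ ⟨0, 0, 0, 0, 0, 0, 262834, 0, 0, 0, 0, 0, 0⟩ ⟨0, 0, 0, 0, 0, 0, 181240, 0, 0, 0, 0, 0, 0⟩ ⟨0, 0, 0, 0, 0, 0, 181240, 0, 0, 0, 0, 0, 0⟩ ⟨464, -23, -2048, 36, -74, 420, 138304, 0, 0, 0, 0, 0, 0⟩))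
    (.leaf (.box ⟨386, -4, -2048, 7, -18, 453, 622056, 0, 0, 0, 0, 0, 0⟩ ⟨0, 0, 0, 0, 0, 0, 273294, 0, 0, 0, 0, 0, 0⟩ ⟨0, 0, 0, 0, 0, 0, 273294, 0, 0, 0, 0, 0, 0⟩ ⟨0, 0, 0, 0, 0, 0, 175115, 0, 0, 0, 0, 0, 0⟩ ⟨0, 0, 0, 0, 0, 0, 175115, 0, 0, 0, 0, 0, 0⟩ ⟨404, -27, -2048, 44, -53, 389, 128832, 0, 0, 0, 0, 0, 0⟩))))

theorem parts1 :
    (runPathS conQ supQ (fun n Qs i d x => leafR conQ seg n Qs i d x) [.d0 false, .d1 false, .d2 false, .d0 true, .d1 true, .d0 true, .d1 true, .d0 true] tree27 0 0 0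
      (joinS (lay.B * lay.size) rootQ) = true) ∧
    (runPathS conQ supQ (fun n Qs i d x => leafR conQ seg n Qs i d x) [.d0 false, .d1 false, .d2 true, .d0 false, .d1 false, .d0 false] tree28 0 0 0
      (joinS (lay.B * lay.size) rootQ) = true) ∧
    (runPathS conQ supQ (fun n Qs i d x => leafR conQ seg n Qs i d x) [.d0 false, .d1 false, .d2 true, .d0 false, .d1 false, .d0 true, .d1 false] tree29 0 0 0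
      (joinS (lay.B * lay.size) rootQ) = true) ∧
    (runPathS conQ supQ (fun n Qs i d x => leafR conQ seg n Qs i d x) [.d0 false, .d1 false, .d2 true, .d0 false, .d1 false, .d0 true, .d1 true] tree30 0 0 0
      (joinS (lay.B * lay.size) rootQ) = true) ∧
    (runPathS conQ supQ (fun n Qs i d x => leafR conQ seg n Qs i d x) [.d0 false, .d1 false, .d2 true, .d0 false, .d1 true] tree31 0 0 0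
      (joinS (lay.B * lay.size) rootQ) = true) ∧
    (runPathS conQ supQ (fun n Qs i d x => leafR conQ seg n Qs i d x) [.d0 false, .d1 false, .d2 true, .d0 true, .d1 false, .d2 false] tree32 0 0 0
      (joinS (lay.B * lay.size) rootQ) = true) ∧
    (runPathS conQ supQ (fun n Qs i d x => leafR conQ seg n Qs i d x) [.d0 false, .d1 false, .d2 true, .d0 true, .d1 false, .d2 true, .d2 false] tree33 0 0 0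
      (joinS (lay.B * lay.size) rootQ) = true) ∧
    (runPathS conQ supQ (fun n Qs i d x => leafR conQ seg n Qs i d x) [.d0 false, .d1 false, .d2 true, .d0 true, .d1 false, .d2 true, .d2 true, .d0 false] tree34 0 0 0
      (joinS (lay.B * lay.size) rootQ) = true) ∧
    (runPathS conQ supQ (fun n Qs i d x => leafR conQ seg n Qs i d x) [.d0 false, .d1 false, .d2 true, .d0 true, .d1 false, .d2 true, .d2 true, .d0 true] tree35 0 0 0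
      (joinS (lay.B * lay.size) rootQ) = true) ∧
    (runPathS conQ supQ (fun n Qs i d x => leafR conQ seg n Qs i d x) [.d0 false, .d1 false, .d2 true, .d0 true, .d1 true, .d1 false] tree36 0 0 0
      (joinS (lay.B * lay.size) rootQ) = true) ∧
    (runPathS conQ supQ (fun n Qs i d x => leafR conQ seg n Qs i d x) [.d0 false, .d1 false, .d2 true, .d0 true, .d1 true, .d1 true] tree37 0 0 0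
      (joinS (lay.B * lay.size) rootQ) = true) ∧
    (runPathS conQ supQ (fun n Qs i d x => leafR conQ seg n Qs i d x) [.d0 false, .d1 true, .d2 false, .d0 false] tree38 0 0 0
      (joinS (lay.B * lay.size) rootQ) = true) ∧
    (runPathS conQ supQ (fun n Qs i d x => leafR conQ seg n Qs i d x) [.d0 false, .d1 true, .d2 false, .d0 true, .d1 false, .d0 false] tree39 0 0 0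
      (joinS (lay.B * lay.size) rootQ) = true) ∧
    (runPathS conQ supQ (fun n Qs i d x => leafR conQ seg n Qs i d x) [.d0 false, .d1 true, .d2 false, .d0 true, .d1 false, .d0 true, .d1 false, .d0 false, .d1 false, .d2 false, .d0 false] tree40 0 0 0
      (joinS (lay.B * lay.size) rootQ) = true) ∧
    (runPathS conQ supQ (fun n Qs i d x => leafR conQ seg n Qs i d x) [.d0 false, .d1 true, .d2 false, .d0 true, .d1 false, .d0 true, .d1 false, .d0 false, .d1 false, .d2 false, .d0 true] tree41 0 0 0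
      (joinS (lay.B * lay.size) rootQ) = true) ∧
    (runPathS conQ supQ (fun n Qs i d x => leafR conQ seg n Qs i d x) [.d0 false, .d1 true, .d2 false, .d0 true, .d1 false, .d0 true, .d1 false, .d0 false, .d1 false, .d2 true] tree42 0 0 0
      (joinS (lay.B * lay.size) rootQ) = true) ∧
    (runPathS conQ supQ (fun n Qs i d x => leafR conQ seg n Qs i d x) [.d0 false, .d1 true, .d2 false, .d0 true, .d1 false, .d0 true, .d1 false, .d0 false, .d1 true, .d0 false] tree43 0 0 0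
      (joinS (lay.B * lay.size) rootQ) = true) ∧
    (runPathS conQ supQ (fun n Qs i d x => leafR conQ seg n Qs i d x) [.d0 false, .d1 true, .d2 false, .d0 true, .d1 false, .d0 true, .d1 false, .d0 false, .d1 true, .d0 true, .d2 false] tree44 0 0 0
      (joinS (lay.B * lay.size) rootQ) = true) ∧
    (runPathS conQ supQ (fun n Qs i d x => leafR conQ seg n Qs i d x) [.d0 false, .d1 true, .d2 false, .d0 true, .d1 false, .d0 true, .d1 false, .d0 false, .d1 true, .d0 true, .d2 true] tree45 0 0 0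
      (joinS (lay.B * lay.size) rootQ) = true) ∧
    (runPathS conQ supQ (fun n Qs i d x => leafR conQ seg n Qs i d x) [.d0 false, .d1 true, .d2 false, .d0 true, .d1 false, .d0 true, .d1 false, .d0 true, .d2 false, .d2 false] tree46 0 0 0
      (joinS (lay.B * lay.size) rootQ) = true) ∧
    (runPathS conQ supQ (fun n Qs i d x => leafR conQ seg n Qs i d x) [.d0 false, .d1 true, .d2 false, .d0 true, .d1 false, .d0 true, .d1 false, .d0 true, .d2 false, .d2 true] tree47 0 0 0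
      (joinS (lay.B * lay.size) rootQ) = true) ∧
    (runPathS conQ supQ (fun n Qs i d x => leafR conQ seg n Qs i d x) [.d0 false, .d1 true, .d2 false, .d0 true, .d1 false, .d0 true, .d1 false, .d0 true, .d2 true] tree48 0 0 0
      (joinS (lay.B * lay.size) rootQ) = true) ∧
    (runPathS conQ supQ (fun n Qs i d x => leafR conQ seg n Qs i d x) [.d0 false, .d1 true, .d2 false, .d0 true, .d1 false, .d0 true, .d1 true, .d2 false, .d0 false, .d0 false] tree49 0 0 0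
      (joinS (lay.B * lay.size) rootQ) = true) ∧
    (runPathS conQ supQ (fun n Qs i d x => leafR conQ seg n Qs i d x) [.d0 false, .d1 true, .d2 false, .d0 true, .d1 false, .d0 true, .d1 true, .d2 false, .d0 false, .d0 true] tree50 0 0 0
      (joinS (lay.B * lay.size) rootQ) = true) ∧
    (runPathS conQ supQ (fun n Qs i d x => leafR conQ seg n Qs i d x) [.d0 false, .d1 true, .d2 false, .d0 true, .d1 false, .d0 true, .d1 true, .d2 false, .d0 true, .d2 false, .d0 false] tree51 0 0 0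
      (joinS (lay.B * lay.size) rootQ) = true) ∧
    (runPathS conQ supQ (fun n Qs i d x => leafR conQ seg n Qs i d x) [.d0 false, .d1 true, .d2 false, .d0 true, .d1 false, .d0 true, .d1 true, .d2 false, .d0 true, .d2 false, .d0 true] tree52 0 0 0
      (joinS (lay.B * lay.size) rootQ) = true) ∧
    (runPathS conQ supQ (fun n Qs i d x => leafR conQ seg n Qs i d x) [.d0 false, .d1 true, .d2 false, .d0 true, .d1 false, .d0 true, .d1 true, .d2 false, .d0 true, .d2 true] tree53 0 0 0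
      (joinS (lay.B * lay.size) rootQ) = true) :=
  ⟨by decide +kernel,
  by decide +kernel,
  by decide +kernel,
  by decide +kernel,
  by decide +kernel,
  by decide +kernel,
  by decide +kernel,
  by decide +kernel,
  by decide +kernel,
  by decide +kernel,
  by decide +kernel,
  by decide +kernel,
  by decide +kernel,
  by decide +kernel,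
  by decide +kernel,
  by decide +kernel,
  by decide +kernel,
  by decide +kernel,
  by decide +kernel,
  by decide +kernel,
  by decide +kernel,
  by decide +kernel,
  by decide +kernel,
  by decide +kernel,
  by decide +kernel,
  by decide +kernel,
  by decide +kernel⟩

end Vale.Agent.P098.Six.S4
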