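import Vale.Agent.P098.Six.S4.Part0
import Vale.Agent.P098.Six.S4.Part1
import Vale.Agent.P098.Six.S4.Part2

/-!
# P098, six dimensions: the checked tree
-/

namespace Vale.Agent.P098.Six.S4

theorem ok0 (hp : Packed lay 995895077 root) :
    runPath (lay.con 995895077 1) (chkL seg) [.d0 false, .d1 false, .d2 false, .d0 false, .d1 false, .d0 false, .d1 false, .d0 false, .d1 false, .d2 false, .d1 false, .d2 false, .d0 false] tree0 0 0 0 root = true :=
  runPath_of_fastR supQ_good conQ_good rfl hp parts0.1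

theorem ok1 (hp : Packed lay 995895077 root) :
    runPath (lay.con 995895077 1) (chkL seg) [.d0 false, .d1 false, .d2 false, .d0 false, .d1 false, .d0 false, .d1 false, .d0 false, .d1 false, .d2 false, .d1 false, .d2 false, .d0 true] tree1 0 0 0 root = true :=
  runPath_of_fastR supQ_good conQ_good rfl hp parts0.2.1

theorem ok2 (hp : Packed lay 995895077 root) :
    runPath (lay.con 995895077 1) (chkL seg) [.d0 false, .d1 false, .d2 false, .d0 false, .d1 false, .d0 false, .d1 false, .d0 false, .d1 false, .d2 false, .d1 false, .d2 true] tree2 0 0 0 root = true :=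
  runPath_of_fastR supQ_good conQ_good rfl hp parts0.2.2.1

theorem ok3 (hp : Packed lay 995895077 root) :
    runPath (lay.con 995895077 1) (chkL seg) [.d0 false, .d1 false, .d2 false, .d0 false, .d1 false, .d0 false, .d1 false, .d0 false, .d1 false, .d2 false, .d1 true] tree3 0 0 0 root = true :=
  runPath_of_fastR supQ_good conQ_good rfl hp parts0.2.2.2.1

theorem ok4 (hp : Packed lay 995895077 root) :
    runPath (lay.con 995895077 1) (chkL seg) [.d0 false, .d1 false, .d2 false, .d0 false, .d1 false, .d0 false, .d1 false, .d0 false, .d1 false, .d2 true] tree4 0 0 0 root = true :=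
  runPath_of_fastR supQ_good conQ_good rfl hp parts0.2.2.2.2.1

theorem ok5 (hp : Packed lay 995895077 root) :
    runPath (lay.con 995895077 1) (chkL seg) [.d0 false, .d1 false, .d2 false, .d0 false, .d1 false, .d0 false, .d1 false, .d0 false, .d1 true] tree5 0 0 0 root = true :=
  runPath_of_fastR supQ_good conQ_good rfl hp parts0.2.2.2.2.2.1

theorem ok6 (hp : Packed lay 995895077 root) :
    runPath (lay.con 995895077 1) (chkL seg) [.d0 false, .d1 false, .d2 false, .d0 false, .d1 false, .d0 false, .d1 false, .d0 true, .d2 false, .d1 false] tree6 0 0 0 root = true :=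
  runPath_of_fastR supQ_good conQ_good rfl hp parts0.2.2.2.2.2.2.1

theorem ok7 (hp : Packed lay 995895077 root) :
    runPath (lay.con 995895077 1) (chkL seg) [.d0 false, .d1 false, .d2 false, .d0 false, .d1 false, .d0 false, .d1 false, .d0 true, .d2 false, .d1 true, .d0 false] tree7 0 0 0 root = true :=
  runPath_of_fastR supQ_good conQ_good rfl hp parts0.2.2.2.2.2.2.2.1

theorem ok8 (hp : Packed lay 995895077 root) :
    runPath (lay.con 995895077 1) (chkL seg) [.d0 false, .d1 false, .d2 false, .d0 false, .d1 false, .d0 false, .d1 false, .d0 true, .d2 false, .d1 true, .d0 true] tree8 0 0 0 root = true :=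
  runPath_of_fastR supQ_good conQ_good rfl hp parts0.2.2.2.2.2.2.2.2.1

theorem ok9 (hp : Packed lay 995895077 root) :
    runPath (lay.con 995895077 1) (chkL seg) [.d0 false, .d1 false, .d2 false, .d0 false, .d1 false, .d0 false, .d1 false, .d0 true, .d2 true] tree9 0 0 0 root = true :=
  runPath_of_fastR supQ_good conQ_good rfl hp parts0.2.2.2.2.2.2.2.2.2.1

theorem ok10 (hp : Packed lay 995895077 root) :
    runPath (lay.con 995895077 1) (chkL seg) [.d0 false, .d1 false, .d2 false, .d0 false, .d1 false, .d0 false, .d1 true] tree10 0 0 0 root = true :=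
  runPath_of_fastR supQ_good conQ_good rfl hp parts0.2.2.2.2.2.2.2.2.2.2.1

theorem ok11 (hp : Packed lay 995895077 root) :
    runPath (lay.con 995895077 1) (chkL seg) [.d0 false, .d1 false, .d2 false, .d0 false, .d1 false, .d0 true, .d1 false] tree11 0 0 0 root = true :=
  runPath_of_fastR supQ_good conQ_good rfl hp parts0.2.2.2.2.2.2.2.2.2.2.2.1

theorem ok12 (hp : Packed lay 995895077 root) :
    runPath (lay.con 995895077 1) (chkL seg) [.d0 false, .d1 false, .d2 false, .d0 false, .d1 false, .d0 true, .d1 true, .d0 false, .d1 false, .d2 false] tree12 0 0 0 root = true :=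
  runPath_of_fastR supQ_good conQ_good rfl hp parts0.2.2.2.2.2.2.2.2.2.2.2.2.1

theorem ok13 (hp : Packed lay 995895077 root) :
    runPath (lay.con 995895077 1) (chkL seg) [.d0 false, .d1 false, .d2 false, .d0 false, .d1 false, .d0 true, .d1 true, .d0 false, .d1 false, .d2 true] tree13 0 0 0 root = true :=
  runPath_of_fastR supQ_good conQ_good rfl hp parts0.2.2.2.2.2.2.2.2.2.2.2.2.2.1

theorem ok14 (hp : Packed lay 995895077 root) :
    runPath (lay.con 995895077 1) (chkL seg) [.d0 false, .d1 false, .d2 false, .d0 false, .d1 false, .d0 true, .d1 true, .d0 false, .d1 true] tree14 0 0 0 root = true :=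
  runPath_of_fastR supQ_good conQ_good rfl hp parts0.2.2.2.2.2.2.2.2.2.2.2.2.2.2.1

theorem ok15 (hp : Packed lay 995895077 root) :
    runPath (lay.con 995895077 1) (chkL seg) [.d0 false, .d1 false, .d2 false, .d0 false, .d1 false, .d0 true, .d1 true, .d0 true] tree15 0 0 0 root = true :=
  runPath_of_fastR supQ_good conQ_good rfl hp parts0.2.2.2.2.2.2.2.2.2.2.2.2.2.2.2.1

theorem ok16 (hp : Packed lay 995895077 root) :
    runPath (lay.con 995895077 1) (chkL seg) [.d0 false, .d1 false, .d2 false, .d0 false, .d1 true] tree16 0 0 0 root = true :=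
  runPath_of_fastR supQ_good conQ_good rfl hp parts0.2.2.2.2.2.2.2.2.2.2.2.2.2.2.2.2.1

theorem ok17 (hp : Packed lay 995895077 root) :
    runPath (lay.con 995895077 1) (chkL seg) [.d0 false, .d1 false, .d2 false, .d0 true, .d1 false] tree17 0 0 0 root = true :=
  runPath_of_fastR supQ_good conQ_good rfl hp parts0.2.2.2.2.2.2.2.2.2.2.2.2.2.2.2.2.2.1

theorem ok18 (hp : Packed lay 995895077 root) :
    runPath (lay.con 995895077 1) (chkL seg) [.d0 false, .d1 false, .d2 false, .d0 true, .d1 true, .d0 false, .d1 false, .d0 false, .d1 false] tree18 0 0 0 root = true :=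
  runPath_of_fastR supQ_good conQ_good rfl hp parts0.2.2.2.2.2.2.2.2.2.2.2.2.2.2.2.2.2.2.1

theorem ok19 (hp : Packed lay 995895077 root) :
    runPath (lay.con 995895077 1) (chkL seg) [.d0 false, .d1 false, .d2 false, .d0 true, .d1 true, .d0 false, .d1 false, .d0 false, .d1 true] tree19 0 0 0 root = true :=
  runPath_of_fastR supQ_good conQ_good rfl hp parts0.2.2.2.2.2.2.2.2.2.2.2.2.2.2.2.2.2.2.2.1

theorem ok20 (hp : Packed lay 995895077 root) :
    runPath (lay.con 995895077 1) (chkL seg) [.d0 false, .d1 false, .d2 false, .d0 true, .d1 true, .d0 false, .d1 false, .d0 true] tree20 0 0 0 root = true :=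
  runPath_of_fastR supQ_good conQ_good rfl hp parts0.2.2.2.2.2.2.2.2.2.2.2.2.2.2.2.2.2.2.2.2.1

theorem ok21 (hp : Packed lay 995895077 root) :
    runPath (lay.con 995895077 1) (chkL seg) [.d0 false, .d1 false, .d2 false, .d0 true, .d1 true, .d0 false, .d1 true, .d0 false] tree21 0 0 0 root = true :=
  runPath_of_fastR supQ_good conQ_good rfl hp parts0.2.2.2.2.2.2.2.2.2.2.2.2.2.2.2.2.2.2.2.2.2.1

theorem ok22 (hp : Packed lay 995895077 root) :
    runPath (lay.con 995895077 1) (chkL seg) [.d0 false, .d1 false, .d2 false, .d0 true, .d1 true, .d0 false, .d1 true, .d0 true, .d1 false] tree22 0 0 0 root = true :=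
  runPath_of_fastR supQ_good conQ_good rfl hp parts0.2.2.2.2.2.2.2.2.2.2.2.2.2.2.2.2.2.2.2.2.2.2.1

theorem ok23 (hp : Packed lay 995895077 root) :
    runPath (lay.con 995895077 1) (chkL seg) [.d0 false, .d1 false, .d2 false, .d0 true, .d1 true, .d0 false, .d1 true, .d0 true, .d1 true] tree23 0 0 0 root = true :=
  runPath_of_fastR supQ_good conQ_good rfl hp parts0.2.2.2.2.2.2.2.2.2.2.2.2.2.2.2.2.2.2.2.2.2.2.2.1

theorem ok24 (hp : Packed lay 995895077 root) :
    runPath (lay.con 995895077 1) (chkL seg) [.d0 false, .d1 false, .d2 false, .d0 true, .d1 true, .d0 true, .d1 false] tree24 0 0 0 root = true :=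
  runPath_of_fastR supQ_good conQ_good rfl hp parts0.2.2.2.2.2.2.2.2.2.2.2.2.2.2.2.2.2.2.2.2.2.2.2.2.1

theorem ok25 (hp : Packed lay 995895077 root) :
    runPath (lay.con 995895077 1) (chkL seg) [.d0 false, .d1 false, .d2 false, .d0 true, .d1 true, .d0 true, .d1 true, .d0 false, .d1 false] tree25 0 0 0 root = true :=
  runPath_of_fastR supQ_good conQ_good rfl hp parts0.2.2.2.2.2.2.2.2.2.2.2.2.2.2.2.2.2.2.2.2.2.2.2.2.2.1

theorem ok26 (hp : Packed lay 995895077 root) :
    runPath (lay.con 995895077 1) (chkL seg) [.d0 false, .d1 false, .d2 false, .d0 true, .d1 true, .d0 true, .d1 true, .d0 false, .d1 true] tree26 0 0 0 root = true :=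
  runPath_of_fastR supQ_good conQ_good rfl hp parts0.2.2.2.2.2.2.2.2.2.2.2.2.2.2.2.2.2.2.2.2.2.2.2.2.2.2

theorem ok27 (hp : Packed lay 995895077 root) :
    runPath (lay.con 995895077 1) (chkL seg) [.d0 false, .d1 false, .d2 false, .d0 true, .d1 true, .d0 true, .d1 true, .d0 true] tree27 0 0 0 root = true :=
  runPath_of_fastR supQ_good conQ_good rfl hp parts1.1

theorem ok28 (hp : Packed lay 995895077 root) :
    runPath (lay.con 995895077 1) (chkL seg) [.d0 false, .d1 false, .d2 true, .d0 false, .d1 false, .d0 false] tree28 0 0 0 root = true :=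
  runPath_of_fastR supQ_good conQ_good rfl hp parts1.2.1

theorem ok29 (hp : Packed lay 995895077 root) :
    runPath (lay.con 995895077 1) (chkL seg) [.d0 false, .d1 false, .d2 true, .d0 false, .d1 false, .d0 true, .d1 false] tree29 0 0 0 root = true :=
  runPath_of_fastR supQ_good conQ_good rfl hp parts1.2.2.1

theorem ok30 (hp : Packed lay 995895077 root) :
    runPath (lay.con 995895077 1) (chkL seg) [.d0 false, .d1 false, .d2 true, .d0 false, .d1 false, .d0 true, .d1 true] tree30 0 0 0 root = true :=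
  runPath_of_fastR supQ_good conQ_good rfl hp parts1.2.2.2.1

theorem ok31 (hp : Packed lay 995895077 root) :
    runPath (lay.con 995895077 1) (chkL seg) [.d0 false, .d1 false, .d2 true, .d0 false, .d1 true] tree31 0 0 0 root = true :=
  runPath_of_fastR supQ_good conQ_good rfl hp parts1.2.2.2.2.1

theorem ok32 (hp : Packed lay 995895077 root) :
    runPath (lay.con 995895077 1) (chkL seg) [.d0 false, .d1 false, .d2 true, .d0 true, .d1 false, .d2 false] tree32 0 0 0 root = true :=
  runPath_of_fastR supQ_good conQ_good rfl hp parts1.2.2.2.2.2.1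

theorem ok33 (hp : Packed lay 995895077 root) :
    runPath (lay.con 995895077 1) (chkL seg) [.d0 false, .d1 false, .d2 true, .d0 true, .d1 false, .d2 true, .d2 false] tree33 0 0 0 root = true :=
  runPath_of_fastR supQ_good conQ_good rfl hp parts1.2.2.2.2.2.2.1

theorem ok34 (hp : Packed lay 995895077 root) :
    runPath (lay.con 995895077 1) (chkL seg) [.d0 false, .d1 false, .d2 true, .d0 true, .d1 false, .d2 true, .d2 true, .d0 false] tree34 0 0 0 root = true :=
  runPath_of_fastR supQ_good conQ_good rfl hp parts1.2.2.2.2.2.2.2.1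

theorem ok35 (hp : Packed lay 995895077 root) :
    runPath (lay.con 995895077 1) (chkL seg) [.d0 false, .d1 false, .d2 true, .d0 true, .d1 false, .d2 true, .d2 true, .d0 true] tree35 0 0 0 root = true :=
  runPath_of_fastR supQ_good conQ_good rfl hp parts1.2.2.2.2.2.2.2.2.1

theorem ok36 (hp : Packed lay 995895077 root) :
    runPath (lay.con 995895077 1) (chkL seg) [.d0 false, .d1 false, .d2 true, .d0 true, .d1 true, .d1 false] tree36 0 0 0 root = true :=
  runPath_of_fastR supQ_good conQ_good rfl hp parts1.2.2.2.2.2.2.2.2.2.1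

theorem ok37 (hp : Packed lay 995895077 root) :
    runPath (lay.con 995895077 1) (chkL seg) [.d0 false, .d1 false, .d2 true, .d0 true, .d1 true, .d1 true] tree37 0 0 0 root = true :=
  runPath_of_fastR supQ_good conQ_good rfl hp parts1.2.2.2.2.2.2.2.2.2.2.1

theorem ok38 (hp : Packed lay 995895077 root) :
    runPath (lay.con 995895077 1) (chkL seg) [.d0 false, .d1 true, .d2 false, .d0 false] tree38 0 0 0 root = true :=
  runPath_of_fastR supQ_good conQ_good rfl hp parts1.2.2.2.2.2.2.2.2.2.2.2.1

theorem ok39 (hp : Packed lay 995895077 root) :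
    runPath (lay.con 995895077 1) (chkL seg) [.d0 false, .d1 true, .d2 false, .d0 true, .d1 false, .d0 false] tree39 0 0 0 root = true :=
  runPath_of_fastR supQ_good conQ_good rfl hp parts1.2.2.2.2.2.2.2.2.2.2.2.2.1

theorem ok40 (hp : Packed lay 995895077 root) :
    runPath (lay.con 995895077 1) (chkL seg) [.d0 false, .d1 true, .d2 false, .d0 true, .d1 false, .d0 true, .d1 false, .d0 false, .d1 false, .d2 false, .d0 false] tree40 0 0 0 root = true :=
  runPath_of_fastR supQ_good conQ_good rfl hp parts1.2.2.2.2.2.2.2.2.2.2.2.2.2.1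

theorem ok41 (hp : Packed lay 995895077 root) :
    runPath (lay.con 995895077 1) (chkL seg) [.d0 false, .d1 true, .d2 false, .d0 true, .d1 false, .d0 true, .d1 false, .d0 false, .d1 false, .d2 false, .d0 true] tree41 0 0 0 root = true :=
  runPath_of_fastR supQ_good conQ_good rfl hp parts1.2.2.2.2.2.2.2.2.2.2.2.2.2.2.1

theorem ok42 (hp : Packed lay 995895077 root) :
    runPath (lay.con 995895077 1) (chkL seg) [.d0 false, .d1 true, .d2 false, .d0 true, .d1 false, .d0 true, .d1 false, .d0 false, .d1 false, .d2 true] tree42 0 0 0 root = true :=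
  runPath_of_fastR supQ_good conQ_good rfl hp parts1.2.2.2.2.2.2.2.2.2.2.2.2.2.2.2.1

theorem ok43 (hp : Packed lay 995895077 root) :
    runPath (lay.con 995895077 1) (chkL seg) [.d0 false, .d1 true, .d2 false, .d0 true, .d1 false, .d0 true, .d1 false, .d0 false, .d1 true, .d0 false] tree43 0 0 0 root = true :=
  runPath_of_fastR supQ_good conQ_good rfl hp parts1.2.2.2.2.2.2.2.2.2.2.2.2.2.2.2.2.1

theorem ok44 (hp : Packed lay 995895077 root) :
    runPath (lay.con 995895077 1) (chkL seg) [.d0 false, .d1 true, .d2 false, .d0 true, .d1 false, .d0 true, .d1 false, .d0 false, .d1 true, .d0 true, .d2 false] tree44 0 0 0 root = true :=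
  runPath_of_fastR supQ_good conQ_good rfl hp parts1.2.2.2.2.2.2.2.2.2.2.2.2.2.2.2.2.2.1

theorem ok45 (hp : Packed lay 995895077 root) :
    runPath (lay.con 995895077 1) (chkL seg) [.d0 false, .d1 true, .d2 false, .d0 true, .d1 false, .d0 true, .d1 false, .d0 false, .d1 true, .d0 true, .d2 true] tree45 0 0 0 root = true :=
  runPath_of_fastR supQ_good conQ_good rfl hp parts1.2.2.2.2.2.2.2.2.2.2.2.2.2.2.2.2.2.2.1

theorem ok46 (hp : Packed lay 995895077 root) :
    runPath (lay.con 995895077 1) (chkL seg) [.d0 false, .d1 true, .d2 false, .d0 true, .d1 false, .d0 true, .d1 false, .d0 true, .d2 false, .d2 false] tree46 0 0 0 root = true :=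
  runPath_of_fastR supQ_good conQ_good rfl hp parts1.2.2.2.2.2.2.2.2.2.2.2.2.2.2.2.2.2.2.2.1

theorem ok47 (hp : Packed lay 995895077 root) :
    runPath (lay.con 995895077 1) (chkL seg) [.d0 false, .d1 true, .d2 false, .d0 true, .d1 false, .d0 true, .d1 false, .d0 true, .d2 false, .d2 true] tree47 0 0 0 root = true :=
  runPath_of_fastR supQ_good conQ_good rfl hp parts1.2.2.2.2.2.2.2.2.2.2.2.2.2.2.2.2.2.2.2.2.1

theorem ok48 (hp : Packed lay 995895077 root) :
    runPath (lay.con 995895077 1) (chkL seg) [.d0 false, .d1 true, .d2 false, .d0 true, .d1 false, .d0 true, .d1 false, .d0 true, .d2 true] tree48 0 0 0 root = true :=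
  runPath_of_fastR supQ_good conQ_good rfl hp parts1.2.2.2.2.2.2.2.2.2.2.2.2.2.2.2.2.2.2.2.2.2.1

theorem ok49 (hp : Packed lay 995895077 root) :
    runPath (lay.con 995895077 1) (chkL seg) [.d0 false, .d1 true, .d2 false, .d0 true, .d1 false, .d0 true, .d1 true, .d2 false, .d0 false, .d0 false] tree49 0 0 0 root = true :=
  runPath_of_fastR supQ_good conQ_good rfl hp parts1.2.2.2.2.2.2.2.2.2.2.2.2.2.2.2.2.2.2.2.2.2.2.1

theorem ok50 (hp : Packed lay 995895077 root) :
    runPath (lay.con 995895077 1) (chkL seg) [.d0 false, .d1 true, .d2 false, .d0 true, .d1 false, .d0 true, .d1 true, .d2 false, .d0 false, .d0 true] tree50 0 0 0 root = true :=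
  runPath_of_fastR supQ_good conQ_good rfl hp parts1.2.2.2.2.2.2.2.2.2.2.2.2.2.2.2.2.2.2.2.2.2.2.2.1

theorem ok51 (hp : Packed lay 995895077 root) :
    runPath (lay.con 995895077 1) (chkL seg) [.d0 false, .d1 true, .d2 false, .d0 true, .d1 false, .d0 true, .d1 true, .d2 false, .d0 true, .d2 false, .d0 false] tree51 0 0 0 root = true :=
  runPath_of_fastR supQ_good conQ_good rfl hp parts1.2.2.2.2.2.2.2.2.2.2.2.2.2.2.2.2.2.2.2.2.2.2.2.2.1

theorem ok52 (hp : Packed lay 995895077 root) :
    runPath (lay.con 995895077 1) (chkL seg) [.d0 false, .d1 true, .d2 false, .d0 true, .d1 false, .d0 true, .d1 true, .d2 false, .d0 true, .d2 false, .d0 true] tree52 0 0 0 root = true :=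
  runPath_of_fastR supQ_good conQ_good rfl hp parts1.2.2.2.2.2.2.2.2.2.2.2.2.2.2.2.2.2.2.2.2.2.2.2.2.2.1

theorem ok53 (hp : Packed lay 995895077 root) :
    runPath (lay.con 995895077 1) (chkL seg) [.d0 false, .d1 true, .d2 false, .d0 true, .d1 false, .d0 true, .d1 true, .d2 false, .d0 true, .d2 true] tree53 0 0 0 root = true :=
  runPath_of_fastR supQ_good conQ_good rfl hp parts1.2.2.2.2.2.2.2.2.2.2.2.2.2.2.2.2.2.2.2.2.2.2.2.2.2.2

theorem ok54 (hp : Packed lay 995895077 root) :
    runPath (lay.con 995895077 1) (chkL seg) [.d0 false, .d1 true, .d2 false, .d0 true, .d1 false, .d0 true, .d1 true, .d2 true] tree54 0 0 0 root = true :=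
  runPath_of_fastR supQ_good conQ_good rfl hp parts2.1

theorem ok55 (hp : Packed lay 995895077 root) :
    runPath (lay.con 995895077 1) (chkL seg) [.d0 false, .d1 true, .d2 false, .d0 true, .d1 true, .d2 false, .d0 false] tree55 0 0 0 root = true :=
  runPath_of_fastR supQ_good conQ_good rfl hp parts2.2.1

theorem ok56 (hp : Packed lay 995895077 root) :
    runPath (lay.con 995895077 1) (chkL seg) [.d0 false, .d1 true, .d2 false, .d0 true, .d1 true, .d2 false, .d0 true, .d1 false] tree56 0 0 0 root = true :=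
  runPath_of_fastR supQ_good conQ_good rfl hp parts2.2.2.1

theorem ok57 (hp : Packed lay 995895077 root) :
    runPath (lay.con 995895077 1) (chkL seg) [.d0 false, .d1 true, .d2 false, .d0 true, .d1 true, .d2 false, .d0 true, .d1 true] tree57 0 0 0 root = true :=
  runPath_of_fastR supQ_good conQ_good rfl hp parts2.2.2.2.1

theorem ok58 (hp : Packed lay 995895077 root) :
    runPath (lay.con 995895077 1) (chkL seg) [.d0 false, .d1 true, .d2 false, .d0 true, .d1 true, .d2 true] tree58 0 0 0 root = true :=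
  runPath_of_fastR supQ_good conQ_good rfl hp parts2.2.2.2.2.1

theorem ok59 (hp : Packed lay 995895077 root) :
    runPath (lay.con 995895077 1) (chkL seg) [.d0 false, .d1 true, .d2 true, .d0 false] tree59 0 0 0 root = true :=
  runPath_of_fastR supQ_good conQ_good rfl hp parts2.2.2.2.2.2.1

theorem ok60 (hp : Packed lay 995895077 root) :
    runPath (lay.con 995895077 1) (chkL seg) [.d0 false, .d1 true, .d2 true, .d0 true] tree60 0 0 0 root = true :=
  runPath_of_fastR supQ_good conQ_good rfl hp parts2.2.2.2.2.2.2.1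

theorem ok61 (hp : Packed lay 995895077 root) :
    runPath (lay.con 995895077 1) (chkL seg) [.d0 true, .d1 false, .d2 false] tree61 0 0 0 root = true :=
  runPath_of_fastR supQ_good conQ_good rfl hp parts2.2.2.2.2.2.2.2.1

theorem ok62 (hp : Packed lay 995895077 root) :
    runPath (lay.con 995895077 1) (chkL seg) [.d0 true, .d1 false, .d2 true] tree62 0 0 0 root = true :=
  runPath_of_fastR supQ_good conQ_good rfl hp parts2.2.2.2.2.2.2.2.2.1

theorem ok63 (hp : Packed lay 995895077 root) :
    runPath (lay.con 995895077 1) (chkL seg) [.d0 true, .d1 true, .d2 false, .d0 false, .d1 false] tree63 0 0 0 root = true :=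
  runPath_of_fastR supQ_good conQ_good rfl hp parts2.2.2.2.2.2.2.2.2.2.1

theorem ok64 (hp : Packed lay 995895077 root) :
    runPath (lay.con 995895077 1) (chkL seg) [.d0 true, .d1 true, .d2 false, .d0 false, .d1 true] tree64 0 0 0 root = true :=
  runPath_of_fastR supQ_good conQ_good rfl hp parts2.2.2.2.2.2.2.2.2.2.2.1

theorem ok65 (hp : Packed lay 995895077 root) :
    runPath (lay.con 995895077 1) (chkL seg) [.d0 true, .d1 true, .d2 false, .d0 true] tree65 0 0 0 root = true :=
  runPath_of_fastR supQ_good conQ_good rfl hp parts2.2.2.2.2.2.2.2.2.2.2.2.1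

theorem ok66 (hp : Packed lay 995895077 root) :
    runPath (lay.con 995895077 1) (chkL seg) [.d0 true, .d1 true, .d2 true] tree66 0 0 0 root = true :=
  runPath_of_fastR supQ_good conQ_good rfl hp parts2.2.2.2.2.2.2.2.2.2.2.2.2

theorem tree_ok (hp : Packed lay 995895077 root) :
    ∃ T, run (lay.con 995895077 1) (chkL seg) T 0 0 0 root = true :=
  ⟨_, run_of_runPath (runPath_node (.d0 false) [] _ _ _ _ _ _
    (runPath_node (.d1 false) [.d0 false] _ _ _ _ _ _
    (runPath_node (.d2 false) [.d0 false, .d1 false] _ _ _ _ _ _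
    (runPath_node (.d0 false) [.d0 false, .d1 false, .d2 false] _ _ _ _ _ _
    (runPath_node (.d1 false) [.d0 false, .d1 false, .d2 false, .d0 false] _ _ _ _ _ _
    (runPath_node (.d0 false) [.d0 false, .d1 false, .d2 false, .d0 false, .d1 false] _ _ _ _ _ _
    (runPath_node (.d1 false) [.d0 false, .d1 false, .d2 false, .d0 false, .d1 false, .d0 false] _ _ _ _ _ _
    (runPath_node (.d0 false) [.d0 false, .d1 false, .d2 false, .d0 false, .d1 false, .d0 false, .d1 false] _ _ _ _ _ _
    (runPath_node (.d1 false) [.d0 false, .d1 false, .d2 false, .d0 false, .d1 false, .d0 false, .d1 false, .d0 false] _ _ _ _ _ _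
    (runPath_node (.d2 false) [.d0 false, .d1 false, .d2 false, .d0 false, .d1 false, .d0 false, .d1 false, .d0 false, .d1 false] _ _ _ _ _ _
    (runPath_node (.d1 false) [.d0 false, .d1 false, .d2 false, .d0 false, .d1 false, .d0 false, .d1 false, .d0 false, .d1 false, .d2 false] _ _ _ _ _ _
    (runPath_node (.d2 false) [.d0 false, .d1 false, .d2 false, .d0 false, .d1 false, .d0 false, .d1 false, .d0 false, .d1 false, .d2 false, .d1 false] _ _ _ _ _ _
    (runPath_node (.d0 false) [.d0 false, .d1 false, .d2 false, .d0 false, .d1 false, .d0 false, .d1 false, .d0 false, .d1 false, .d2 false, .d1 false, .d2 false] _ _ _ _ _ _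
    (ok0 hp)
    (ok1 hp))
    (ok2 hp))
    (ok3 hp))
    (ok4 hp))
    (ok5 hp))
    (runPath_node (.d2 false) [.d0 false, .d1 false, .d2 false, .d0 false, .d1 false, .d0 false, .d1 false, .d0 true] _ _ _ _ _ _
    (runPath_node (.d1 false) [.d0 false, .d1 false, .d2 false, .d0 false, .d1 false, .d0 false, .d1 false, .d0 true, .d2 false] _ _ _ _ _ _
    (ok6 hp)
    (runPath_node (.d0 false) [.d0 false, .d1 false, .d2 false, .d0 false, .d1 false, .d0 false, .d1 false, .d0 true, .d2 false, .d1 true] _ _ _ _ _ _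
    (ok7 hp)
    (ok8 hp)))
    (ok9 hp)))
    (ok10 hp))
    (runPath_node (.d1 false) [.d0 false, .d1 false, .d2 false, .d0 false, .d1 false, .d0 true] _ _ _ _ _ _
    (ok11 hp)
    (runPath_node (.d0 false) [.d0 false, .d1 false, .d2 false, .d0 false, .d1 false, .d0 true, .d1 true] _ _ _ _ _ _
    (runPath_node (.d1 false) [.d0 false, .d1 false, .d2 false, .d0 false, .d1 false, .d0 true, .d1 true, .d0 false] _ _ _ _ _ _
    (runPath_node (.d2 false) [.d0 false, .d1 false, .d2 false, .d0 false, .d1 false, .d0 true, .d1 true, .d0 false, .d1 false] _ _ _ _ _ _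
    (ok12 hp)
    (ok13 hp))
    (ok14 hp))
    (ok15 hp))))
    (ok16 hp))
    (runPath_node (.d1 false) [.d0 false, .d1 false, .d2 false, .d0 true] _ _ _ _ _ _
    (ok17 hp)
    (runPath_node (.d0 false) [.d0 false, .d1 false, .d2 false, .d0 true, .d1 true] _ _ _ _ _ _
    (runPath_node (.d1 false) [.d0 false, .d1 false, .d2 false, .d0 true, .d1 true, .d0 false] _ _ _ _ _ _
    (runPath_node (.d0 false) [.d0 false, .d1 false, .d2 false, .d0 true, .d1 true, .d0 false, .d1 false] _ _ _ _ _ _
    (runPath_node (.d1 false) [.d0 false, .d1 false, .d2 false, .d0 true, .d1 true, .d0 false, .d1 false, .d0 false] _ _ _ _ _ _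
    (ok18 hp)
    (ok19 hp))
    (ok20 hp))
    (runPath_node (.d0 false) [.d0 false, .d1 false, .d2 false, .d0 true, .d1 true, .d0 false, .d1 true] _ _ _ _ _ _
    (ok21 hp)
    (runPath_node (.d1 false) [.d0 false, .d1 false, .d2 false, .d0 true, .d1 true, .d0 false, .d1 true, .d0 true] _ _ _ _ _ _
    (ok22 hp)
    (ok23 hp))))
    (runPath_node (.d1 false) [.d0 false, .d1 false, .d2 false, .d0 true, .d1 true, .d0 true] _ _ _ _ _ _
    (ok24 hp)
    (runPath_node (.d0 false) [.d0 false, .d1 false, .d2 false, .d0 true, .d1 true, .d0 true, .d1 true] _ _ _ _ _ _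
    (runPath_node (.d1 false) [.d0 false, .d1 false, .d2 false, .d0 true, .d1 true, .d0 true, .d1 true, .d0 false] _ _ _ _ _ _
    (ok25 hp)
    (ok26 hp))
    (ok27 hp))))))
    (runPath_node (.d0 false) [.d0 false, .d1 false, .d2 true] _ _ _ _ _ _
    (runPath_node (.d1 false) [.d0 false, .d1 false, .d2 true, .d0 false] _ _ _ _ _ _
    (runPath_node (.d0 false) [.d0 false, .d1 false, .d2 true, .d0 false, .d1 false] _ _ _ _ _ _
    (ok28 hp)
    (runPath_node (.d1 false) [.d0 false, .d1 false, .d2 true, .d0 false, .d1 false, .d0 true] _ _ _ _ _ _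
    (ok29 hp)
    (ok30 hp)))
    (ok31 hp))
    (runPath_node (.d1 false) [.d0 false, .d1 false, .d2 true, .d0 true] _ _ _ _ _ _
    (runPath_node (.d2 false) [.d0 false, .d1 false, .d2 true, .d0 true, .d1 false] _ _ _ _ _ _
    (ok32 hp)
    (runPath_node (.d2 false) [.d0 false, .d1 false, .d2 true, .d0 true, .d1 false, .d2 true] _ _ _ _ _ _
    (ok33 hp)
    (runPath_node (.d0 false) [.d0 false, .d1 false, .d2 true, .d0 true, .d1 false, .d2 true, .d2 true] _ _ _ _ _ _
    (ok34 hp)
    (ok35 hp))))
    (runPath_node (.d1 false) [.d0 false, .d1 false, .d2 true, .d0 true, .d1 true] _ _ _ _ _ _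
    (ok36 hp)
    (ok37 hp)))))
    (runPath_node (.d2 false) [.d0 false, .d1 true] _ _ _ _ _ _
    (runPath_node (.d0 false) [.d0 false, .d1 true, .d2 false] _ _ _ _ _ _
    (ok38 hp)
    (runPath_node (.d1 false) [.d0 false, .d1 true, .d2 false, .d0 true] _ _ _ _ _ _
    (runPath_node (.d0 false) [.d0 false, .d1 true, .d2 false, .d0 true, .d1 false] _ _ _ _ _ _
    (ok39 hp)
    (runPath_node (.d1 false) [.d0 false, .d1 true, .d2 false, .d0 true, .d1 false, .d0 true] _ _ _ _ _ _
    (runPath_node (.d0 false) [.d0 false, .d1 true, .d2 false, .d0 true, .d1 false, .d0 true, .d1 false] _ _ _ _ _ _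
    (runPath_node (.d1 false) [.d0 false, .d1 true, .d2 false, .d0 true, .d1 false, .d0 true, .d1 false, .d0 false] _ _ _ _ _ _
    (runPath_node (.d2 false) [.d0 false, .d1 true, .d2 false, .d0 true, .d1 false, .d0 true, .d1 false, .d0 false, .d1 false] _ _ _ _ _ _
    (runPath_node (.d0 false) [.d0 false, .d1 true, .d2 false, .d0 true, .d1 false, .d0 true, .d1 false, .d0 false, .d1 false, .d2 false] _ _ _ _ _ _
    (ok40 hp)
    (ok41 hp))
    (ok42 hp))
    (runPath_node (.d0 false) [.d0 false, .d1 true, .d2 false, .d0 true, .d1 false, .d0 true, .d1 false, .d0 false, .d1 true] _ _ _ _ _ _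
    (ok43 hp)
    (runPath_node (.d2 false) [.d0 false, .d1 true, .d2 false, .d0 true, .d1 false, .d0 true, .d1 false, .d0 false, .d1 true, .d0 true] _ _ _ _ _ _
    (ok44 hp)
    (ok45 hp))))
    (runPath_node (.d2 false) [.d0 false, .d1 true, .d2 false, .d0 true, .d1 false, .d0 true, .d1 false, .d0 true] _ _ _ _ _ _
    (runPath_node (.d2 false) [.d0 false, .d1 true, .d2 false, .d0 true, .d1 false, .d0 true, .d1 false, .d0 true, .d2 false] _ _ _ _ _ _
    (ok46 hp)
    (ok47 hp))
    (ok48 hp)))
    (runPath_node (.d2 false) [.d0 false, .d1 true, .d2 false, .d0 true, .d1 false, .d0 true, .d1 true] _ _ _ _ _ _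
    (runPath_node (.d0 false) [.d0 false, .d1 true, .d2 false, .d0 true, .d1 false, .d0 true, .d1 true, .d2 false] _ _ _ _ _ _
    (runPath_node (.d0 false) [.d0 false, .d1 true, .d2 false, .d0 true, .d1 false, .d0 true, .d1 true, .d2 false, .d0 false] _ _ _ _ _ _
    (ok49 hp)
    (ok50 hp))
    (runPath_node (.d2 false) [.d0 false, .d1 true, .d2 false, .d0 true, .d1 false, .d0 true, .d1 true, .d2 false, .d0 true] _ _ _ _ _ _
    (runPath_node (.d0 false) [.d0 false, .d1 true, .d2 false, .d0 true, .d1 false, .d0 true, .d1 true, .d2 false, .d0 true, .d2 false] _ _ _ _ _ _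
    (ok51 hp)
    (ok52 hp))
    (ok53 hp)))
    (ok54 hp))))
    (runPath_node (.d2 false) [.d0 false, .d1 true, .d2 false, .d0 true, .d1 true] _ _ _ _ _ _
    (runPath_node (.d0 false) [.d0 false, .d1 true, .d2 false, .d0 true, .d1 true, .d2 false] _ _ _ _ _ _
    (ok55 hp)
    (runPath_node (.d1 false) [.d0 false, .d1 true, .d2 false, .d0 true, .d1 true, .d2 false, .d0 true] _ _ _ _ _ _
    (ok56 hp)
    (ok57 hp)))
    (ok58 hp))))
    (runPath_node (.d0 false) [.d0 false, .d1 true, .d2 true] _ _ _ _ _ _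
    (ok59 hp)
    (ok60 hp))))
    (runPath_node (.d1 false) [.d0 true] _ _ _ _ _ _
    (runPath_node (.d2 false) [.d0 true, .d1 false] _ _ _ _ _ _
    (ok61 hp)
    (ok62 hp))
    (runPath_node (.d2 false) [.d0 true, .d1 true] _ _ _ _ _ _
    (runPath_node (.d0 false) [.d0 true, .d1 true, .d2 false] _ _ _ _ _ _
    (runPath_node (.d1 false) [.d0 true, .d1 true, .d2 false, .d0 false] _ _ _ _ _ _
    (ok63 hp)
    (ok64 hp))
    (ok65 hp))
    (ok66 hp))))⟩

end Vale.Agent.P098.Six.S4
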