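import Vale.Agent.P098.Six.S4.Root

/-!
# P098, six dimensions: checked pieces of the tree
-/

namespace Vale.Agent.P098.Six.S4

/-- A piece of the tree. -/
noncomputable def tree0 : Tree LeafX :=
  .s3
    (.s1
    (.s2
    (.s3
    (.leaf (.box ⟨1198, 0, -3929, 6, -89, 1718, 325356, 0, 0, 0, 0, 0, 0⟩ ⟨0, 0, 0, 0, 0, 0, 179349, 0, 0, 0, 0, 0, 0⟩ ⟨0, 0, 0, 0, 0, 0, 179349, 0, 0, 0, 0, 0, 0⟩ ⟨0, 0, 0, 0, 0, 0, 123795, 0, 0, 0, 0, 0, 0⟩ ⟨0, 0, 0, 0, 0, 0, 123795, 0, 0, 0, 0, 0, 0⟩ ⟨513, 1, -2048, 9, -120, 674, 94517, 0, 0, 0, 0, 0, 0⟩))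
    (.leaf (.box ⟨1404, 0, -4803, 6, -99, 2153, 365123, 0, 0, 0, 0, 0, 0⟩ ⟨0, 0, 0, 0, 0, 0, 180257, 0, 0, 0, 0, 0, 0⟩ ⟨0, 0, 0, 0, 0, 0, 180257, 0, 0, 0, 0, 0, 0⟩ ⟨0, 0, 0, 0, 0, 0, 119668, 0, 0, 0, 0, 0, 0⟩ ⟨0, 0, 0, 0, 0, 0, 119668, 0, 0, 0, 0, 0, 0⟩ ⟨485, 0, -2048, 8, -126, 672, 89563, 0, 0, 0, 0, 0, 0⟩)))
    (.s3
    (.leaf (.box ⟨1493, 0, -4532, 6, -100, 1941, 312863, 0, 0, 0, 0, 0, 0⟩ ⟨0, 0, 0, 0, 0, 0, 172395, 0, 0, 0, 0, 0, 0⟩ ⟨0, 0, 0, 0, 0, 0, 172395, 0, 0, 0, 0, 0, 0⟩ ⟨0, 0, 0, 0, 0, 0, 118977, 0, 0, 0, 0, 0, 0⟩ ⟨0, 0, 0, 0, 0, 0, 118977, 0, 0, 0, 0, 0, 0⟩ ⟨567, 0, -2048, 8, -116, 653, 90832, 0, 0, 0, 0, 0, 0⟩))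
    (.leaf (.box ⟨1623, 0, -5041, 6, -101, 2209, 351085, 0, 0, 0, 0, 0, 0⟩ ⟨0, 0, 0, 0, 0, 0, 173236, 0, 0, 0, 0, 0, 0⟩ ⟨0, 0, 0, 0, 0, 0, 173236, 0, 0, 0, 0, 0, 0⟩ ⟨0, 0, 0, 0, 0, 0, 114987, 0, 0, 0, 0, 0, 0⟩ ⟨0, 0, 0, 0, 0, 0, 114987, 0, 0, 0, 0, 0, 0⟩ ⟨536, 0, -2048, 7, -122, 650, 86052, 0, 0, 0, 0, 0, 0⟩))))
    (.s0
    (.leaf (.box ⟨1586, 0, -4340, 6, -137, 2650, 316471, 0, 0, 0, 0, 0, 0⟩ ⟨0, 0, 0, 0, 0, 0, 168634, 0, 0, 0, 0, 0, 0⟩ ⟨0, 0, 0, 0, 0, 0, 168634, 0, 0, 0, 0, 0, 0⟩ ⟨0, 0, 0, 0, 0, 0, 114940, 0, 0, 0, 0, 0, 0⟩ ⟨0, 0, 0, 0, 0, 0, 114940, 0, 0, 0, 0, 0, 0⟩ ⟨598, 0, -2048, 7, -164, 873, 87181, 0, 0, 0, 0, 0, 0⟩))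
    (.s2
    (.leaf (.box ⟨956, 0, -4423, 6, -108, 2107, 329538, 0, 0, 0, 0, 0, 0⟩ ⟨0, 0, 0, 0, 0, 0, 175674, 0, 0, 0, 0, 0, 0⟩ ⟨0, 0, 0, 0, 0, 0, 175674, 0, 0, 0, 0, 0, 0⟩ ⟨0, 0, 0, 0, 0, 0, 119758, 0, 0, 0, 0, 0, 0⟩ ⟨0, 0, 0, 0, 0, 0, 119758, 0, 0, 0, 0, 0, 0⟩ ⟨384, 0, -2048, 6, -135, 729, 90843, 0, 0, 0, 0, 0, 0⟩))
    (.leaf (.box ⟨1296, 0, -5035, 6, -122, 2382, 316657, 0, 0, 0, 0, 0, 0⟩ ⟨0, 0, 0, 0, 0, 0, 168801, 0, 0, 0, 0, 0, 0⟩ ⟨0, 0, 0, 0, 0, 0, 168801, 0, 0, 0, 0, 0, 0⟩ ⟨0, 0, 0, 0, 0, 0, 115071, 0, 0, 0, 0, 0, 0⟩ ⟨0, 0, 0, 0, 0, 0, 115071, 0, 0, 0, 0, 0, 0⟩ ⟨475, 0, -2392, 6, -156, 835, 87287, 0, 0, 0, 0, 0, 0⟩)))))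
    (.s1
    (.s2
    (.s3
    (.leaf (.box ⟨1140, 0, -4039, 6, -74, 1846, 415987, 0, 0, 0, 0, 0, 0⟩ ⟨0, 0, 0, 0, 0, 0, 181171, 0, 0, 0, 0, 0, 0⟩ ⟨0, 0, 0, 0, 0, 0, 181171, 0, 0, 0, 0, 0, 0⟩ ⟨0, 0, 0, 0, 0, 0, 115803, 0, 0, 0, 0, 0, 0⟩ ⟨0, 0, 0, 0, 0, 0, 115803, 0, 0, 0, 0, 0, 0⟩ ⟨460, 0, -2048, 9, -131, 669, 85098, 0, 0, 0, 0, 0, 0⟩))
    (.s2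
    (.leaf (.box ⟨2139, 0, -8125, 6, -129, 3787, 492690, 0, 0, 0, 0, 0, 0⟩ ⟨0, 0, 0, 0, 0, 0, 185619, 0, 0, 0, 0, 0, 0⟩ ⟨0, 0, 0, 0, 0, 0, 185619, 0, 0, 0, 0, 0, 0⟩ ⟨0, 0, 0, 0, 0, 0, 114350, 0, 0, 0, 0, 0, 0⟩ ⟨0, 0, 0, 0, 0, 0, 114350, 0, 0, 0, 0, 0, 0⟩ ⟨430, 0, -2048, 7, -136, 670, 82625, 0, 0, 0, 0, 0, 0⟩))
    (.leaf (.box ⟨2047, 0, -7407, 6, -116, 3429, 483346, 0, 0, 0, 0, 0, 0⟩ ⟨0, 0, 0, 0, 0, 0, 182086, 0, 0, 0, 0, 0, 0⟩ ⟨0, 0, 0, 0, 0, 0, 182086, 0, 0, 0, 0, 0, 0⟩ ⟨0, 0, 0, 0, 0, 0, 112172, 0, 0, 0, 0, 0, 0⟩ ⟨0, 0, 0, 0, 0, 0, 112172, 0, 0, 0, 0, 0, 0⟩ ⟨452, 0, -2056, 6, -135, 664, 81051, 0, 0, 0, 0, 0, 0⟩))))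
    (.s3
    (.leaf (.box ⟨1791, 0, -5672, 6, -101, 2533, 399973, 0, 0, 0, 0, 0, 0⟩ ⟨0, 0, 0, 0, 0, 0, 174079, 0, 0, 0, 0, 0, 0⟩ ⟨0, 0, 0, 0, 0, 0, 174079, 0, 0, 0, 0, 0, 0⟩ ⟨0, 0, 0, 0, 0, 0, 111248, 0, 0, 0, 0, 0, 0⟩ ⟨0, 0, 0, 0, 0, 0, 111248, 0, 0, 0, 0, 0, 0⟩ ⟨515, 0, -2048, 7, -127, 646, 81744, 0, 0, 0, 0, 0, 0⟩))
    (.leaf (.box ⟨1921, 0, -6175, 6, -96, 2799, 464706, 0, 0, 0, 0, 0, 0⟩ ⟨0, 0, 0, 0, 0, 0, 174924, 0, 0, 0, 0, 0, 0⟩ ⟨0, 0, 0, 0, 0, 0, 174924, 0, 0, 0, 0, 0, 0⟩ ⟨0, 0, 0, 0, 0, 0, 107740, 0, 0, 0, 0, 0, 0⟩ ⟨0, 0, 0, 0, 0, 0, 107740, 0, 0, 0, 0, 0, 0⟩ ⟨524, 0, -2048, 7, -133, 648, 77842, 0, 0, 0, 0, 0, 0⟩))))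
    (.s2
    (.s3
    (.leaf (.box ⟨1750, 0, -4765, 6, -102, 2600, 421488, 0, 0, 0, 0, 0, 0⟩ ⟨0, 0, 0, 0, 0, 0, 183695, 0, 0, 0, 0, 0, 0⟩ ⟨0, 0, 0, 0, 0, 0, 183695, 0, 0, 0, 0, 0, 0⟩ ⟨0, 0, 0, 0, 0, 0, 117439, 0, 0, 0, 0, 0, 0⟩ ⟨0, 0, 0, 0, 0, 0, 117439, 0, 0, 0, 0, 0, 0⟩ ⟨783, 0, -2212, 6, -148, 767, 86308, 0, 0, 0, 0, 0, 0⟩))
    (.leaf (.box ⟨2843, 0, -8096, 6, -151, 4466, 489814, 0, 0, 0, 0, 0, 0⟩ ⟨0, 0, 0, 0, 0, 0, 184660, 0, 0, 0, 0, 0, 0⟩ ⟨0, 0, 0, 0, 0, 0, 184660, 0, 0, 0, 0, 0, 0⟩ ⟨0, 0, 0, 0, 0, 0, 113777, 0, 0, 0, 0, 0, 0⟩ ⟨0, 0, 0, 0, 0, 0, 113777, 0, 0, 0, 0, 0, 0⟩ ⟨834, 0, -2369, 6, -161, 797, 82217, 0, 0, 0, 0, 0, 0⟩)))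
    (.s2
    (.leaf (.box ⟨2350, 0, -6117, 6, -133, 3372, 413102, 0, 0, 0, 0, 0, 0⟩ ⟨0, 0, 0, 0, 0, 0, 173866, 0, 0, 0, 0, 0, 0⟩ ⟨0, 0, 0, 0, 0, 0, 173866, 0, 0, 0, 0, 0, 0⟩ ⟨0, 0, 0, 0, 0, 0, 110103, 0, 0, 0, 0, 0, 0⟩ ⟨0, 0, 0, 0, 0, 0, 110103, 0, 0, 0, 0, 0, 0⟩ ⟨1319, 0, -3422, 6, -231, 1145, 80559, 0, 0, 0, 0, 0, 0⟩))
    (.leaf (.box ⟨2331, 0, -5737, 6, -124, 3149, 404675, 0, 0, 0, 0, 0, 0⟩ ⟨0, 0, 0, 0, 0, 0, 170334, 0, 0, 0, 0, 0, 0⟩ ⟨0, 0, 0, 0, 0, 0, 170334, 0, 0, 0, 0, 0, 0⟩ ⟨0, 0, 0, 0, 0, 0, 107869, 0, 0, 0, 0, 0, 0⟩ ⟨0, 0, 0, 0, 0, 0, 107869, 0, 0, 0, 0, 0, 0⟩ ⟨950, 0, -2967, 6, -223, 1102, 78925, 0, 0, 0, 0, 0, 0⟩)))))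

/-- A piece of the tree. -/
noncomputable def tree1 : Tree LeafX :=
  .s1
    (.s2
    (.leaf (.box ⟨416, 0, -2453, 6, -48, 882, 325136, 0, 0, 0, 0, 0, 0⟩ ⟨0, 0, 0, 0, 0, 0, 162274, 0, 0, 0, 0, 0, 0⟩ ⟨0, 0, 0, 0, 0, 0, 162274, 0, 0, 0, 0, 0, 0⟩ ⟨0, 0, 0, 0, 0, 0, 108117, 0, 0, 0, 0, 0, 0⟩ ⟨0, 0, 0, 0, 0, 0, 108117, 0, 0, 0, 0, 0, 0⟩ ⟨257, 0, -2048, 16, -123, 565, 81063, 0, 0, 0, 0, 0, 0⟩))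
    (.leaf (.box ⟨525, 0, -2799, 6, -52, 964, 312834, 0, 0, 0, 0, 0, 0⟩ ⟨0, 0, 0, 0, 0, 0, 156133, 0, 0, 0, 0, 0, 0⟩ ⟨0, 0, 0, 0, 0, 0, 156133, 0, 0, 0, 0, 0, 0⟩ ⟨0, 0, 0, 0, 0, 0, 104025, 0, 0, 0, 0, 0, 0⟩ ⟨0, 0, 0, 0, 0, 0, 104025, 0, 0, 0, 0, 0, 0⟩ ⟨298, 0, -2048, 14, -116, 537, 77995, 0, 0, 0, 0, 0, 0⟩)))
    (.s3
    (.s2
    (.leaf (.box ⟨591, 0, -3086, 6, -64, 1204, 329520, 0, 0, 0, 0, 0, 0⟩ ⟨0, 0, 0, 0, 0, 0, 175715, 0, 0, 0, 0, 0, 0⟩ ⟨0, 0, 0, 0, 0, 0, 175715, 0, 0, 0, 0, 0, 0⟩ ⟨0, 0, 0, 0, 0, 0, 119798, 0, 0, 0, 0, 0, 0⟩ ⟨0, 0, 0, 0, 0, 0, 119798, 0, 0, 0, 0, 0, 0⟩ ⟨312, -1, -2048, 11, -120, 625, 90878, 0, 0, 0, 0, 0, 0⟩))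
    (.leaf (.box ⟨709, 0, -3342, 6, -68, 1271, 316935, 0, 0, 0, 0, 0, 0⟩ ⟨0, 0, 0, 0, 0, 0, 169016, 0, 0, 0, 0, 0, 0⟩ ⟨0, 0, 0, 0, 0, 0, 169016, 0, 0, 0, 0, 0, 0⟩ ⟨0, 0, 0, 0, 0, 0, 115234, 0, 0, 0, 0, 0, 0⟩ ⟨0, 0, 0, 0, 0, 0, 115234, 0, 0, 0, 0, 0, 0⟩ ⟨364, -1, -2048, 10, -116, 604, 87417, 0, 0, 0, 0, 0, 0⟩)))
    (.s2
    (.s2
    (.leaf (.box ⟨941, 0, -5081, 6, -83, 2048, 429512, 0, 0, 0, 0, 0, 0⟩ ⟨0, 0, 0, 0, 0, 0, 181006, 0, 0, 0, 0, 0, 0⟩ ⟨0, 0, 0, 0, 0, 0, 181006, 0, 0, 0, 0, 0, 0⟩ ⟨0, 0, 0, 0, 0, 0, 114664, 0, 0, 0, 0, 0, 0⟩ ⟨0, 0, 0, 0, 0, 0, 114664, 0, 0, 0, 0, 0, 0⟩ ⟨446, 0, -2048, 10, -141, 680, 83909, 0, 0, 0, 0, 0, 0⟩))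
    (.leaf (.box ⟨1038, 0, -5407, 6, -88, 2162, 421485, 0, 0, 0, 0, 0, 0⟩ ⟨0, 0, 0, 0, 0, 0, 177586, 0, 0, 0, 0, 0, 0⟩ ⟨0, 0, 0, 0, 0, 0, 177586, 0, 0, 0, 0, 0, 0⟩ ⟨0, 0, 0, 0, 0, 0, 112491, 0, 0, 0, 0, 0, 0⟩ ⟨0, 0, 0, 0, 0, 0, 112491, 0, 0, 0, 0, 0, 0⟩ ⟨334, 0, -2048, 9, -128, 616, 82317, 0, 0, 0, 0, 0, 0⟩)))
    (.leaf (.box ⟨1032, 0, -4936, 6, -79, 1928, 405387, 0, 0, 0, 0, 0, 0⟩ ⟨0, 0, 0, 0, 0, 0, 170830, 0, 0, 0, 0, 0, 0⟩ ⟨0, 0, 0, 0, 0, 0, 170830, 0, 0, 0, 0, 0, 0⟩ ⟨0, 0, 0, 0, 0, 0, 108216, 0, 0, 0, 0, 0, 0⟩ ⟨0, 0, 0, 0, 0, 0, 108216, 0, 0, 0, 0, 0, 0⟩ ⟨366, 0, -2048, 10, -125, 598, 79190, 0, 0, 0, 0, 0, 0⟩))))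

/-- A piece of the tree. -/
noncomputable def tree2 : Tree LeafX :=
  .s0
    (.s2
    (.s1
    (.s3
    (.leaf (.box ⟨1807, 0, -4641, 6, -98, 1921, 300116, 0, 0, 0, 0, 0, 0⟩ ⟨0, 0, 0, 0, 0, 0, 159770, 0, 0, 0, 0, 0, 0⟩ ⟨0, 0, 0, 0, 0, 0, 159770, 0, 0, 0, 0, 0, 0⟩ ⟨0, 0, 0, 0, 0, 0, 108862, 0, 0, 0, 0, 0, 0⟩ ⟨0, 0, 0, 0, 0, 0, 108862, 0, 0, 0, 0, 0, 0⟩ ⟨632, 0, -2048, 6, -115, 616, 82556, 0, 0, 0, 0, 0, 0⟩))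
    (.leaf (.box ⟨2429, 0, -6661, 6, -114, 2869, 383635, 0, 0, 0, 0, 0, 0⟩ ⟨0, 0, 0, 0, 0, 0, 161261, 0, 0, 0, 0, 0, 0⟩ ⟨0, 0, 0, 0, 0, 0, 161261, 0, 0, 0, 0, 0, 0⟩ ⟨0, 0, 0, 0, 0, 0, 102087, 0, 0, 0, 0, 0, 0⟩ ⟨0, 0, 0, 0, 0, 0, 102087, 0, 0, 0, 0, 0, 0⟩ ⟨581, 0, -2058, 6, -125, 612, 74682, 0, 0, 0, 0, 0, 0⟩)))
    (.leaf (.box ⟨2447, 0, -4784, 6, -131, 2552, 303494, 0, 0, 0, 0, 0, 0⟩ ⟨0, 0, 0, 0, 0, 0, 151552, 0, 0, 0, 0, 0, 0⟩ ⟨0, 0, 0, 0, 0, 0, 151552, 0, 0, 0, 0, 0, 0⟩ ⟨0, 0, 0, 0, 0, 0, 100991, 0, 0, 0, 0, 0, 0⟩ ⟨0, 0, 0, 0, 0, 0, 100991, 0, 0, 0, 0, 0, 0⟩ ⟨939, 0, -2055, 6, -140, 679, 75727, 0, 0, 0, 0, 0, 0⟩)))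
    (.leaf (.box ⟨2063, 0, -3073, 6, -71, 1378, 287582, 0, 0, 0, 0, 0, 0⟩ ⟨0, 0, 0, 0, 0, 0, 143412, 0, 0, 0, 0, 0, 0⟩ ⟨0, 0, 0, 0, 0, 0, 143412, 0, 0, 0, 0, 0, 0⟩ ⟨0, 0, 0, 0, 0, 0, 95524, 0, 0, 0, 0, 0, 0⟩ ⟨0, 0, 0, 0, 0, 0, 95524, 0, 0, 0, 0, 0, 0⟩ ⟨996, 0, -2048, 10, -130, 630, 71611, 0, 0, 0, 0, 0, 0⟩)))
    (.s3
    (.leaf (.box ⟨1151, 0, -2048, 7, -44, 810, 289183, 0, 0, 0, 0, 0, 0⟩ ⟨0, 0, 0, 0, 0, 0, 154066, 0, 0, 0, 0, 0, 0⟩ ⟨0, 0, 0, 0, 0, 0, 154066, 0, 0, 0, 0, 0, 0⟩ ⟨0, 0, 0, 0, 0, 0, 105004, 0, 0, 0, 0, 0, 0⟩ ⟨0, 0, 0, 0, 0, 0, 105004, 0, 0, 0, 0, 0, 0⟩ ⟨596, -1, -2048, 15, -100, 513, 79642, 0, 0, 0, 0, 0, 0⟩))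
    (.leaf (.box ⟨1072, 0, -3535, 6, -50, 1193, 369759, 0, 0, 0, 0, 0, 0⟩ ⟨0, 0, 0, 0, 0, 0, 155598, 0, 0, 0, 0, 0, 0⟩ ⟨0, 0, 0, 0, 0, 0, 155598, 0, 0, 0, 0, 0, 0⟩ ⟨0, 0, 0, 0, 0, 0, 98531, 0, 0, 0, 0, 0, 0⟩ ⟨0, 0, 0, 0, 0, 0, 98531, 0, 0, 0, 0, 0, 0⟩ ⟨564, 0, -2048, 14, -109, 510, 72090, 0, 0, 0, 0, 0, 0⟩)))

/-- A piece of the tree. -/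
noncomputable def tree3 : Tree LeafX :=
  .s0
    (.s2
    (.s0
    (.leaf (.box ⟨2103, 0, -2133, 6, -109, 2089, 319632, 0, 0, 0, 0, 0, 0⟩ ⟨0, 0, 0, 0, 0, 0, 159724, 0, 0, 0, 0, 0, 0⟩ ⟨0, 0, 0, 0, 0, 0, 159724, 0, 0, 0, 0, 0, 0⟩ ⟨0, 0, 0, 0, 0, 0, 106463, 0, 0, 0, 0, 0, 0⟩ ⟨0, 0, 0, 0, 0, 0, 106463, 0, 0, 0, 0, 0, 0⟩ ⟨1484, 0, -2048, 11, -258, 1241, 79839, 0, 0, 0, 0, 0, 0⟩))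
    (.s3
    (.leaf (.box ⟨1870, 0, -3492, 6, -120, 2307, 320036, 0, 0, 0, 0, 0, 0⟩ ⟨0, 0, 0, 0, 0, 0, 170703, 0, 0, 0, 0, 0, 0⟩ ⟨0, 0, 0, 0, 0, 0, 170703, 0, 0, 0, 0, 0, 0⟩ ⟨0, 0, 0, 0, 0, 0, 116393, 0, 0, 0, 0, 0, 0⟩ ⟨0, 0, 0, 0, 0, 0, 116393, 0, 0, 0, 0, 0, 0⟩ ⟨1163, 0, -2048, 6, -142, 756, 88299, 0, 0, 0, 0, 0, 0⟩))
    (.s2
    (.leaf (.box ⟨3623, 0, -8669, 6, -224, 5691, 426241, 0, 0, 0, 0, 0, 0⟩ ⟨0, 0, 0, 0, 0, 0, 179636, 0, 0, 0, 0, 0, 0⟩ ⟨0, 0, 0, 0, 0, 0, 179636, 0, 0, 0, 0, 0, 0⟩ ⟨0, 0, 0, 0, 0, 0, 113798, 0, 0, 0, 0, 0, 0⟩ ⟨0, 0, 0, 0, 0, 0, 113798, 0, 0, 0, 0, 0, 0⟩ ⟨1009, 0, -2871, 6, -261, 1299, 83276, 0, 0, 0, 0, 0, 0⟩))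
    (.leaf (.box ⟨2901, 0, -6112, 6, -167, 4155, 409392, 0, 0, 0, 0, 0, 0⟩ ⟨0, 0, 0, 0, 0, 0, 172569, 0, 0, 0, 0, 0, 0⟩ ⟨0, 0, 0, 0, 0, 0, 172569, 0, 0, 0, 0, 0, 0⟩ ⟨0, 0, 0, 0, 0, 0, 109327, 0, 0, 0, 0, 0, 0⟩ ⟨0, 0, 0, 0, 0, 0, 109327, 0, 0, 0, 0, 0, 0⟩ ⟨782, 0, -2048, 7, -192, 935, 80006, 0, 0, 0, 0, 0, 0⟩)))))
    (.s2
    (.leaf (.box ⟨2511, 0, -2189, 6, -99, 1878, 306553, 0, 0, 0, 0, 0, 0⟩ ⟨0, 0, 0, 0, 0, 0, 153214, 0, 0, 0, 0, 0, 0⟩ ⟨0, 0, 0, 0, 0, 0, 153214, 0, 0, 0, 0, 0, 0⟩ ⟨0, 0, 0, 0, 0, 0, 102129, 0, 0, 0, 0, 0, 0⟩ ⟨0, 0, 0, 0, 0, 0, 102129, 0, 0, 0, 0, 0, 0⟩ ⟨1708, -1, -2048, 14, -230, 1091, 76591, 0, 0, 0, 0, 0, 0⟩))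
    (.leaf (.box ⟨2267, 0, -1759, 6, -82, 1531, 293841, 0, 0, 0, 0, 0, 0⟩ ⟨0, 0, 0, 0, 0, 0, 146883, 0, 0, 0, 0, 0, 0⟩ ⟨0, 0, 0, 0, 0, 0, 146883, 0, 0, 0, 0, 0, 0⟩ ⟨0, 0, 0, 0, 0, 0, 97914, 0, 0, 0, 0, 0, 0⟩ ⟨0, 0, 0, 0, 0, 0, 97914, 0, 0, 0, 0, 0, 0⟩ ⟨1795, -1, -2048, 18, -225, 1053, 73432, 0, 0, 0, 0, 0, 0⟩))))
    (.s2
    (.s3
    (.s2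
    (.s3
    (.leaf (.box ⟨1204, -1, -3017, 6, -69, 1326, 333282, 0, 0, 0, 0, 0, 0⟩ ⟨0, 0, 0, 0, 0, 0, 183967, 0, 0, 0, 0, 0, 0⟩ ⟨0, 0, 0, 0, 0, 0, 183967, 0, 0, 0, 0, 0, 0⟩ ⟨0, 0, 0, 0, 0, 0, 127048, 0, 0, 0, 0, 0, 0⟩ ⟨0, 0, 0, 0, 0, 0, 127048, 0, 0, 0, 0, 0, 0⟩ ⟨665, -1, -2048, 9, -134, 752, 97027, 0, 0, 0, 0, 0, 0⟩))
    (.leaf (.box ⟨1482, -1, -3757, 6, -77, 1669, 374132, 0, 0, 0, 0, 0, 0⟩ ⟨0, 0, 0, 0, 0, 0, 185019, 0, 0, 0, 0, 0, 0⟩ ⟨0, 0, 0, 0, 0, 0, 185019, 0, 0, 0, 0, 0, 0⟩ ⟨0, 0, 0, 0, 0, 0, 122898, 0, 0, 0, 0, 0, 0⟩ ⟨0, 0, 0, 0, 0, 0, 122898, 0, 0, 0, 0, 0, 0⟩ ⟨730, -1, -2048, 9, -133, 712, 92006, 0, 0, 0, 0, 0, 0⟩)))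
    (.s1
    (.leaf (.box ⟨1017, -1, -3945, 6, -90, 1717, 320442, 0, 0, 0, 0, 0, 0⟩ ⟨0, 0, 0, 0, 0, 0, 170977, 0, 0, 0, 0, 0, 0⟩ ⟨0, 0, 0, 0, 0, 0, 170977, 0, 0, 0, 0, 0, 0⟩ ⟨0, 0, 0, 0, 0, 0, 116593, 0, 0, 0, 0, 0, 0⟩ ⟨0, 0, 0, 0, 0, 0, 116593, 0, 0, 0, 0, 0, 0⟩ ⟨475, -1, -2048, 9, -130, 689, 88457, 0, 0, 0, 0, 0, 0⟩))
    (.leaf (.box ⟨2190, -1, -5232, 6, -122, 2339, 323586, 0, 0, 0, 0, 0, 0⟩ ⟨0, 0, 0, 0, 0, 0, 172709, 0, 0, 0, 0, 0, 0⟩ ⟨0, 0, 0, 0, 0, 0, 172709, 0, 0, 0, 0, 0, 0⟩ ⟨0, 0, 0, 0, 0, 0, 117788, 0, 0, 0, 0, 0, 0⟩ ⟨0, 0, 0, 0, 0, 0, 117788, 0, 0, 0, 0, 0, 0⟩ ⟨596, -1, -2048, 7, -151, 806, 89369, 0, 0, 0, 0, 0, 0⟩))))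
    (.s2
    (.s1
    (.s3
    (.leaf (.box ⟨1209, 0, -4951, 6, -89, 2220, 426380, 0, 0, 0, 0, 0, 0⟩ ⟨0, 0, 0, 0, 0, 0, 186087, 0, 0, 0, 0, 0, 0⟩ ⟨0, 0, 0, 0, 0, 0, 186087, 0, 0, 0, 0, 0, 0⟩ ⟨0, 0, 0, 0, 0, 0, 119014, 0, 0, 0, 0, 0, 0⟩ ⟨0, 0, 0, 0, 0, 0, 119014, 0, 0, 0, 0, 0, 0⟩ ⟨394, -1, -2048, 8, -136, 697, 87482, 0, 0, 0, 0, 0, 0⟩))
    (.leaf (.box ⟨1521, 0, -6573, 6, -103, 2981, 495571, 0, 0, 0, 0, 0, 0⟩ ⟨0, 0, 0, 0, 0, 0, 187168, 0, 0, 0, 0, 0, 0⟩ ⟨0, 0, 0, 0, 0, 0, 187168, 0, 0, 0, 0, 0, 0⟩ ⟨0, 0, 0, 0, 0, 0, 115371, 0, 0, 0, 0, 0, 0⟩ ⟨0, 0, 0, 0, 0, 0, 115371, 0, 0, 0, 0, 0, 0⟩ ⟨381, -1, -2048, 8, -141, 692, 83384, 0, 0, 0, 0, 0, 0⟩)))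
    (.leaf (.box ⟨1945, -1, -6587, 6, -135, 3409, 430743, 0, 0, 0, 0, 0, 0⟩ ⟨0, 0, 0, 0, 0, 0, 181708, 0, 0, 0, 0, 0, 0⟩ ⟨0, 0, 0, 0, 0, 0, 181708, 0, 0, 0, 0, 0, 0⟩ ⟨0, 0, 0, 0, 0, 0, 115140, 0, 0, 0, 0, 0, 0⟩ ⟨0, 0, 0, 0, 0, 0, 115140, 0, 0, 0, 0, 0, 0⟩ ⟨660, -1, -2048, 7, -145, 718, 84268, 0, 0, 0, 0, 0, 0⟩)))
    (.s2
    (.leaf (.box ⟨2326, -1, -6502, 6, -126, 3142, 418121, 0, 0, 0, 0, 0, 0⟩ ⟨0, 0, 0, 0, 0, 0, 176322, 0, 0, 0, 0, 0, 0⟩ ⟨0, 0, 0, 0, 0, 0, 176322, 0, 0, 0, 0, 0, 0⟩ ⟨0, 0, 0, 0, 0, 0, 111717, 0, 0, 0, 0, 0, 0⟩ ⟨0, 0, 0, 0, 0, 0, 111717, 0, 0, 0, 0, 0, 0⟩ ⟨641, -1, -2048, 7, -150, 735, 81759, 0, 0, 0, 0, 0, 0⟩))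
    (.leaf (.box ⟨2738, -1, -7287, 6, -141, 3499, 409979, 0, 0, 0, 0, 0, 0⟩ ⟨0, 0, 0, 0, 0, 0, 172907, 0, 0, 0, 0, 0, 0⟩ ⟨0, 0, 0, 0, 0, 0, 172907, 0, 0, 0, 0, 0, 0⟩ ⟨0, 0, 0, 0, 0, 0, 109556, 0, 0, 0, 0, 0, 0⟩ ⟨0, 0, 0, 0, 0, 0, 109556, 0, 0, 0, 0, 0, 0⟩ ⟨667, -1, -2048, 7, -149, 725, 80179, 0, 0, 0, 0, 0, 0⟩)))))
    (.s2
    (.leaf (.box ⟨1927, -1, -4135, 6, -91, 1728, 307965, 0, 0, 0, 0, 0, 0⟩ ⟨0, 0, 0, 0, 0, 0, 154029, 0, 0, 0, 0, 0, 0⟩ ⟨0, 0, 0, 0, 0, 0, 154029, 0, 0, 0, 0, 0, 0⟩ ⟨0, 0, 0, 0, 0, 0, 102697, 0, 0, 0, 0, 0, 0⟩ ⟨0, 0, 0, 0, 0, 0, 102697, 0, 0, 0, 0, 0, 0⟩ ⟨773, -1, -2048, 9, -148, 708, 77026, 0, 0, 0, 0, 0, 0⟩))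
    (.leaf (.box ⟨1700, -1, -3961, 6, -92, 1761, 295852, 0, 0, 0, 0, 0, 0⟩ ⟨0, 0, 0, 0, 0, 0, 147998, 0, 0, 0, 0, 0, 0⟩ ⟨0, 0, 0, 0, 0, 0, 147998, 0, 0, 0, 0, 0, 0⟩ ⟨0, 0, 0, 0, 0, 0, 98682, 0, 0, 0, 0, 0, 0⟩ ⟨0, 0, 0, 0, 0, 0, 98682, 0, 0, 0, 0, 0, 0⟩ ⟨826, -1, -2048, 9, -138, 664, 74017, 0, 0, 0, 0, 0, 0⟩))))

/-- A piece of the tree. -/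
noncomputable def tree4 : Tree LeafX :=
  .s1
    (.s2
    (.leaf (.box ⟨1620, 0, -2384, 6, -41, 795, 263953, 0, 0, 0, 0, 0, 0⟩ ⟨0, 0, 0, 0, 0, 0, 131635, 0, 0, 0, 0, 0, 0⟩ ⟨0, 0, 0, 0, 0, 0, 131635, 0, 0, 0, 0, 0, 0⟩ ⟨0, 0, 0, 0, 0, 0, 87681, 0, 0, 0, 0, 0, 0⟩ ⟨0, 0, 0, 0, 0, 0, 87681, 0, 0, 0, 0, 0, 0⟩ ⟨1209, 0, -2048, 15, -100, 485, 65732, 0, 0, 0, 0, 0, 0⟩))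
    (.leaf (.box ⟨1430, 0, -2048, 6, -28, 575, 241775, 0, 0, 0, 0, 0, 0⟩ ⟨0, 0, 0, 0, 0, 0, 120569, 0, 0, 0, 0, 0, 0⟩ ⟨0, 0, 0, 0, 0, 0, 120569, 0, 0, 0, 0, 0, 0⟩ ⟨0, 0, 0, 0, 0, 0, 80309, 0, 0, 0, 0, 0, 0⟩ ⟨0, 0, 0, 0, 0, 0, 80309, 0, 0, 0, 0, 0, 0⟩ ⟨1208, -1, -2048, 17, -78, 404, 60205, 0, 0, 0, 0, 0, 0⟩)))
    (.leaf (.box ⟨2048, -2, -1618, 12, -43, 782, 246828, 0, 0, 0, 0, 0, 0⟩ ⟨0, 0, 0, 0, 0, 0, 123490, 0, 0, 0, 0, 0, 0⟩ ⟨0, 0, 0, 0, 0, 0, 123490, 0, 0, 0, 0, 0, 0⟩ ⟨0, 0, 0, 0, 0, 0, 82344, 0, 0, 0, 0, 0, 0⟩ ⟨0, 0, 0, 0, 0, 0, 82344, 0, 0, 0, 0, 0, 0⟩ ⟨1923, -6, -2048, 39, -140, 642, 61764, 0, 0, 0, 0, 0, 0⟩))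

/-- A piece of the tree. -/
noncomputable def tree5 : Tree LeafX :=
  .s2
    (.s0
    (.leaf (.box ⟨2333, 0, 18, 6, -54, 930, 298257, 0, 0, 0, 0, 0, 0⟩ ⟨0, 0, 0, 0, 0, 0, 149161, 0, 0, 0, 0, 0, 0⟩ ⟨0, 0, 0, 0, 0, 0, 149161, 0, 0, 0, 0, 0, 0⟩ ⟨0, 0, 0, 0, 0, 0, 99448, 0, 0, 0, 0, 0, 0⟩ ⟨0, 0, 0, 0, 0, 0, 99448, 0, 0, 0, 0, 0, 0⟩ ⟨2048, -1, 97, 22, -206, 891, 74588, 0, 0, 0, 0, 0, 0⟩))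
    (.s1
    (.s2
    (.s3
    (.leaf (.box ⟨2987, -1, -3312, 6, -146, 2787, 326379, 0, 0, 0, 0, 0, 0⟩ ⟨0, 0, 0, 0, 0, 0, 174222, 0, 0, 0, 0, 0, 0⟩ ⟨0, 0, 0, 0, 0, 0, 174222, 0, 0, 0, 0, 0, 0⟩ ⟨0, 0, 0, 0, 0, 0, 118826, 0, 0, 0, 0, 0, 0⟩ ⟨0, 0, 0, 0, 0, 0, 118826, 0, 0, 0, 0, 0, 0⟩ ⟨1133, -1, -2048, 10, -215, 1141, 90158, 0, 0, 0, 0, 0, 0⟩))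
    (.leaf (.box ⟨3847, -1, -6083, 6, -169, 4167, 417666, 0, 0, 0, 0, 0, 0⟩ ⟨0, 0, 0, 0, 0, 0, 176268, 0, 0, 0, 0, 0, 0⟩ ⟨0, 0, 0, 0, 0, 0, 176268, 0, 0, 0, 0, 0, 0⟩ ⟨0, 0, 0, 0, 0, 0, 111706, 0, 0, 0, 0, 0, 0⟩ ⟨0, 0, 0, 0, 0, 0, 111706, 0, 0, 0, 0, 0, 0⟩ ⟨1031, -1, -2048, 8, -224, 1085, 81759, 0, 0, 0, 0, 0, 0⟩)))
    (.leaf (.box ⟨1741, -1, -2155, 6, -84, 1550, 301062, 0, 0, 0, 0, 0, 0⟩ ⟨0, 0, 0, 0, 0, 0, 150693, 0, 0, 0, 0, 0, 0⟩ ⟨0, 0, 0, 0, 0, 0, 150693, 0, 0, 0, 0, 0, 0⟩ ⟨0, 0, 0, 0, 0, 0, 100498, 0, 0, 0, 0, 0, 0⟩ ⟨0, 0, 0, 0, 0, 0, 100498, 0, 0, 0, 0, 0, 0⟩ ⟨1320, -2, -2048, 16, -222, 1025, 75387, 0, 0, 0, 0, 0, 0⟩)))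
    (.leaf (.box ⟨2048, -1, -1058, 7, -82, 1455, 305015, 0, 0, 0, 0, 0, 0⟩ ⟨0, 0, 0, 0, 0, 0, 152646, 0, 0, 0, 0, 0, 0⟩ ⟨0, 0, 0, 0, 0, 0, 152646, 0, 0, 0, 0, 0, 0⟩ ⟨0, 0, 0, 0, 0, 0, 101795, 0, 0, 0, 0, 0, 0⟩ ⟨0, 0, 0, 0, 0, 0, 101795, 0, 0, 0, 0, 0, 0⟩ ⟨2048, -2, -1587, 24, -309, 1382, 76357, 0, 0, 0, 0, 0, 0⟩))))
    (.s2
    (.leaf (.box ⟨2048, -1, 184, 8, -37, 625, 273437, 0, 0, 0, 0, 0, 0⟩ ⟨0, 0, 0, 0, 0, 0, 136823, 0, 0, 0, 0, 0, 0⟩ ⟨0, 0, 0, 0, 0, 0, 136823, 0, 0, 0, 0, 0, 0⟩ ⟨0, 0, 0, 0, 0, 0, 91238, 0, 0, 0, 0, 0, 0⟩ ⟨0, 0, 0, 0, 0, 0, 91238, 0, 0, 0, 0, 0, 0⟩ ⟨2048, -4, -343, 33, -143, 616, 68437, 0, 0, 0, 0, 0, 0⟩))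
    (.leaf (.box ⟨2048, -2, -254, 10, -30, 520, 250178, 0, 0, 0, 0, 0, 0⟩ ⟨0, 0, 0, 0, 0, 0, 125286, 0, 0, 0, 0, 0, 0⟩ ⟨0, 0, 0, 0, 0, 0, 125286, 0, 0, 0, 0, 0, 0⟩ ⟨0, 0, 0, 0, 0, 0, 83568, 0, 0, 0, 0, 0, 0⟩ ⟨0, 0, 0, 0, 0, 0, 83568, 0, 0, 0, 0, 0, 0⟩ ⟨2048, -8, -726, 40, -109, 485, 62692, 0, 0, 0, 0, 0, 0⟩)))

/-- A piece of the tree. -/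
noncomputable def tree6 : Tree LeafX :=
  .s1
    (.leaf (.box ⟨1657, -1, -2048, 28, -43, 756, 292150, 0, 0, 0, 0, 0, 0⟩ ⟨0, 0, 0, 0, 0, 0, 145892, 0, 0, 0, 0, 0, 0⟩ ⟨0, 0, 0, 0, 0, 0, 145892, 0, 0, 0, 0, 0, 0⟩ ⟨0, 0, 0, 0, 0, 0, 97221, 0, 0, 0, 0, 0, 0⟩ ⟨0, 0, 0, 0, 0, 0, 97221, 0, 0, 0, 0, 0, 0⟩ ⟨1471, -3, -2048, 71, -159, 607, 72900, 0, 0, 0, 0, 0, 0⟩))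
    (.s0
    (.s2
    (.s1
    (.leaf (.box ⟨214, -1, -2048, 7, -44, 781, 321867, 0, 0, 0, 0, 0, 0⟩ ⟨0, 0, 0, 0, 0, 0, 161058, 0, 0, 0, 0, 0, 0⟩ ⟨0, 0, 0, 0, 0, 0, 161058, 0, 0, 0, 0, 0, 0⟩ ⟨0, 0, 0, 0, 0, 0, 107400, 0, 0, 0, 0, 0, 0⟩ ⟨0, 0, 0, 0, 0, 0, 107400, 0, 0, 0, 0, 0, 0⟩ ⟨271, -3, -2048, 21, -139, 622, 80560, 0, 0, 0, 0, 0, 0⟩))
    (.s0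
    (.s3
    (.leaf (.box ⟨558, -1, -3478, 6, -83, 1535, 325136, 0, 0, 0, 0, 0, 0⟩ ⟨0, 0, 0, 0, 0, 0, 173659, 0, 0, 0, 0, 0, 0⟩ ⟨0, 0, 0, 0, 0, 0, 173659, 0, 0, 0, 0, 0, 0⟩ ⟨0, 0, 0, 0, 0, 0, 118467, 0, 0, 0, 0, 0, 0⟩ ⟨0, 0, 0, 0, 0, 0, 118467, 0, 0, 0, 0, 0, 0⟩ ⟨236, -2, -2048, 10, -134, 687, 89896, 0, 0, 0, 0, 0, 0⟩))
    (.s2
    (.leaf (.box ⟨788, -1, -6943, 6, -119, 2926, 431854, 0, 0, 0, 0, 0, 0⟩ ⟨0, 0, 0, 0, 0, 0, 182384, 0, 0, 0, 0, 0, 0⟩ ⟨0, 0, 0, 0, 0, 0, 182384, 0, 0, 0, 0, 0, 0⟩ ⟨0, 0, 0, 0, 0, 0, 115603, 0, 0, 0, 0, 0, 0⟩ ⟨0, 0, 0, 0, 0, 0, 115603, 0, 0, 0, 0, 0, 0⟩ ⟨211, -1, -2048, 8, -140, 680, 84619, 0, 0, 0, 0, 0, 0⟩))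
    (.leaf (.box ⟨827, -1, -6962, 6, -120, 2914, 416195, 0, 0, 0, 0, 0, 0⟩ ⟨0, 0, 0, 0, 0, 0, 175807, 0, 0, 0, 0, 0, 0⟩ ⟨0, 0, 0, 0, 0, 0, 175807, 0, 0, 0, 0, 0, 0⟩ ⟨0, 0, 0, 0, 0, 0, 111440, 0, 0, 0, 0, 0, 0⟩ ⟨0, 0, 0, 0, 0, 0, 111440, 0, 0, 0, 0, 0, 0⟩ ⟨235, -1, -2048, 8, -139, 669, 81574, 0, 0, 0, 0, 0, 0⟩))))
    (.leaf (.box ⟨214, -1, -2586, 6, -57, 1024, 326388, 0, 0, 0, 0, 0, 0⟩ ⟨0, 0, 0, 0, 0, 0, 163437, 0, 0, 0, 0, 0, 0⟩ ⟨0, 0, 0, 0, 0, 0, 163437, 0, 0, 0, 0, 0, 0⟩ ⟨0, 0, 0, 0, 0, 0, 109012, 0, 0, 0, 0, 0, 0⟩ ⟨0, 0, 0, 0, 0, 0, 109012, 0, 0, 0, 0, 0, 0⟩ ⟨233, -2, -2048, 14, -145, 657, 81779, 0, 0, 0, 0, 0, 0⟩))))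
    (.leaf (.box ⟨669, -1, -2048, 7, -47, 843, 298838, 0, 0, 0, 0, 0, 0⟩ ⟨0, 0, 0, 0, 0, 0, 149576, 0, 0, 0, 0, 0, 0⟩ ⟨0, 0, 0, 0, 0, 0, 149576, 0, 0, 0, 0, 0, 0⟩ ⟨0, 0, 0, 0, 0, 0, 99752, 0, 0, 0, 0, 0, 0⟩ ⟨0, 0, 0, 0, 0, 0, 99752, 0, 0, 0, 0, 0, 0⟩ ⟨467, -3, -2048, 21, -129, 588, 74827, 0, 0, 0, 0, 0, 0⟩)))
    (.leaf (.box ⟨947, -2, -2048, 15, -53, 841, 303871, 0, 0, 0, 0, 0, 0⟩ ⟨0, 0, 0, 0, 0, 0, 152123, 0, 0, 0, 0, 0, 0⟩ ⟨0, 0, 0, 0, 0, 0, 152123, 0, 0, 0, 0, 0, 0⟩ ⟨0, 0, 0, 0, 0, 0, 101457, 0, 0, 0, 0, 0, 0⟩ ⟨0, 0, 0, 0, 0, 0, 101457, 0, 0, 0, 0, 0, 0⟩ ⟨887, -7, -2048, 45, -168, 669, 76108, 0, 0, 0, 0, 0, 0⟩)))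

/-- A piece of the tree. -/
noncomputable def tree7 : Tree LeafX :=
  .s2
    (.s1
    (.s3
    (.s0
    (.s1
    (.leaf (.box ⟨910, -1, -4898, 6, -116, 2176, 328107, 0, 0, 0, 0, 0, 0⟩ ⟨0, 0, 0, 0, 0, 0, 175281, 0, 0, 0, 0, 0, 0⟩ ⟨0, 0, 0, 0, 0, 0, 175281, 0, 0, 0, 0, 0, 0⟩ ⟨0, 0, 0, 0, 0, 0, 119582, 0, 0, 0, 0, 0, 0⟩ ⟨0, 0, 0, 0, 0, 0, 119582, 0, 0, 0, 0, 0, 0⟩ ⟨290, -1, -2048, 9, -146, 765, 90745, 0, 0, 0, 0, 0, 0⟩))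
    (.leaf (.box ⟨1184, -1, -5707, 6, -157, 2982, 330787, 0, 0, 0, 0, 0, 0⟩ ⟨0, 0, 0, 0, 0, 0, 176716, 0, 0, 0, 0, 0, 0⟩ ⟨0, 0, 0, 0, 0, 0, 176716, 0, 0, 0, 0, 0, 0⟩ ⟨0, 0, 0, 0, 0, 0, 120562, 0, 0, 0, 0, 0, 0⟩ ⟨0, 0, 0, 0, 0, 0, 120562, 0, 0, 0, 0, 0, 0⟩ ⟨382, -1, -2048, 7, -164, 870, 91489, 0, 0, 0, 0, 0, 0⟩)))
    (.s1
    (.s2
    (.leaf (.box ⟨364, -1, -4075, 6, -91, 1715, 341389, 0, 0, 0, 0, 0, 0⟩ ⟨0, 0, 0, 0, 0, 0, 182414, 0, 0, 0, 0, 0, 0⟩ ⟨0, 0, 0, 0, 0, 0, 182414, 0, 0, 0, 0, 0, 0⟩ ⟨0, 0, 0, 0, 0, 0, 124458, 0, 0, 0, 0, 0, 0⟩ ⟨0, 0, 0, 0, 0, 0, 124458, 0, 0, 0, 0, 0, 0⟩ ⟨176, -2, -2048, 8, -138, 718, 94449, 0, 0, 0, 0, 0, 0⟩))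
    (.leaf (.box ⟨385, -1, -4321, 6, -99, 1833, 329319, 0, 0, 0, 0, 0, 0⟩ ⟨0, 0, 0, 0, 0, 0, 175989, 0, 0, 0, 0, 0, 0⟩ ⟨0, 0, 0, 0, 0, 0, 175989, 0, 0, 0, 0, 0, 0⟩ ⟨0, 0, 0, 0, 0, 0, 120080, 0, 0, 0, 0, 0, 0⟩ ⟨0, 0, 0, 0, 0, 0, 120080, 0, 0, 0, 0, 0, 0⟩ ⟨184, -2, -2048, 8, -139, 716, 91129, 0, 0, 0, 0, 0, 0⟩)))
    (.s2
    (.leaf (.box ⟨682, -1, -5321, 6, -125, 2407, 344319, 0, 0, 0, 0, 0, 0⟩ ⟨0, 0, 0, 0, 0, 0, 183988, 0, 0, 0, 0, 0, 0⟩ ⟨0, 0, 0, 0, 0, 0, 183988, 0, 0, 0, 0, 0, 0⟩ ⟨0, 0, 0, 0, 0, 0, 125533, 0, 0, 0, 0, 0, 0⟩ ⟨0, 0, 0, 0, 0, 0, 125533, 0, 0, 0, 0, 0, 0⟩ ⟨252, -1, -2048, 7, -146, 778, 95266, 0, 0, 0, 0, 0, 0⟩))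
    (.leaf (.box ⟨579, -1, -4651, 6, -114, 2147, 331988, 0, 0, 0, 0, 0, 0⟩ ⟨0, 0, 0, 0, 0, 0, 177428, 0, 0, 0, 0, 0, 0⟩ ⟨0, 0, 0, 0, 0, 0, 177428, 0, 0, 0, 0, 0, 0⟩ ⟨0, 0, 0, 0, 0, 0, 121065, 0, 0, 0, 0, 0, 0⟩ ⟨0, 0, 0, 0, 0, 0, 121065, 0, 0, 0, 0, 0, 0⟩ ⟨242, -1, -2048, 7, -150, 785, 91878, 0, 0, 0, 0, 0, 0⟩)))))
    (.s2
    (.s2
    (.leaf (.box ⟨1035, -1, -3948, 6, -72, 1820, 444192, 0, 0, 0, 0, 0, 0⟩ ⟨0, 0, 0, 0, 0, 0, 187623, 0, 0, 0, 0, 0, 0⟩ ⟨0, 0, 0, 0, 0, 0, 187623, 0, 0, 0, 0, 0, 0⟩ ⟨0, 0, 0, 0, 0, 0, 118929, 0, 0, 0, 0, 0, 0⟩ ⟨0, 0, 0, 0, 0, 0, 118929, 0, 0, 0, 0, 0, 0⟩ ⟨488, -2, -2048, 10, -153, 759, 87055, 0, 0, 0, 0, 0, 0⟩))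
    (.leaf (.box ⟨1295, -1, -4745, 6, -89, 2211, 436018, 0, 0, 0, 0, 0, 0⟩ ⟨0, 0, 0, 0, 0, 0, 184191, 0, 0, 0, 0, 0, 0⟩ ⟨0, 0, 0, 0, 0, 0, 184191, 0, 0, 0, 0, 0, 0⟩ ⟨0, 0, 0, 0, 0, 0, 116757, 0, 0, 0, 0, 0, 0⟩ ⟨0, 0, 0, 0, 0, 0, 116757, 0, 0, 0, 0, 0, 0⟩ ⟨509, -1, -2048, 10, -156, 764, 85466, 0, 0, 0, 0, 0, 0⟩)))
    (.leaf (.box ⟨1646, -1, -4963, 6, -90, 2191, 420040, 0, 0, 0, 0, 0, 0⟩ ⟨0, 0, 0, 0, 0, 0, 177486, 0, 0, 0, 0, 0, 0⟩ ⟨0, 0, 0, 0, 0, 0, 177486, 0, 0, 0, 0, 0, 0⟩ ⟨0, 0, 0, 0, 0, 0, 112514, 0, 0, 0, 0, 0, 0⟩ ⟨0, 0, 0, 0, 0, 0, 112514, 0, 0, 0, 0, 0, 0⟩ ⟨554, -2, -2048, 11, -158, 761, 82363, 0, 0, 0, 0, 0, 0⟩))))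
    (.s3
    (.leaf (.box ⟨1319, -1, -2700, 6, -92, 1751, 333184, 0, 0, 0, 0, 0, 0⟩ ⟨0, 0, 0, 0, 0, 0, 177973, 0, 0, 0, 0, 0, 0⟩ ⟨0, 0, 0, 0, 0, 0, 177973, 0, 0, 0, 0, 0, 0⟩ ⟨0, 0, 0, 0, 0, 0, 121413, 0, 0, 0, 0, 0, 0⟩ ⟨0, 0, 0, 0, 0, 0, 121413, 0, 0, 0, 0, 0, 0⟩ ⟨917, -2, -2048, 10, -191, 1008, 92133, 0, 0, 0, 0, 0, 0⟩))
    (.leaf (.box ⟨2195, -1, -4666, 6, -113, 2794, 426515, 0, 0, 0, 0, 0, 0⟩ ⟨0, 0, 0, 0, 0, 0, 180188, 0, 0, 0, 0, 0, 0⟩ ⟨0, 0, 0, 0, 0, 0, 180188, 0, 0, 0, 0, 0, 0⟩ ⟨0, 0, 0, 0, 0, 0, 114221, 0, 0, 0, 0, 0, 0⟩ ⟨0, 0, 0, 0, 0, 0, 114221, 0, 0, 0, 0, 0, 0⟩ ⟨838, -1, -2048, 10, -201, 976, 83611, 0, 0, 0, 0, 0, 0⟩))))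
    (.s1
    (.s2
    (.leaf (.box ⟨1271, -1, -3465, 6, -79, 1467, 315978, 0, 0, 0, 0, 0, 0⟩ ⟨0, 0, 0, 0, 0, 0, 158243, 0, 0, 0, 0, 0, 0⟩ ⟨0, 0, 0, 0, 0, 0, 158243, 0, 0, 0, 0, 0, 0⟩ ⟨0, 0, 0, 0, 0, 0, 105552, 0, 0, 0, 0, 0, 0⟩ ⟨0, 0, 0, 0, 0, 0, 105552, 0, 0, 0, 0, 0, 0⟩ ⟨634, -3, -2048, 14, -159, 751, 79185, 0, 0, 0, 0, 0, 0⟩))
    (.leaf (.box ⟨933, -1, -2844, 6, -68, 1277, 304228, 0, 0, 0, 0, 0, 0⟩ ⟨0, 0, 0, 0, 0, 0, 152398, 0, 0, 0, 0, 0, 0⟩ ⟨0, 0, 0, 0, 0, 0, 152398, 0, 0, 0, 0, 0, 0⟩ ⟨0, 0, 0, 0, 0, 0, 101662, 0, 0, 0, 0, 0, 0⟩ ⟨0, 0, 0, 0, 0, 0, 101662, 0, 0, 0, 0, 0, 0⟩ ⟨655, -3, -2048, 12, -151, 711, 76270, 0, 0, 0, 0, 0, 0⟩)))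
    (.leaf (.box ⟨1374, -1, -2603, 6, -89, 1624, 308530, 0, 0, 0, 0, 0, 0⟩ ⟨0, 0, 0, 0, 0, 0, 154549, 0, 0, 0, 0, 0, 0⟩ ⟨0, 0, 0, 0, 0, 0, 154549, 0, 0, 0, 0, 0, 0⟩ ⟨0, 0, 0, 0, 0, 0, 103096, 0, 0, 0, 0, 0, 0⟩ ⟨0, 0, 0, 0, 0, 0, 103096, 0, 0, 0, 0, 0, 0⟩ ⟨982, -2, -2048, 15, -213, 985, 77345, 0, 0, 0, 0, 0, 0⟩)))

/-- A piece of the tree. -/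
noncomputable def tree8 : Tree LeafX :=
  .s2
    (.s1
    (.s3
    (.s3
    (.s2
    (.leaf (.box ⟨393, -2, -2048, 7, -50, 889, 342576, 0, 0, 0, 0, 0, 0⟩ ⟨0, 0, 0, 0, 0, 0, 189443, 0, 0, 0, 0, 0, 0⟩ ⟨0, 0, 0, 0, 0, 0, 189443, 0, 0, 0, 0, 0, 0⟩ ⟨0, 0, 0, 0, 0, 0, 130921, 0, 0, 0, 0, 0, 0⟩ ⟨0, 0, 0, 0, 0, 0, 130921, 0, 0, 0, 0, 0, 0⟩ ⟨336, -5, -2048, 19, -147, 760, 100022, 0, 0, 0, 0, 0, 0⟩))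
    (.leaf (.box ⟨376, -2, -2048, 7, -52, 905, 330971, 0, 0, 0, 0, 0, 0⟩ ⟨0, 0, 0, 0, 0, 0, 183044, 0, 0, 0, 0, 0, 0⟩ ⟨0, 0, 0, 0, 0, 0, 183044, 0, 0, 0, 0, 0, 0⟩ ⟨0, 0, 0, 0, 0, 0, 126504, 0, 0, 0, 0, 0, 0⟩ ⟨0, 0, 0, 0, 0, 0, 126504, 0, 0, 0, 0, 0, 0⟩ ⟨332, -5, -2048, 20, -149, 763, 96649, 0, 0, 0, 0, 0, 0⟩)))
    (.leaf (.box ⟨259, -1, -2048, 7, -44, 870, 371718, 0, 0, 0, 0, 0, 0⟩ ⟨0, 0, 0, 0, 0, 0, 184277, 0, 0, 0, 0, 0, 0⟩ ⟨0, 0, 0, 0, 0, 0, 184277, 0, 0, 0, 0, 0, 0⟩ ⟨0, 0, 0, 0, 0, 0, 122504, 0, 0, 0, 0, 0, 0⟩ ⟨0, 0, 0, 0, 0, 0, 122504, 0, 0, 0, 0, 0, 0⟩ ⟨233, -4, -2048, 20, -151, 733, 91748, 0, 0, 0, 0, 0, 0⟩)))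
    (.leaf (.box ⟨257, -1, -2333, 6, -42, 955, 423836, 0, 0, 0, 0, 0, 0⟩ ⟨0, 0, 0, 0, 0, 0, 179261, 0, 0, 0, 0, 0, 0⟩ ⟨0, 0, 0, 0, 0, 0, 179261, 0, 0, 0, 0, 0, 0⟩ ⟨0, 0, 0, 0, 0, 0, 113668, 0, 0, 0, 0, 0, 0⟩ ⟨0, 0, 0, 0, 0, 0, 113668, 0, 0, 0, 0, 0, 0⟩ ⟨244, -4, -2048, 21, -155, 700, 83218, 0, 0, 0, 0, 0, 0⟩)))
    (.s3
    (.s1
    (.s0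
    (.s2
    (.leaf (.box ⟨440, -1, -4261, 6, -100, 1907, 348041, 0, 0, 0, 0, 0, 0⟩ ⟨0, 0, 0, 0, 0, 0, 186035, 0, 0, 0, 0, 0, 0⟩ ⟨0, 0, 0, 0, 0, 0, 186035, 0, 0, 0, 0, 0, 0⟩ ⟨0, 0, 0, 0, 0, 0, 126945, 0, 0, 0, 0, 0, 0⟩ ⟨0, 0, 0, 0, 0, 0, 126945, 0, 0, 0, 0, 0, 0⟩ ⟨214, -2, -2048, 7, -149, 791, 96343, 0, 0, 0, 0, 0, 0⟩))
    (.leaf (.box ⟨446, -1, -4616, 6, -114, 2123, 335890, 0, 0, 0, 0, 0, 0⟩ ⟨0, 0, 0, 0, 0, 0, 179567, 0, 0, 0, 0, 0, 0⟩ ⟨0, 0, 0, 0, 0, 0, 179567, 0, 0, 0, 0, 0, 0⟩ ⟨0, 0, 0, 0, 0, 0, 122538, 0, 0, 0, 0, 0, 0⟩ ⟨0, 0, 0, 0, 0, 0, 122538, 0, 0, 0, 0, 0, 0⟩ ⟨204, -2, -2048, 8, -155, 804, 93001, 0, 0, 0, 0, 0, 0⟩)))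
    (.s2
    (.leaf (.box ⟨302, -1, -4173, 6, -98, 1803, 349506, 0, 0, 0, 0, 0, 0⟩ ⟨0, 0, 0, 0, 0, 0, 186883, 0, 0, 0, 0, 0, 0⟩ ⟨0, 0, 0, 0, 0, 0, 186883, 0, 0, 0, 0, 0, 0⟩ ⟨0, 0, 0, 0, 0, 0, 127540, 0, 0, 0, 0, 0, 0⟩ ⟨0, 0, 0, 0, 0, 0, 127540, 0, 0, 0, 0, 0, 0⟩ ⟨150, -2, -2048, 10, -151, 774, 96801, 0, 0, 0, 0, 0, 0⟩))
    (.leaf (.box ⟨265, -1, -3967, 6, -98, 1761, 337806, 0, 0, 0, 0, 0, 0⟩ ⟨0, 0, 0, 0, 0, 0, 180650, 0, 0, 0, 0, 0, 0⟩ ⟨0, 0, 0, 0, 0, 0, 180650, 0, 0, 0, 0, 0, 0⟩ ⟨0, 0, 0, 0, 0, 0, 123292, 0, 0, 0, 0, 0, 0⟩ ⟨0, 0, 0, 0, 0, 0, 123292, 0, 0, 0, 0, 0, 0⟩ ⟨137, -3, -2048, 11, -156, 785, 93579, 0, 0, 0, 0, 0, 0⟩))))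
    (.s0
    (.leaf (.box ⟨834, -1, -5411, 6, -140, 2641, 338019, 0, 0, 0, 0, 0, 0⟩ ⟨0, 0, 0, 0, 0, 0, 180672, 0, 0, 0, 0, 0, 0⟩ ⟨0, 0, 0, 0, 0, 0, 180672, 0, 0, 0, 0, 0, 0⟩ ⟨0, 0, 0, 0, 0, 0, 123284, 0, 0, 0, 0, 0, 0⟩ ⟨0, 0, 0, 0, 0, 0, 123284, 0, 0, 0, 0, 0, 0⟩ ⟨303, -2, -2048, 8, -165, 866, 93564, 0, 0, 0, 0, 0, 0⟩))
    (.s2
    (.leaf (.box ⟨374, -1, -4716, 6, -110, 2088, 351783, 0, 0, 0, 0, 0, 0⟩ ⟨0, 0, 0, 0, 0, 0, 188075, 0, 0, 0, 0, 0, 0⟩ ⟨0, 0, 0, 0, 0, 0, 188075, 0, 0, 0, 0, 0, 0⟩ ⟨0, 0, 0, 0, 0, 0, 128347, 0, 0, 0, 0, 0, 0⟩ ⟨0, 0, 0, 0, 0, 0, 128347, 0, 0, 0, 0, 0, 0⟩ ⟨181, -2, -2048, 8, -152, 803, 97411, 0, 0, 0, 0, 0, 0⟩))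
    (.leaf (.box ⟨355, -1, -4581, 6, -114, 2097, 339812, 0, 0, 0, 0, 0, 0⟩ ⟨0, 0, 0, 0, 0, 0, 181701, 0, 0, 0, 0, 0, 0⟩ ⟨0, 0, 0, 0, 0, 0, 181701, 0, 0, 0, 0, 0, 0⟩ ⟨0, 0, 0, 0, 0, 0, 124004, 0, 0, 0, 0, 0, 0⟩ ⟨0, 0, 0, 0, 0, 0, 124004, 0, 0, 0, 0, 0, 0⟩ ⟨171, -2, -2048, 8, -160, 820, 94117, 0, 0, 0, 0, 0, 0⟩)))))
    (.s2
    (.leaf (.box ⟨811, -1, -3951, 6, -71, 1752, 445683, 0, 0, 0, 0, 0, 0⟩ ⟨0, 0, 0, 0, 0, 0, 188485, 0, 0, 0, 0, 0, 0⟩ ⟨0, 0, 0, 0, 0, 0, 188485, 0, 0, 0, 0, 0, 0⟩ ⟨0, 0, 0, 0, 0, 0, 119514, 0, 0, 0, 0, 0, 0⟩ ⟨0, 0, 0, 0, 0, 0, 119514, 0, 0, 0, 0, 0, 0⟩ ⟨399, -2, -2048, 13, -160, 777, 87497, 0, 0, 0, 0, 0, 0⟩))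
    (.leaf (.box ⟨725, -1, -3688, 6, -74, 1776, 430156, 0, 0, 0, 0, 0, 0⟩ ⟨0, 0, 0, 0, 0, 0, 181962, 0, 0, 0, 0, 0, 0⟩ ⟨0, 0, 0, 0, 0, 0, 181962, 0, 0, 0, 0, 0, 0⟩ ⟨0, 0, 0, 0, 0, 0, 115386, 0, 0, 0, 0, 0, 0⟩ ⟨0, 0, 0, 0, 0, 0, 115386, 0, 0, 0, 0, 0, 0⟩ ⟨424, -3, -2048, 14, -165, 785, 84477, 0, 0, 0, 0, 0, 0⟩)))))
    (.s2
    (.s1
    (.leaf (.box ⟨467, -1, -2048, 7, -49, 855, 319707, 0, 0, 0, 0, 0, 0⟩ ⟨0, 0, 0, 0, 0, 0, 160205, 0, 0, 0, 0, 0, 0⟩ ⟨0, 0, 0, 0, 0, 0, 160205, 0, 0, 0, 0, 0, 0⟩ ⟨0, 0, 0, 0, 0, 0, 106881, 0, 0, 0, 0, 0, 0⟩ ⟨0, 0, 0, 0, 0, 0, 106881, 0, 0, 0, 0, 0, 0⟩ ⟨455, -5, -2048, 24, -157, 700, 80190, 0, 0, 0, 0, 0, 0⟩))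
    (.leaf (.box ⟨556, -1, -2169, 6, -51, 943, 324149, 0, 0, 0, 0, 0, 0⟩ ⟨0, 0, 0, 0, 0, 0, 162457, 0, 0, 0, 0, 0, 0⟩ ⟨0, 0, 0, 0, 0, 0, 162457, 0, 0, 0, 0, 0, 0⟩ ⟨0, 0, 0, 0, 0, 0, 108390, 0, 0, 0, 0, 0, 0⟩ ⟨0, 0, 0, 0, 0, 0, 108390, 0, 0, 0, 0, 0, 0⟩ ⟨451, -4, -2048, 18, -171, 791, 81324, 0, 0, 0, 0, 0, 0⟩)))
    (.leaf (.box ⟨544, -2, -2048, 8, -49, 879, 308782, 0, 0, 0, 0, 0, 0⟩ ⟨0, 0, 0, 0, 0, 0, 154761, 0, 0, 0, 0, 0, 0⟩ ⟨0, 0, 0, 0, 0, 0, 154761, 0, 0, 0, 0, 0, 0⟩ ⟨0, 0, 0, 0, 0, 0, 103257, 0, 0, 0, 0, 0, 0⟩ ⟨0, 0, 0, 0, 0, 0, 103257, 0, 0, 0, 0, 0, 0⟩ ⟨587, -6, -2048, 25, -157, 710, 77473, 0, 0, 0, 0, 0, 0⟩)))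

/-- A piece of the tree. -/
noncomputable def tree9 : Tree LeafX :=
  .s1
    (.leaf (.box ⟨1743, -3, -2048, 22, -37, 653, 250782, 0, 0, 0, 0, 0, 0⟩ ⟨0, 0, 0, 0, 0, 0, 125228, 0, 0, 0, 0, 0, 0⟩ ⟨0, 0, 0, 0, 0, 0, 125228, 0, 0, 0, 0, 0, 0⟩ ⟨0, 0, 0, 0, 0, 0, 83449, 0, 0, 0, 0, 0, 0⟩ ⟨0, 0, 0, 0, 0, 0, 83449, 0, 0, 0, 0, 0, 0⟩ ⟨1340, -9, -2048, 66, -107, 476, 62573, 0, 0, 0, 0, 0, 0⟩))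
    (.leaf (.box ⟨1440, -4, -2048, 15, -45, 812, 261021, 0, 0, 0, 0, 0, 0⟩ ⟨0, 0, 0, 0, 0, 0, 130962, 0, 0, 0, 0, 0, 0⟩ ⟨0, 0, 0, 0, 0, 0, 130962, 0, 0, 0, 0, 0, 0⟩ ⟨0, 0, 0, 0, 0, 0, 87409, 0, 0, 0, 0, 0, 0⟩ ⟨0, 0, 0, 0, 0, 0, 87409, 0, 0, 0, 0, 0, 0⟩ ⟨1361, -13, -2048, 45, -131, 606, 65594, 0, 0, 0, 0, 0, 0⟩))

/-- A piece of the tree. -/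
noncomputable def tree10 : Tree LeafX :=
  .s0
    (.s2
    (.leaf (.box ⟨2048, 1, 679, 7, -30, 491, 298767, 0, 0, 0, 0, 0, 0⟩ ⟨0, 0, 0, 0, 0, 0, 148096, 0, 0, 0, 0, 0, 0⟩ ⟨0, 0, 0, 0, 0, 0, 148096, 0, 0, 0, 0, 0, 0⟩ ⟨0, 0, 0, 0, 0, 0, 98448, 0, 0, 0, 0, 0, 0⟩ ⟨0, 0, 0, 0, 0, 0, 98448, 0, 0, 0, 0, 0, 0⟩ ⟨2048, 8, 976, 61, -179, 565, 73730, 0, 0, 0, 0, 0, 0⟩))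
    (.leaf (.box ⟨2048, 1, 841, 9, -24, 357, 249026, 0, 0, 0, 0, 0, 0⟩ ⟨0, 0, 0, 0, 0, 0, 123471, 0, 0, 0, 0, 0, 0⟩ ⟨0, 0, 0, 0, 0, 0, 123471, 0, 0, 0, 0, 0, 0⟩ ⟨0, 0, 0, 0, 0, 0, 82085, 0, 0, 0, 0, 0, 0⟩ ⟨0, 0, 0, 0, 0, 0, 82085, 0, 0, 0, 0, 0, 0⟩ ⟨2048, 2, 886, 38, -104, 384, 61478, 0, 0, 0, 0, 0, 0⟩)))
    (.s1
    (.s2
    (.s0
    (.leaf (.box ⟨2048, 0, -1059, 6, -74, 1335, 311833, 0, 0, 0, 0, 0, 0⟩ ⟨0, 0, 0, 0, 0, 0, 156105, 0, 0, 0, 0, 0, 0⟩ ⟨0, 0, 0, 0, 0, 0, 156105, 0, 0, 0, 0, 0, 0⟩ ⟨0, 0, 0, 0, 0, 0, 104112, 0, 0, 0, 0, 0, 0⟩ ⟨0, 0, 0, 0, 0, 0, 104112, 0, 0, 0, 0, 0, 0⟩ ⟨2048, -1, -1403, 21, -286, 1293, 78099, 0, 0, 0, 0, 0, 0⟩))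
    (.s2
    (.s3
    (.s2
    (.leaf (.box ⟨1276, -1, -2194, 6, -74, 1473, 352580, 0, 0, 0, 0, 0, 0⟩ ⟨0, 0, 0, 0, 0, 0, 188364, 0, 0, 0, 0, 0, 0⟩ ⟨0, 0, 0, 0, 0, 0, 188364, 0, 0, 0, 0, 0, 0⟩ ⟨0, 0, 0, 0, 0, 0, 128510, 0, 0, 0, 0, 0, 0⟩ ⟨0, 0, 0, 0, 0, 0, 128510, 0, 0, 0, 0, 0, 0⟩ ⟨1068, -2, -2048, 16, -190, 1042, 97521, 0, 0, 0, 0, 0, 0⟩))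
    (.leaf (.box ⟨2048, -1, -2006, 7, -94, 1787, 339935, 0, 0, 0, 0, 0, 0⟩ ⟨0, 0, 0, 0, 0, 0, 181640, 0, 0, 0, 0, 0, 0⟩ ⟨0, 0, 0, 0, 0, 0, 181640, 0, 0, 0, 0, 0, 0⟩ ⟨0, 0, 0, 0, 0, 0, 123930, 0, 0, 0, 0, 0, 0⟩ ⟨0, 0, 0, 0, 0, 0, 123930, 0, 0, 0, 0, 0, 0⟩ ⟨1216, -2, -2048, 19, -240, 1269, 94049, 0, 0, 0, 0, 0, 0⟩)))
    (.leaf (.box ⟨2164, -1, -3779, 6, -89, 2210, 435230, 0, 0, 0, 0, 0, 0⟩ ⟨0, 0, 0, 0, 0, 0, 183967, 0, 0, 0, 0, 0, 0⟩ ⟨0, 0, 0, 0, 0, 0, 183967, 0, 0, 0, 0, 0, 0⟩ ⟨0, 0, 0, 0, 0, 0, 116633, 0, 0, 0, 0, 0, 0⟩ ⟨0, 0, 0, 0, 0, 0, 116633, 0, 0, 0, 0, 0, 0⟩ ⟨1180, -2, -2048, 17, -242, 1182, 85382, 0, 0, 0, 0, 0, 0⟩)))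
    (.leaf (.box ⟨2048, -1, -1724, 10, -89, 1628, 316046, 0, 0, 0, 0, 0, 0⟩ ⟨0, 0, 0, 0, 0, 0, 158365, 0, 0, 0, 0, 0, 0⟩ ⟨0, 0, 0, 0, 0, 0, 158365, 0, 0, 0, 0, 0, 0⟩ ⟨0, 0, 0, 0, 0, 0, 105653, 0, 0, 0, 0, 0, 0⟩ ⟨0, 0, 0, 0, 0, 0, 105653, 0, 0, 0, 0, 0, 0⟩ ⟨1349, -3, -2048, 19, -191, 883, 79268, 0, 0, 0, 0, 0, 0⟩))))
    (.leaf (.box ⟨2048, -2, -1232, 13, -50, 904, 266824, 0, 0, 0, 0, 0, 0⟩ ⟨0, 0, 0, 0, 0, 0, 133856, 0, 0, 0, 0, 0, 0⟩ ⟨0, 0, 0, 0, 0, 0, 133856, 0, 0, 0, 0, 0, 0⟩ ⟨0, 0, 0, 0, 0, 0, 89336, 0, 0, 0, 0, 0, 0⟩ ⟨0, 0, 0, 0, 0, 0, 89336, 0, 0, 0, 0, 0, 0⟩ ⟨2048, -10, -1602, 51, -172, 792, 67039, 0, 0, 0, 0, 0, 0⟩)))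
    (.leaf (.box ⟨2048, 1, -115, 15, -43, 732, 269474, 0, 0, 0, 0, 0, 0⟩ ⟨0, 0, 0, 0, 0, 0, 134388, 0, 0, 0, 0, 0, 0⟩ ⟨0, 0, 0, 0, 0, 0, 134388, 0, 0, 0, 0, 0, 0⟩ ⟨0, 0, 0, 0, 0, 0, 89515, 0, 0, 0, 0, 0, 0⟩ ⟨0, 0, 0, 0, 0, 0, 89515, 0, 0, 0, 0, 0, 0⟩ ⟨2048, 3, -362, 59, -165, 693, 67107, 0, 0, 0, 0, 0, 0⟩)))

/-- A piece of the tree. -/
noncomputable def tree11 : Tree LeafX :=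
  .s0
    (.s1
    (.leaf (.box ⟨2048, 1, -203, 48, -60, 720, 271333, 0, 0, 0, 0, 0, 0⟩ ⟨0, 0, 0, 0, 0, 0, 135190, 0, 0, 0, 0, 0, 0⟩ ⟨0, 0, 0, 0, 0, 0, 135190, 0, 0, 0, 0, 0, 0⟩ ⟨0, 0, 0, 0, 0, 0, 90021, 0, 0, 0, 0, 0, 0⟩ ⟨0, 0, 0, 0, 0, 0, 90021, 0, 0, 0, 0, 0, 0⟩ ⟨2048, 2, -790, 169, -200, 601, 67476, 0, 0, 0, 0, 0, 0⟩))
    (.s2
    (.s1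
    (.leaf (.box ⟨2048, -9, -1528, 61, -73, 1342, 315891, 0, 0, 0, 0, 0, 0⟩ ⟨0, 0, 0, 0, 0, 0, 158331, 0, 0, 0, 0, 0, 0⟩ ⟨0, 0, 0, 0, 0, 0, 158331, 0, 0, 0, 0, 0, 0⟩ ⟨0, 0, 0, 0, 0, 0, 105640, 0, 0, 0, 0, 0, 0⟩ ⟨0, 0, 0, 0, 0, 0, 105640, 0, 0, 0, 0, 0, 0⟩ ⟨2048, -18, -1841, 117, -360, 1137, 79262, 0, 0, 0, 0, 0, 0⟩))
    (.s0
    (.s2
    (.s3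
    (.s3
    (.leaf (.box ⟨631, -2, -2048, 10, -68, 1131, 340323, 0, 0, 0, 0, 0, 0⟩ ⟨0, 0, 0, 0, 0, 0, 188335, 0, 0, 0, 0, 0, 0⟩ ⟨0, 0, 0, 0, 0, 0, 188335, 0, 0, 0, 0, 0, 0⟩ ⟨0, 0, 0, 0, 0, 0, 130191, 0, 0, 0, 0, 0, 0⟩ ⟨0, 0, 0, 0, 0, 0, 130191, 0, 0, 0, 0, 0, 0⟩ ⟨578, -7, -2048, 27, -178, 875, 99479, 0, 0, 0, 0, 0, 0⟩))
    (.leaf (.box ⟨493, -2, -2048, 7, -49, 932, 382282, 0, 0, 0, 0, 0, 0⟩ ⟨0, 0, 0, 0, 0, 0, 189663, 0, 0, 0, 0, 0, 0⟩ ⟨0, 0, 0, 0, 0, 0, 189663, 0, 0, 0, 0, 0, 0⟩ ⟨0, 0, 0, 0, 0, 0, 126117, 0, 0, 0, 0, 0, 0⟩ ⟨0, 0, 0, 0, 0, 0, 126117, 0, 0, 0, 0, 0, 0⟩ ⟨419, -6, -2048, 24, -173, 820, 94466, 0, 0, 0, 0, 0, 0⟩)))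
    (.leaf (.box ⟨410, -1, -2117, 6, -40, 900, 435949, 0, 0, 0, 0, 0, 0⟩ ⟨0, 0, 0, 0, 0, 0, 184564, 0, 0, 0, 0, 0, 0⟩ ⟨0, 0, 0, 0, 0, 0, 184564, 0, 0, 0, 0, 0, 0⟩ ⟨0, 0, 0, 0, 0, 0, 117062, 0, 0, 0, 0, 0, 0⟩ ⟨0, 0, 0, 0, 0, 0, 117062, 0, 0, 0, 0, 0, 0⟩ ⟨340, -5, -2048, 24, -173, 763, 85713, 0, 0, 0, 0, 0, 0⟩)))
    (.s3
    (.leaf (.box ⟨717, -3, -2048, 11, -60, 993, 318999, 0, 0, 0, 0, 0, 0⟩ ⟨0, 0, 0, 0, 0, 0, 170687, 0, 0, 0, 0, 0, 0⟩ ⟨0, 0, 0, 0, 0, 0, 170687, 0, 0, 0, 0, 0, 0⟩ ⟨0, 0, 0, 0, 0, 0, 116516, 0, 0, 0, 0, 0, 0⟩ ⟨0, 0, 0, 0, 0, 0, 116516, 0, 0, 0, 0, 0, 0⟩ ⟨645, -8, -2048, 31, -182, 837, 88445, 0, 0, 0, 0, 0, 0⟩))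
    (.leaf (.box ⟨387, -1, -2048, 7, -41, 885, 408702, 0, 0, 0, 0, 0, 0⟩ ⟨0, 0, 0, 0, 0, 0, 173120, 0, 0, 0, 0, 0, 0⟩ ⟨0, 0, 0, 0, 0, 0, 173120, 0, 0, 0, 0, 0, 0⟩ ⟨0, 0, 0, 0, 0, 0, 109819, 0, 0, 0, 0, 0, 0⟩ ⟨0, 0, 0, 0, 0, 0, 109819, 0, 0, 0, 0, 0, 0⟩ ⟨380, -6, -2048, 27, -172, 743, 80415, 0, 0, 0, 0, 0, 0⟩))))
    (.leaf (.box ⟨1930, -5, -2048, 27, -107, 1584, 328332, 0, 0, 0, 0, 0, 0⟩ ⟨0, 0, 0, 0, 0, 0, 164643, 0, 0, 0, 0, 0, 0⟩ ⟨0, 0, 0, 0, 0, 0, 164643, 0, 0, 0, 0, 0, 0⟩ ⟨0, 0, 0, 0, 0, 0, 109869, 0, 0, 0, 0, 0, 0⟩ ⟨0, 0, 0, 0, 0, 0, 109869, 0, 0, 0, 0, 0, 0⟩ ⟨1425, -13, -2048, 70, -270, 1006, 82441, 0, 0, 0, 0, 0, 0⟩))))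
    (.leaf (.box ⟨2048, -8, -1054, 36, -65, 987, 278723, 0, 0, 0, 0, 0, 0⟩ ⟨0, 0, 0, 0, 0, 0, 139871, 0, 0, 0, 0, 0, 0⟩ ⟨0, 0, 0, 0, 0, 0, 139871, 0, 0, 0, 0, 0, 0⟩ ⟨0, 0, 0, 0, 0, 0, 93361, 0, 0, 0, 0, 0, 0⟩ ⟨0, 0, 0, 0, 0, 0, 93361, 0, 0, 0, 0, 0, 0⟩ ⟨2048, -27, -1880, 119, -197, 763, 70063, 0, 0, 0, 0, 0, 0⟩))))
    (.leaf (.box ⟨2048, 6, 318, 65, -67, 704, 309126, 0, 0, 0, 0, 0, 0⟩ ⟨0, 0, 0, 0, 0, 0, 153986, 0, 0, 0, 0, 0, 0⟩ ⟨0, 0, 0, 0, 0, 0, 153986, 0, 0, 0, 0, 0, 0⟩ ⟨0, 0, 0, 0, 0, 0, 102530, 0, 0, 0, 0, 0, 0⟩ ⟨0, 0, 0, 0, 0, 0, 102530, 0, 0, 0, 0, 0, 0⟩ ⟨2048, 22, 139, 243, -242, 629, 76849, 0, 0, 0, 0, 0, 0⟩))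

/-- A piece of the tree. -/
noncomputable def tree12 : Tree LeafX :=
  .s1
    (.s0
    (.s2
    (.s3
    (.s0
    (.s2
    (.leaf (.box ⟨369, -1, -3732, 6, -87, 1652, 355555, 0, 0, 0, 0, 0, 0⟩ ⟨0, 0, 0, 0, 0, 0, 190116, 0, 0, 0, 0, 0, 0⟩ ⟨0, 0, 0, 0, 0, 0, 190116, 0, 0, 0, 0, 0, 0⟩ ⟨0, 0, 0, 0, 0, 0, 129746, 0, 0, 0, 0, 0, 0⟩ ⟨0, 0, 0, 0, 0, 0, 129746, 0, 0, 0, 0, 0, 0⟩ ⟨226, -2, -2048, 11, -157, 827, 98475, 0, 0, 0, 0, 0, 0⟩))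
    (.leaf (.box ⟨217, -1, -2568, 6, -68, 1203, 343597, 0, 0, 0, 0, 0, 0⟩ ⟨209, -1, -2048, 6, -89, 910, 191315, 0, 0, 0, 0, 0, 0⟩ ⟨209, -1, -2048, 6, -89, 910, 191315, 0, 0, 0, 0, 0, 0⟩ ⟨215, -2, -2048, 9, -126, 879, 129136, 0, 0, 0, 0, 0, 0⟩ ⟨215, -2, -2048, 9, -126, 879, 129136, 0, 0, 0, 0, 0, 0⟩ ⟨220, -2, -2048, 11, -166, 850, 95209, 0, 0, 0, 0, 0, 0⟩)))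
    (.s1
    (.leaf (.box ⟨495, -1, -2948, 6, -76, 1332, 346485, 0, 0, 0, 0, 0, 0⟩ ⟨0, 0, 0, 0, 0, 0, 185338, 0, 0, 0, 0, 0, 0⟩ ⟨0, 0, 0, 0, 0, 0, 185338, 0, 0, 0, 0, 0, 0⟩ ⟨0, 0, 0, 0, 0, 0, 126503, 0, 0, 0, 0, 0, 0⟩ ⟨0, 0, 0, 0, 0, 0, 126503, 0, 0, 0, 0, 0, 0⟩ ⟨306, -3, -2048, 13, -172, 839, 96021, 0, 0, 0, 0, 0, 0⟩))
    (.leaf (.box ⟨435, -1, -3695, 6, -91, 1637, 347752, 0, 0, 0, 0, 0, 0⟩ ⟨0, 0, 0, 0, 0, 0, 185973, 0, 0, 0, 0, 0, 0⟩ ⟨0, 0, 0, 0, 0, 0, 185973, 0, 0, 0, 0, 0, 0⟩ ⟨0, 0, 0, 0, 0, 0, 126925, 0, 0, 0, 0, 0, 0⟩ ⟨0, 0, 0, 0, 0, 0, 126925, 0, 0, 0, 0, 0, 0⟩ ⟨210, -2, -2048, 11, -166, 834, 96337, 0, 0, 0, 0, 0, 0⟩))))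
    (.leaf (.box ⟨438, -1, -2866, 6, -52, 1232, 440305, 0, 0, 0, 0, 0, 0⟩ ⟨0, 0, 0, 0, 0, 0, 186344, 0, 0, 0, 0, 0, 0⟩ ⟨0, 0, 0, 0, 0, 0, 186344, 0, 0, 0, 0, 0, 0⟩ ⟨0, 0, 0, 0, 0, 0, 118180, 0, 0, 0, 0, 0, 0⟩ ⟨0, 0, 0, 0, 0, 0, 118180, 0, 0, 0, 0, 0, 0⟩ ⟨289, -3, -2048, 18, -169, 791, 86528, 0, 0, 0, 0, 0, 0⟩)))
    (.s3
    (.leaf (.box ⟨331, -2, -2048, 8, -55, 964, 321534, 0, 0, 0, 0, 0, 0⟩ ⟨0, 0, 0, 0, 0, 0, 172018, 0, 0, 0, 0, 0, 0⟩ ⟨0, 0, 0, 0, 0, 0, 172018, 0, 0, 0, 0, 0, 0⟩ ⟨0, 0, 0, 0, 0, 0, 117417, 0, 0, 0, 0, 0, 0⟩ ⟨0, 0, 0, 0, 0, 0, 117417, 0, 0, 0, 0, 0, 0⟩ ⟨314, -5, -2048, 23, -173, 839, 89127, 0, 0, 0, 0, 0, 0⟩))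
    (.leaf (.box ⟨368, -1, -2566, 6, -50, 1139, 411920, 0, 0, 0, 0, 0, 0⟩ ⟨0, 0, 0, 0, 0, 0, 174443, 0, 0, 0, 0, 0, 0⟩ ⟨0, 0, 0, 0, 0, 0, 174443, 0, 0, 0, 0, 0, 0⟩ ⟨0, 0, 0, 0, 0, 0, 110651, 0, 0, 0, 0, 0, 0⟩ ⟨0, 0, 0, 0, 0, 0, 110651, 0, 0, 0, 0, 0, 0⟩ ⟨313, -4, -2048, 21, -172, 781, 81022, 0, 0, 0, 0, 0, 0⟩))))
    (.s2
    (.s3
    (.s2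
    (.leaf (.box ⟨1145, -3, -2048, 13, -77, 1303, 360896, 0, 0, 0, 0, 0, 0⟩ ⟨0, 0, 0, 0, 0, 0, 193055, 0, 0, 0, 0, 0, 0⟩ ⟨0, 0, 0, 0, 0, 0, 193055, 0, 0, 0, 0, 0, 0⟩ ⟨0, 0, 0, 0, 0, 0, 131772, 0, 0, 0, 0, 0, 0⟩ ⟨0, 0, 0, 0, 0, 0, 131772, 0, 0, 0, 0, 0, 0⟩ ⟨774, -7, -2048, 32, -197, 924, 100021, 0, 0, 0, 0, 0, 0⟩))
    (.leaf (.box ⟨1223, -3, -2048, 14, -85, 1396, 349990, 0, 0, 0, 0, 0, 0⟩ ⟨0, 0, 0, 0, 0, 0, 187235, 0, 0, 0, 0, 0, 0⟩ ⟨0, 0, 0, 0, 0, 0, 187235, 0, 0, 0, 0, 0, 0⟩ ⟨0, 0, 0, 0, 0, 0, 127803, 0, 0, 0, 0, 0, 0⟩ ⟨0, 0, 0, 0, 0, 0, 127803, 0, 0, 0, 0, 0, 0⟩ ⟨805, -7, -2048, 34, -209, 956, 97010, 0, 0, 0, 0, 0, 0⟩)))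
    (.leaf (.box ⟨576, -1, -2048, 6, -41, 894, 448368, 0, 0, 0, 0, 0, 0⟩ ⟨0, 0, 0, 0, 0, 0, 189869, 0, 0, 0, 0, 0, 0⟩ ⟨0, 0, 0, 0, 0, 0, 189869, 0, 0, 0, 0, 0, 0⟩ ⟨0, 0, 0, 0, 0, 0, 120435, 0, 0, 0, 0, 0, 0⟩ ⟨0, 0, 0, 0, 0, 0, 120435, 0, 0, 0, 0, 0, 0⟩ ⟨492, -5, -2048, 28, -189, 817, 88185, 0, 0, 0, 0, 0, 0⟩)))
    (.leaf (.box ⟨1166, -3, -2048, 16, -81, 1315, 329512, 0, 0, 0, 0, 0, 0⟩ ⟨0, 0, 0, 0, 0, 0, 165281, 0, 0, 0, 0, 0, 0⟩ ⟨0, 0, 0, 0, 0, 0, 165281, 0, 0, 0, 0, 0, 0⟩ ⟨0, 0, 0, 0, 0, 0, 110305, 0, 0, 0, 0, 0, 0⟩ ⟨0, 0, 0, 0, 0, 0, 110305, 0, 0, 0, 0, 0, 0⟩ ⟨942, -9, -2048, 44, -214, 878, 82772, 0, 0, 0, 0, 0, 0⟩))))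
    (.s0
    (.s2
    (.s2
    (.leaf (.box ⟨581, -1, -2514, 6, -58, 1143, 358924, 0, 0, 0, 0, 0, 0⟩ ⟨0, 0, 0, 0, 0, 0, 179745, 0, 0, 0, 0, 0, 0⟩ ⟨0, 0, 0, 0, 0, 0, 179745, 0, 0, 0, 0, 0, 0⟩ ⟨0, 0, 0, 0, 0, 0, 119893, 0, 0, 0, 0, 0, 0⟩ ⟨0, 0, 0, 0, 0, 0, 119893, 0, 0, 0, 0, 0, 0⟩ ⟨453, -2, -2048, 17, -174, 863, 89943, 0, 0, 0, 0, 0, 0⟩))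
    (.leaf (.box ⟨556, -1, -2416, 6, -60, 1146, 346619, 0, 0, 0, 0, 0, 0⟩ ⟨0, 0, 0, 0, 0, 0, 173609, 0, 0, 0, 0, 0, 0⟩ ⟨0, 0, 0, 0, 0, 0, 173609, 0, 0, 0, 0, 0, 0⟩ ⟨0, 0, 0, 0, 0, 0, 115806, 0, 0, 0, 0, 0, 0⟩ ⟨0, 0, 0, 0, 0, 0, 115806, 0, 0, 0, 0, 0, 0⟩ ⟨464, -3, -2048, 18, -185, 890, 86879, 0, 0, 0, 0, 0, 0⟩)))
    (.leaf (.box ⟨496, -1, -2048, 7, -55, 1004, 323546, 0, 0, 0, 0, 0, 0⟩ ⟨0, 0, 0, 0, 0, 0, 162128, 0, 0, 0, 0, 0, 0⟩ ⟨0, 0, 0, 0, 0, 0, 162128, 0, 0, 0, 0, 0, 0⟩ ⟨0, 0, 0, 0, 0, 0, 108165, 0, 0, 0, 0, 0, 0⟩ ⟨0, 0, 0, 0, 0, 0, 108165, 0, 0, 0, 0, 0, 0⟩ ⟨486, -4, -2048, 21, -192, 882, 81153, 0, 0, 0, 0, 0, 0⟩)))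
    (.s2
    (.s3
    (.s1
    (.s2
    (.leaf (.box ⟨451, -1, -2048, 6, -50, 904, 363265, 0, 0, 0, 0, 0, 0⟩ ⟨0, 0, 0, 0, 0, 0, 194242, 0, 0, 0, 0, 0, 0⟩ ⟨0, 0, 0, 0, 0, 0, 194242, 0, 0, 0, 0, 0, 0⟩ ⟨0, 0, 0, 0, 0, 0, 132562, 0, 0, 0, 0, 0, 0⟩ ⟨0, 0, 0, 0, 0, 0, 132562, 0, 0, 0, 0, 0, 0⟩ ⟨431, -4, -2048, 19, -171, 851, 100613, 0, 0, 0, 0, 0, 0⟩))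
    (.leaf (.box ⟨870, -2, -2048, 8, -70, 1223, 351807, 0, 0, 0, 0, 0, 0⟩ ⟨0, 0, 0, 0, 0, 0, 188134, 0, 0, 0, 0, 0, 0⟩ ⟨0, 0, 0, 0, 0, 0, 188134, 0, 0, 0, 0, 0, 0⟩ ⟨0, 0, 0, 0, 0, 0, 128399, 0, 0, 0, 0, 0, 0⟩ ⟨0, 0, 0, 0, 0, 0, 128399, 0, 0, 0, 0, 0, 0⟩ ⟨440, -4, -2048, 21, -181, 879, 97455, 0, 0, 0, 0, 0, 0⟩)))
    (.leaf (.box ⟨401, -1, -2381, 6, -61, 1091, 352608, 0, 0, 0, 0, 0, 0⟩ ⟨0, 0, 0, 0, 0, 0, 188496, 0, 0, 0, 0, 0, 0⟩ ⟨0, 0, 0, 0, 0, 0, 188496, 0, 0, 0, 0, 0, 0⟩ ⟨0, 0, 0, 0, 0, 0, 128629, 0, 0, 0, 0, 0, 0⟩ ⟨0, 0, 0, 0, 0, 0, 128629, 0, 0, 0, 0, 0, 0⟩ ⟨337, -3, -2048, 17, -168, 840, 97623, 0, 0, 0, 0, 0, 0⟩)))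
    (.leaf (.box ⟨409, -1, -2599, 6, -46, 1070, 450608, 0, 0, 0, 0, 0, 0⟩ ⟨0, 0, 0, 0, 0, 0, 190704, 0, 0, 0, 0, 0, 0⟩ ⟨0, 0, 0, 0, 0, 0, 190704, 0, 0, 0, 0, 0, 0⟩ ⟨0, 0, 0, 0, 0, 0, 120945, 0, 0, 0, 0, 0, 0⟩ ⟨0, 0, 0, 0, 0, 0, 120945, 0, 0, 0, 0, 0, 0⟩ ⟨264, -3, -2048, 21, -170, 788, 88552, 0, 0, 0, 0, 0, 0⟩)))
    (.s3
    (.leaf (.box ⟨553, -2, -2048, 9, -57, 967, 330424, 0, 0, 0, 0, 0, 0⟩ ⟨0, 0, 0, 0, 0, 0, 176762, 0, 0, 0, 0, 0, 0⟩ ⟨0, 0, 0, 0, 0, 0, 176762, 0, 0, 0, 0, 0, 0⟩ ⟨0, 0, 0, 0, 0, 0, 120653, 0, 0, 0, 0, 0, 0⟩ ⟨0, 0, 0, 0, 0, 0, 120653, 0, 0, 0, 0, 0, 0⟩ ⟨487, -5, -2048, 27, -183, 868, 91582, 0, 0, 0, 0, 0, 0⟩))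
    (.leaf (.box ⟨324, -1, -2232, 6, -43, 961, 423294, 0, 0, 0, 0, 0, 0⟩ ⟨0, 0, 0, 0, 0, 0, 179241, 0, 0, 0, 0, 0, 0⟩ ⟨0, 0, 0, 0, 0, 0, 179241, 0, 0, 0, 0, 0, 0⟩ ⟨0, 0, 0, 0, 0, 0, 113691, 0, 0, 0, 0, 0, 0⟩ ⟨0, 0, 0, 0, 0, 0, 113691, 0, 0, 0, 0, 0, 0⟩ ⟨269, -4, -2048, 23, -177, 787, 83247, 0, 0, 0, 0, 0, 0⟩)))))

/-- A piece of the tree. -/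
noncomputable def tree13 : Tree LeafX :=
  .leaf (.box ⟨1207, -6, -2048, 23, -52, 897, 282518, 0, 0, 0, 0, 0, 0⟩ ⟨0, 0, 0, 0, 0, 0, 141904, 0, 0, 0, 0, 0, 0⟩ ⟨0, 0, 0, 0, 0, 0, 141904, 0, 0, 0, 0, 0, 0⟩ ⟨0, 0, 0, 0, 0, 0, 94747, 0, 0, 0, 0, 0, 0⟩ ⟨0, 0, 0, 0, 0, 0, 94747, 0, 0, 0, 0, 0, 0⟩ ⟨1154, -18, -2048, 72, -162, 712, 71114, 0, 0, 0, 0, 0, 0⟩)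

/-- A piece of the tree. -/
noncomputable def tree14 : Tree LeafX :=
  .s0
    (.s2
    (.leaf (.box ⟨1276, 0, -2048, 8, -65, 1221, 325079, 0, 0, 0, 0, 0, 0⟩ ⟨0, 0, 0, 0, 0, 0, 162678, 0, 0, 0, 0, 0, 0⟩ ⟨0, 0, 0, 0, 0, 0, 162678, 0, 0, 0, 0, 0, 0⟩ ⟨0, 0, 0, 0, 0, 0, 108483, 0, 0, 0, 0, 0, 0⟩ ⟨0, 0, 0, 0, 0, 0, 108483, 0, 0, 0, 0, 0, 0⟩ ⟨1119, -1, -2048, 25, -237, 1108, 81373, 0, 0, 0, 0, 0, 0⟩))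
    (.leaf (.box ⟨1397, -2, -2048, 17, -59, 1147, 284138, 0, 0, 0, 0, 0, 0⟩ ⟨0, 0, 0, 0, 0, 0, 142190, 0, 0, 0, 0, 0, 0⟩ ⟨0, 0, 0, 0, 0, 0, 142190, 0, 0, 0, 0, 0, 0⟩ ⟨0, 0, 0, 0, 0, 0, 94820, 0, 0, 0, 0, 0, 0⟩ ⟨0, 0, 0, 0, 0, 0, 94820, 0, 0, 0, 0, 0, 0⟩ ⟨1292, -6, -2048, 49, -176, 866, 71125, 0, 0, 0, 0, 0, 0⟩)))
    (.s2
    (.s3
    (.s2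
    (.leaf (.box ⟨595, -1, -2289, 6, -50, 950, 353339, 0, 0, 0, 0, 0, 0⟩ ⟨0, 0, 0, 0, 0, 0, 188803, 0, 0, 0, 0, 0, 0⟩ ⟨0, 0, 0, 0, 0, 0, 188803, 0, 0, 0, 0, 0, 0⟩ ⟨0, 0, 0, 0, 0, 0, 128818, 0, 0, 0, 0, 0, 0⟩ ⟨0, 0, 0, 0, 0, 0, 128818, 0, 0, 0, 0, 0, 0⟩ ⟨467, -2, -2048, 20, -160, 844, 97758, 0, 0, 0, 0, 0, 0⟩))
    (.leaf (.box ⟨487, -1, -2048, 7, -51, 927, 331097, 0, 0, 0, 0, 0, 0⟩ ⟨0, 0, 0, 0, 0, 0, 176848, 0, 0, 0, 0, 0, 0⟩ ⟨0, 0, 0, 0, 0, 0, 176848, 0, 0, 0, 0, 0, 0⟩ ⟨0, 0, 0, 0, 0, 0, 120644, 0, 0, 0, 0, 0, 0⟩ ⟨0, 0, 0, 0, 0, 0, 120644, 0, 0, 0, 0, 0, 0⟩ ⟨440, -3, -2048, 23, -169, 853, 91548, 0, 0, 0, 0, 0, 0⟩)))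
    (.leaf (.box ⟨752, -1, -2603, 6, -47, 1122, 423995, 0, 0, 0, 0, 0, 0⟩ ⟨0, 0, 0, 0, 0, 0, 178863, 0, 0, 0, 0, 0, 0⟩ ⟨0, 0, 0, 0, 0, 0, 178863, 0, 0, 0, 0, 0, 0⟩ ⟨0, 0, 0, 0, 0, 0, 113338, 0, 0, 0, 0, 0, 0⟩ ⟨0, 0, 0, 0, 0, 0, 113338, 0, 0, 0, 0, 0, 0⟩ ⟨510, -2, -2048, 22, -177, 823, 82949, 0, 0, 0, 0, 0, 0⟩)))
    (.leaf (.box ⟨654, -2, -2048, 13, -45, 855, 292243, 0, 0, 0, 0, 0, 0⟩ ⟨0, 0, 0, 0, 0, 0, 146277, 0, 0, 0, 0, 0, 0⟩ ⟨0, 0, 0, 0, 0, 0, 146277, 0, 0, 0, 0, 0, 0⟩ ⟨0, 0, 0, 0, 0, 0, 97553, 0, 0, 0, 0, 0, 0⟩ ⟨0, 0, 0, 0, 0, 0, 97553, 0, 0, 0, 0, 0, 0⟩ ⟨684, -7, -2048, 42, -145, 695, 73177, 0, 0, 0, 0, 0, 0⟩)))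

/-- A piece of the tree. -/
noncomputable def tree15 : Tree LeafX :=
  .s1
    (.s0
    (.s2
    (.s1
    (.leaf (.box ⟨1807, -3, -2048, 23, -91, 1306, 340479, 0, 0, 0, 0, 0, 0⟩ ⟨0, 0, 0, 0, 0, 0, 170737, 0, 0, 0, 0, 0, 0⟩ ⟨0, 0, 0, 0, 0, 0, 170737, 0, 0, 0, 0, 0, 0⟩ ⟨0, 0, 0, 0, 0, 0, 113936, 0, 0, 0, 0, 0, 0⟩ ⟨0, 0, 0, 0, 0, 0, 113936, 0, 0, 0, 0, 0, 0⟩ ⟨1610, -11, -2048, 81, -321, 1157, 85493, 0, 0, 0, 0, 0, 0⟩))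
    (.s3
    (.s2
    (.leaf (.box ⟨1489, -2, -2048, 15, -88, 1401, 360159, 0, 0, 0, 0, 0, 0⟩ ⟨0, 0, 0, 0, 0, 0, 192576, 0, 0, 0, 0, 0, 0⟩ ⟨0, 0, 0, 0, 0, 0, 192576, 0, 0, 0, 0, 0, 0⟩ ⟨0, 0, 0, 0, 0, 0, 131425, 0, 0, 0, 0, 0, 0⟩ ⟨0, 0, 0, 0, 0, 0, 131425, 0, 0, 0, 0, 0, 0⟩ ⟨925, -6, -2048, 40, -229, 1014, 99749, 0, 0, 0, 0, 0, 0⟩))
    (.leaf (.box ⟨1069, -2, -2048, 14, -77, 1181, 339668, 0, 0, 0, 0, 0, 0⟩ ⟨0, 0, 0, 0, 0, 0, 181654, 0, 0, 0, 0, 0, 0⟩ ⟨0, 0, 0, 0, 0, 0, 181654, 0, 0, 0, 0, 0, 0⟩ ⟨0, 0, 0, 0, 0, 0, 123979, 0, 0, 0, 0, 0, 0⟩ ⟨0, 0, 0, 0, 0, 0, 123979, 0, 0, 0, 0, 0, 0⟩ ⟨957, -8, -2048, 47, -245, 1050, 94101, 0, 0, 0, 0, 0, 0⟩)))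
    (.leaf (.box ⟨718, -1, -2048, 9, -51, 1036, 435074, 0, 0, 0, 0, 0, 0⟩ ⟨0, 0, 0, 0, 0, 0, 184148, 0, 0, 0, 0, 0, 0⟩ ⟨0, 0, 0, 0, 0, 0, 184148, 0, 0, 0, 0, 0, 0⟩ ⟨0, 0, 0, 0, 0, 0, 116790, 0, 0, 0, 0, 0, 0⟩ ⟨0, 0, 0, 0, 0, 0, 116790, 0, 0, 0, 0, 0, 0⟩ ⟨613, -6, -2048, 39, -212, 857, 85511, 0, 0, 0, 0, 0, 0⟩))))
    (.leaf (.box ⟨2048, -6, -1648, 33, -88, 1320, 305581, 0, 0, 0, 0, 0, 0⟩ ⟨0, 0, 0, 0, 0, 0, 153356, 0, 0, 0, 0, 0, 0⟩ ⟨0, 0, 0, 0, 0, 0, 153356, 0, 0, 0, 0, 0, 0⟩ ⟨0, 0, 0, 0, 0, 0, 102364, 0, 0, 0, 0, 0, 0⟩ ⟨0, 0, 0, 0, 0, 0, 102364, 0, 0, 0, 0, 0, 0⟩ ⟨1712, -19, -2048, 99, -250, 951, 76820, 0, 0, 0, 0, 0, 0⟩)))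
    (.leaf (.box ⟨2048, -3, -894, 39, -93, 1180, 321798, 0, 0, 0, 0, 0, 0⟩ ⟨0, 0, 0, 0, 0, 0, 161475, 0, 0, 0, 0, 0, 0⟩ ⟨0, 0, 0, 0, 0, 0, 161475, 0, 0, 0, 0, 0, 0⟩ ⟨0, 0, 0, 0, 0, 0, 107779, 0, 0, 0, 0, 0, 0⟩ ⟨0, 0, 0, 0, 0, 0, 107779, 0, 0, 0, 0, 0, 0⟩ ⟨2048, -18, -1613, 212, -303, 1154, 80882, 0, 0, 0, 0, 0, 0⟩)))
    (.s2
    (.s0
    (.s1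
    (.s3
    (.s2
    (.s2
    (.leaf (.box ⟨487, -1, -2048, 10, -51, 944, 371388, 0, 0, 0, 0, 0, 0⟩ ⟨0, 0, 0, 0, 0, 0, 198535, 0, 0, 0, 0, 0, 0⟩ ⟨0, 0, 0, 0, 0, 0, 198535, 0, 0, 0, 0, 0, 0⟩ ⟨0, 0, 0, 0, 0, 0, 135479, 0, 0, 0, 0, 0, 0⟩ ⟨0, 0, 0, 0, 0, 0, 135479, 0, 0, 0, 0, 0, 0⟩ ⟨563, -3, -2048, 24, -171, 846, 102822, 0, 0, 0, 0, 0, 0⟩))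
    (.leaf (.box ⟨581, -1, -2048, 9, -59, 1020, 360229, 0, 0, 0, 0, 0, 0⟩ ⟨0, 0, 0, 0, 0, 0, 192474, 0, 0, 0, 0, 0, 0⟩ ⟨0, 0, 0, 0, 0, 0, 192474, 0, 0, 0, 0, 0, 0⟩ ⟨0, 0, 0, 0, 0, 0, 131320, 0, 0, 0, 0, 0, 0⟩ ⟨0, 0, 0, 0, 0, 0, 131320, 0, 0, 0, 0, 0, 0⟩ ⟨578, -4, -2048, 26, -182, 871, 99656, 0, 0, 0, 0, 0, 0⟩)))
    (.leaf (.box ⟨677, -1, -2048, 9, -58, 958, 338905, 0, 0, 0, 0, 0, 0⟩ ⟨0, 0, 0, 0, 0, 0, 181116, 0, 0, 0, 0, 0, 0⟩ ⟨0, 0, 0, 0, 0, 0, 181116, 0, 0, 0, 0, 0, 0⟩ ⟨0, 0, 0, 0, 0, 0, 123579, 0, 0, 0, 0, 0, 0⟩ ⟨0, 0, 0, 0, 0, 0, 123579, 0, 0, 0, 0, 0, 0⟩ ⟨604, -5, -2048, 31, -190, 875, 93785, 0, 0, 0, 0, 0, 0⟩)))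
    (.leaf (.box ⟨509, -1, -2252, 6, -42, 914, 433942, 0, 0, 0, 0, 0, 0⟩ ⟨0, 0, 0, 0, 0, 0, 183464, 0, 0, 0, 0, 0, 0⟩ ⟨0, 0, 0, 0, 0, 0, 183464, 0, 0, 0, 0, 0, 0⟩ ⟨0, 0, 0, 0, 0, 0, 116321, 0, 0, 0, 0, 0, 0⟩ ⟨0, 0, 0, 0, 0, 0, 116321, 0, 0, 0, 0, 0, 0⟩ ⟨389, -4, -2048, 27, -180, 777, 85156, 0, 0, 0, 0, 0, 0⟩)))
    (.s2
    (.leaf (.box ⟨436, -1, -2048, 7, -41, 781, 360316, 0, 0, 0, 0, 0, 0⟩ ⟨0, 0, 0, 0, 0, 0, 180262, 0, 0, 0, 0, 0, 0⟩ ⟨0, 0, 0, 0, 0, 0, 180262, 0, 0, 0, 0, 0, 0⟩ ⟨0, 0, 0, 0, 0, 0, 120198, 0, 0, 0, 0, 0, 0⟩ ⟨0, 0, 0, 0, 0, 0, 120198, 0, 0, 0, 0, 0, 0⟩ ⟨404, -2, -2048, 24, -161, 760, 90157, 0, 0, 0, 0, 0, 0⟩))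
    (.leaf (.box ⟨438, -1, -2048, 7, -46, 819, 338193, 0, 0, 0, 0, 0, 0⟩ ⟨0, 0, 0, 0, 0, 0, 169238, 0, 0, 0, 0, 0, 0⟩ ⟨0, 0, 0, 0, 0, 0, 169238, 0, 0, 0, 0, 0, 0⟩ ⟨0, 0, 0, 0, 0, 0, 112857, 0, 0, 0, 0, 0, 0⟩ ⟨0, 0, 0, 0, 0, 0, 112857, 0, 0, 0, 0, 0, 0⟩ ⟨406, -3, -2048, 26, -169, 759, 84654, 0, 0, 0, 0, 0, 0⟩))))
    (.s1
    (.s3
    (.leaf (.box ⟨1106, -1, -2048, 15, -79, 1166, 349582, 0, 0, 0, 0, 0, 0⟩ ⟨0, 0, 0, 0, 0, 0, 186879, 0, 0, 0, 0, 0, 0⟩ ⟨0, 0, 0, 0, 0, 0, 186879, 0, 0, 0, 0, 0, 0⟩ ⟨0, 0, 0, 0, 0, 0, 127526, 0, 0, 0, 0, 0, 0⟩ ⟨0, 0, 0, 0, 0, 0, 127526, 0, 0, 0, 0, 0, 0⟩ ⟨987, -5, -2048, 51, -263, 1078, 96786, 0, 0, 0, 0, 0, 0⟩))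
    (.leaf (.box ⟨739, -1, -2048, 10, -47, 947, 447681, 0, 0, 0, 0, 0, 0⟩ ⟨0, 0, 0, 0, 0, 0, 189362, 0, 0, 0, 0, 0, 0⟩ ⟨0, 0, 0, 0, 0, 0, 189362, 0, 0, 0, 0, 0, 0⟩ ⟨0, 0, 0, 0, 0, 0, 120076, 0, 0, 0, 0, 0, 0⟩ ⟨0, 0, 0, 0, 0, 0, 120076, 0, 0, 0, 0, 0, 0⟩ ⟨654, -4, -2048, 41, -224, 878, 87910, 0, 0, 0, 0, 0, 0⟩)))
    (.s3
    (.s3
    (.leaf (.box ⟨701, -1, -2048, 10, -60, 953, 347307, 0, 0, 0, 0, 0, 0⟩ ⟨0, 0, 0, 0, 0, 0, 191987, 0, 0, 0, 0, 0, 0⟩ ⟨0, 0, 0, 0, 0, 0, 191987, 0, 0, 0, 0, 0, 0⟩ ⟨0, 0, 0, 0, 0, 0, 132660, 0, 0, 0, 0, 0, 0⟩ ⟨0, 0, 0, 0, 0, 0, 132660, 0, 0, 0, 0, 0, 0⟩ ⟨635, -3, -2048, 31, -194, 898, 101343, 0, 0, 0, 0, 0, 0⟩))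
    (.leaf (.box ⟨702, -1, -2048, 9, -53, 969, 390018, 0, 0, 0, 0, 0, 0⟩ ⟨0, 0, 0, 0, 0, 0, 193231, 0, 0, 0, 0, 0, 0⟩ ⟨0, 0, 0, 0, 0, 0, 193231, 0, 0, 0, 0, 0, 0⟩ ⟨0, 0, 0, 0, 0, 0, 128431, 0, 0, 0, 0, 0, 0⟩ ⟨0, 0, 0, 0, 0, 0, 128431, 0, 0, 0, 0, 0, 0⟩ ⟨503, -3, -2048, 29, -185, 832, 96177, 0, 0, 0, 0, 0, 0⟩)))
    (.leaf (.box ⟨546, -1, -2048, 7, -41, 877, 444648, 0, 0, 0, 0, 0, 0⟩ ⟨0, 0, 0, 0, 0, 0, 187922, 0, 0, 0, 0, 0, 0⟩ ⟨0, 0, 0, 0, 0, 0, 187922, 0, 0, 0, 0, 0, 0⟩ ⟨0, 0, 0, 0, 0, 0, 119136, 0, 0, 0, 0, 0, 0⟩ ⟨0, 0, 0, 0, 0, 0, 119136, 0, 0, 0, 0, 0, 0⟩ ⟨453, -3, -2048, 29, -180, 760, 87213, 0, 0, 0, 0, 0, 0⟩)))))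
    (.s0
    (.leaf (.box ⟨885, -3, -2048, 16, -47, 830, 302012, 0, 0, 0, 0, 0, 0⟩ ⟨0, 0, 0, 0, 0, 0, 151277, 0, 0, 0, 0, 0, 0⟩ ⟨0, 0, 0, 0, 0, 0, 151277, 0, 0, 0, 0, 0, 0⟩ ⟨0, 0, 0, 0, 0, 0, 100912, 0, 0, 0, 0, 0, 0⟩ ⟨0, 0, 0, 0, 0, 0, 100912, 0, 0, 0, 0, 0, 0⟩ ⟨899, -9, -2048, 56, -170, 750, 75706, 0, 0, 0, 0, 0, 0⟩))
    (.leaf (.box ⟨1448, -3, -2048, 20, -51, 802, 314947, 0, 0, 0, 0, 0, 0⟩ ⟨0, 0, 0, 0, 0, 0, 157837, 0, 0, 0, 0, 0, 0⟩ ⟨0, 0, 0, 0, 0, 0, 157837, 0, 0, 0, 0, 0, 0⟩ ⟨0, 0, 0, 0, 0, 0, 105305, 0, 0, 0, 0, 0, 0⟩ ⟨0, 0, 0, 0, 0, 0, 105305, 0, 0, 0, 0, 0, 0⟩ ⟨1330, -9, -2048, 68, -186, 735, 79009, 0, 0, 0, 0, 0, 0⟩))))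

/-- A piece of the tree. -/
noncomputable def tree16 : Tree LeafX :=
  .s0
    (.s2
    (.leaf (.box ⟨2048, 5, 837, 17, -24, 378, 269386, 0, 0, 0, 0, 0, 0⟩ ⟨0, 0, 0, 0, 0, 0, 134581, 0, 0, 0, 0, 0, 0⟩ ⟨0, 0, 0, 0, 0, 0, 134581, 0, 0, 0, 0, 0, 0⟩ ⟨0, 0, 0, 0, 0, 0, 89696, 0, 0, 0, 0, 0, 0⟩ ⟨0, 0, 0, 0, 0, 0, 89696, 0, 0, 0, 0, 0, 0⟩ ⟨2048, 21, 832, 68, -96, 379, 67262, 0, 0, 0, 0, 0, 0⟩))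
    (.leaf (.box ⟨2048, 2, 814, 8, -15, 213, 234271, 0, 0, 0, 0, 0, 0⟩ ⟨0, 0, 0, 0, 0, 0, 116320, 0, 0, 0, 0, 0, 0⟩ ⟨0, 0, 0, 0, 0, 0, 116320, 0, 0, 0, 0, 0, 0⟩ ⟨0, 0, 0, 0, 0, 0, 77367, 0, 0, 0, 0, 0, 0⟩ ⟨0, 0, 0, 0, 0, 0, 77367, 0, 0, 0, 0, 0, 0⟩ ⟨2048, 8, 895, 34, -70, 237, 57958, 0, 0, 0, 0, 0, 0⟩)))
    (.s0
    (.s2
    (.leaf (.box ⟨2048, 3, -483, 15, -45, 868, 322158, 0, 0, 0, 0, 0, 0⟩ ⟨0, 0, 0, 0, 0, 0, 160141, 0, 0, 0, 0, 0, 0⟩ ⟨0, 0, 0, 0, 0, 0, 160141, 0, 0, 0, 0, 0, 0⟩ ⟨0, 0, 0, 0, 0, 0, 106554, 0, 0, 0, 0, 0, 0⟩ ⟨0, 0, 0, 0, 0, 0, 106554, 0, 0, 0, 0, 0, 0⟩ ⟨2048, 13, -659, 61, -186, 883, 79838, 0, 0, 0, 0, 0, 0⟩))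
    (.leaf (.box ⟨2048, 1, -71, 12, -28, 524, 282244, 0, 0, 0, 0, 0, 0⟩ ⟨0, 0, 0, 0, 0, 0, 140167, 0, 0, 0, 0, 0, 0⟩ ⟨0, 0, 0, 0, 0, 0, 140167, 0, 0, 0, 0, 0, 0⟩ ⟨0, 0, 0, 0, 0, 0, 93235, 0, 0, 0, 0, 0, 0⟩ ⟨0, 0, 0, 0, 0, 0, 93235, 0, 0, 0, 0, 0, 0⟩ ⟨2048, 4, -462, 48, -118, 548, 69847, 0, 0, 0, 0, 0, 0⟩)))
    (.s1
    (.s1
    (.s2
    (.s0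
    (.leaf (.box ⟨507, 0, -2084, 6, -42, 784, 336732, 0, 0, 0, 0, 0, 0⟩ ⟨0, 0, 0, 0, 0, 0, 168106, 0, 0, 0, 0, 0, 0⟩ ⟨0, 0, 0, 0, 0, 0, 168106, 0, 0, 0, 0, 0, 0⟩ ⟨0, 0, 0, 0, 0, 0, 112013, 0, 0, 0, 0, 0, 0⟩ ⟨0, 0, 0, 0, 0, 0, 112013, 0, 0, 0, 0, 0, 0⟩ ⟨410, -1, -2048, 23, -158, 742, 83988, 0, 0, 0, 0, 0, 0⟩))
    (.s3
    (.s1
    (.leaf (.box ⟨520, -1, -2048, 8, -45, 775, 345350, 0, 0, 0, 0, 0, 0⟩ ⟨0, 0, 0, 0, 0, 0, 184394, 0, 0, 0, 0, 0, 0⟩ ⟨0, 0, 0, 0, 0, 0, 184394, 0, 0, 0, 0, 0, 0⟩ ⟨0, 0, 0, 0, 0, 0, 125775, 0, 0, 0, 0, 0, 0⟩ ⟨0, 0, 0, 0, 0, 0, 125775, 0, 0, 0, 0, 0, 0⟩ ⟨447, -2, -2048, 23, -156, 741, 95435, 0, 0, 0, 0, 0, 0⟩))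
    (.leaf (.box ⟨375, 0, -2560, 6, -48, 866, 343692, 0, 0, 0, 0, 0, 0⟩ ⟨0, 0, 0, 0, 0, 0, 183387, 0, 0, 0, 0, 0, 0⟩ ⟨0, 0, 0, 0, 0, 0, 183387, 0, 0, 0, 0, 0, 0⟩ ⟨0, 0, 0, 0, 0, 0, 125057, 0, 0, 0, 0, 0, 0⟩ ⟨0, 0, 0, 0, 0, 0, 125057, 0, 0, 0, 0, 0, 0⟩ ⟨273, -1, -2048, 17, -134, 668, 94879, 0, 0, 0, 0, 0, 0⟩)))
    (.leaf (.box ⟨436, 0, -2285, 6, -33, 779, 439731, 0, 0, 0, 0, 0, 0⟩ ⟨0, 0, 0, 0, 0, 0, 185462, 0, 0, 0, 0, 0, 0⟩ ⟨0, 0, 0, 0, 0, 0, 185462, 0, 0, 0, 0, 0, 0⟩ ⟨0, 0, 0, 0, 0, 0, 117512, 0, 0, 0, 0, 0, 0⟩ ⟨0, 0, 0, 0, 0, 0, 117512, 0, 0, 0, 0, 0, 0⟩ ⟨545, -2, -2048, 27, -156, 718, 86002, 0, 0, 0, 0, 0, 0⟩))))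
    (.s2
    (.leaf (.box ⟨565, -1, -2048, 12, -41, 744, 316386, 0, 0, 0, 0, 0, 0⟩ ⟨0, 0, 0, 0, 0, 0, 158093, 0, 0, 0, 0, 0, 0⟩ ⟨0, 0, 0, 0, 0, 0, 158093, 0, 0, 0, 0, 0, 0⟩ ⟨0, 0, 0, 0, 0, 0, 105373, 0, 0, 0, 0, 0, 0⟩ ⟨0, 0, 0, 0, 0, 0, 105373, 0, 0, 0, 0, 0, 0⟩ ⟨864, -5, -2048, 55, -184, 730, 79021, 0, 0, 0, 0, 0, 0⟩))
    (.leaf (.box ⟨625, -1, -2048, 14, -35, 692, 298913, 0, 0, 0, 0, 0, 0⟩ ⟨0, 0, 0, 0, 0, 0, 149434, 0, 0, 0, 0, 0, 0⟩ ⟨0, 0, 0, 0, 0, 0, 149434, 0, 0, 0, 0, 0, 0⟩ ⟨0, 0, 0, 0, 0, 0, 99618, 0, 0, 0, 0, 0, 0⟩ ⟨0, 0, 0, 0, 0, 0, 99618, 0, 0, 0, 0, 0, 0⟩ ⟨676, -5, -2048, 45, -114, 568, 74711, 0, 0, 0, 0, 0, 0⟩))))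
    (.leaf (.box ⟨1181, 0, -2048, 14, -39, 706, 296475, 0, 0, 0, 0, 0, 0⟩ ⟨0, 0, 0, 0, 0, 0, 148018, 0, 0, 0, 0, 0, 0⟩ ⟨0, 0, 0, 0, 0, 0, 148018, 0, 0, 0, 0, 0, 0⟩ ⟨0, 0, 0, 0, 0, 0, 98630, 0, 0, 0, 0, 0, 0⟩ ⟨0, 0, 0, 0, 0, 0, 98630, 0, 0, 0, 0, 0, 0⟩ ⟨1047, 0, -2048, 48, -138, 630, 73954, 0, 0, 0, 0, 0, 0⟩)))
    (.leaf (.box ⟨2048, 0, -1555, 12, -35, 646, 295055, 0, 0, 0, 0, 0, 0⟩ ⟨0, 0, 0, 0, 0, 0, 147486, 0, 0, 0, 0, 0, 0⟩ ⟨0, 0, 0, 0, 0, 0, 147486, 0, 0, 0, 0, 0, 0⟩ ⟨0, 0, 0, 0, 0, 0, 98315, 0, 0, 0, 0, 0, 0⟩ ⟨0, 0, 0, 0, 0, 0, 98315, 0, 0, 0, 0, 0, 0⟩ ⟨1921, 0, -2048, 54, -154, 700, 73732, 0, 0, 0, 0, 0, 0⟩))))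

/-- A piece of the tree. -/
noncomputable def tree17 : Tree LeafX :=
  .s2
    (.s0
    (.s0
    (.s1
    (.leaf (.box ⟨2048, 17, 989, 73, -107, 925, 382503, 0, 0, 0, 0, 0, 0⟩ ⟨0, 0, 0, 0, 0, 0, 191082, 0, 0, 0, 0, 0, 0⟩ ⟨0, 0, 0, 0, 0, 0, 191082, 0, 0, 0, 0, 0, 0⟩ ⟨0, 0, 0, 0, 0, 0, 127350, 0, 0, 0, 0, 0, 0⟩ ⟨0, 0, 0, 0, 0, 0, 127350, 0, 0, 0, 0, 0, 0⟩ ⟨2048, 70, 936, 277, -403, 872, 95498, 0, 0, 0, 0, 0, 0⟩))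
    (.s1
    (.leaf (.box ⟨2048, 4, -491, 55, -114, 1231, 370210, 0, 0, 0, 0, 0, 0⟩ ⟨0, 0, 0, 0, 0, 0, 185370, 0, 0, 0, 0, 0, 0⟩ ⟨0, 0, 0, 0, 0, 0, 185370, 0, 0, 0, 0, 0, 0⟩ ⟨0, 0, 0, 0, 0, 0, 123639, 0, 0, 0, 0, 0, 0⟩ ⟨0, 0, 0, 0, 0, 0, 123639, 0, 0, 0, 0, 0, 0⟩ ⟨2048, 15, -572, 214, -441, 1195, 92751, 0, 0, 0, 0, 0, 0⟩))
    (.s3
    (.leaf (.box ⟨2048, 0, -1680, 48, -116, 1452, 360616, 0, 0, 0, 0, 0, 0⟩ ⟨0, 0, 0, 0, 0, 0, 192692, 0, 0, 0, 0, 0, 0⟩ ⟨0, 0, 0, 0, 0, 0, 192692, 0, 0, 0, 0, 0, 0⟩ ⟨0, 0, 0, 0, 0, 0, 131471, 0, 0, 0, 0, 0, 0⟩ ⟨0, 0, 0, 0, 0, 0, 131471, 0, 0, 0, 0, 0, 0⟩ ⟨2048, 0, -1856, 175, -420, 1455, 99772, 0, 0, 0, 0, 0, 0⟩))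
    (.leaf (.box ⟨1512, 0, -2048, 31, -74, 1261, 461709, 0, 0, 0, 0, 0, 0⟩ ⟨0, 0, 0, 0, 0, 0, 195161, 0, 0, 0, 0, 0, 0⟩ ⟨0, 0, 0, 0, 0, 0, 195161, 0, 0, 0, 0, 0, 0⟩ ⟨0, 0, 0, 0, 0, 0, 123731, 0, 0, 0, 0, 0, 0⟩ ⟨0, 0, 0, 0, 0, 0, 123731, 0, 0, 0, 0, 0, 0⟩ ⟨1453, 1, -2048, 216, -272, 1151, 90578, 0, 0, 0, 0, 0, 0⟩)))))
    (.leaf (.box ⟨2048, 24, 570, 98, -93, 746, 406230, 0, 0, 0, 0, 0, 0⟩ ⟨0, 0, 0, 0, 0, 0, 202956, 0, 0, 0, 0, 0, 0⟩ ⟨0, 0, 0, 0, 0, 0, 202956, 0, 0, 0, 0, 0, 0⟩ ⟨0, 0, 0, 0, 0, 0, 135269, 0, 0, 0, 0, 0, 0⟩ ⟨0, 0, 0, 0, 0, 0, 135269, 0, 0, 0, 0, 0, 0⟩ ⟨2048, 141, 150, 532, -300, 793, 101438, 0, 0, 0, 0, 0, 0⟩)))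
    (.s1
    (.leaf (.box ⟨1715, 61, 2048, 172, -206, 1463, 576423, 0, 0, 0, 0, 0, 0⟩ ⟨0, 0, 0, 0, 0, 0, 279008, 0, 0, 0, 0, 0, 0⟩ ⟨0, 0, 0, 0, 0, 0, 279008, 0, 0, 0, 0, 0, 0⟩ ⟨0, 0, 0, 0, 0, 0, 184046, 0, 0, 0, 0, 0, 0⟩ ⟨0, 0, 0, 0, 0, 0, 184046, 0, 0, 0, 0, 0, 0⟩ ⟨1763, 296, 2048, 755, -838, 1425, 137311, 0, 0, 0, 0, 0, 0⟩))
    (.leaf (.box ⟨2048, 37, 492, 146, -177, 1319, 486761, 0, 0, 0, 0, 0, 0⟩ ⟨0, 0, 0, 0, 0, 0, 240613, 0, 0, 0, 0, 0, 0⟩ ⟨0, 0, 0, 0, 0, 0, 240613, 0, 0, 0, 0, 0, 0⟩ ⟨0, 0, 0, 0, 0, 0, 159803, 0, 0, 0, 0, 0, 0⟩ ⟨0, 0, 0, 0, 0, 0, 159803, 0, 0, 0, 0, 0, 0⟩ ⟨2048, 150, 375, 538, -623, 1138, 119626, 0, 0, 0, 0, 0, 0⟩))))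
    (.s1
    (.leaf (.box ⟨2048, 42, 1287, 159, -96, 799, 356226, 0, 0, 0, 0, 0, 0⟩ ⟨0, 0, 0, 0, 0, 0, 178429, 0, 0, 0, 0, 0, 0⟩ ⟨0, 0, 0, 0, 0, 0, 178429, 0, 0, 0, 0, 0, 0⟩ ⟨0, 0, 0, 0, 0, 0, 119023, 0, 0, 0, 0, 0, 0⟩ ⟨0, 0, 0, 0, 0, 0, 119023, 0, 0, 0, 0, 0, 0⟩ ⟨2048, 168, 1072, 569, -294, 623, 89293, 0, 0, 0, 0, 0, 0⟩))
    (.s0
    (.s2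
    (.s0
    (.leaf (.box ⟨2048, 0, -738, 52, -86, 1001, 344859, 0, 0, 0, 0, 0, 0⟩ ⟨0, 0, 0, 0, 0, 0, 172789, 0, 0, 0, 0, 0, 0⟩ ⟨0, 0, 0, 0, 0, 0, 172789, 0, 0, 0, 0, 0, 0⟩ ⟨0, 0, 0, 0, 0, 0, 115273, 0, 0, 0, 0, 0, 0⟩ ⟨0, 0, 0, 0, 0, 0, 115273, 0, 0, 0, 0, 0, 0⟩ ⟨2048, 1, -1020, 284, -223, 914, 86484, 0, 0, 0, 0, 0, 0⟩))
    (.leaf (.box ⟨2048, 6, -89, 55, -106, 1043, 393951, 0, 0, 0, 0, 0, 0⟩ ⟨0, 0, 0, 0, 0, 0, 197054, 0, 0, 0, 0, 0, 0⟩ ⟨0, 0, 0, 0, 0, 0, 197054, 0, 0, 0, 0, 0, 0⟩ ⟨0, 0, 0, 0, 0, 0, 131387, 0, 0, 0, 0, 0, 0⟩ ⟨0, 0, 0, 0, 0, 0, 131387, 0, 0, 0, 0, 0, 0⟩ ⟨2048, 23, -177, 196, -365, 900, 98546, 0, 0, 0, 0, 0, 0⟩)))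
    (.leaf (.box ⟨2048, 2, -287, 60, -77, 785, 332324, 0, 0, 0, 0, 0, 0⟩ ⟨0, 0, 0, 0, 0, 0, 166574, 0, 0, 0, 0, 0, 0⟩ ⟨0, 0, 0, 0, 0, 0, 166574, 0, 0, 0, 0, 0, 0⟩ ⟨0, 0, 0, 0, 0, 0, 111141, 0, 0, 0, 0, 0, 0⟩ ⟨0, 0, 0, 0, 0, 0, 111141, 0, 0, 0, 0, 0, 0⟩ ⟨2048, 7, -873, 203, -365, 797, 83390, 0, 0, 0, 0, 0, 0⟩)))
    (.leaf (.box ⟨2048, 16, 338, 90, -124, 1089, 473058, 0, 0, 0, 0, 0, 0⟩ ⟨0, 0, 0, 0, 0, 0, 235620, 0, 0, 0, 0, 0, 0⟩ ⟨0, 0, 0, 0, 0, 0, 235620, 0, 0, 0, 0, 0, 0⟩ ⟨0, 0, 0, 0, 0, 0, 156879, 0, 0, 0, 0, 0, 0⟩ ⟨0, 0, 0, 0, 0, 0, 156879, 0, 0, 0, 0, 0, 0⟩ ⟨2048, 63, 272, 316, -419, 917, 117584, 0, 0, 0, 0, 0, 0⟩))))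

/-- A piece of the tree. -/
noncomputable def tree18 : Tree LeafX :=
  .s2
    (.s0
    (.s1
    (.s3
    (.s2
    (.leaf (.box ⟨931, 0, -2048, 7, -46, 745, 376497, 0, 0, 0, 0, 0, 0⟩ ⟨0, 0, 0, 0, 0, 0, 201024, 0, 0, 0, 0, 0, 0⟩ ⟨0, 0, 0, 0, 0, 0, 201024, 0, 0, 0, 0, 0, 0⟩ ⟨0, 0, 0, 0, 0, 0, 137118, 0, 0, 0, 0, 0, 0⟩ ⟨0, 0, 0, 0, 0, 0, 137118, 0, 0, 0, 0, 0, 0⟩ ⟨655, -1, -2048, 32, -190, 860, 104042, 0, 0, 0, 0, 0, 0⟩))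
    (.leaf (.box ⟨696, -1, -2048, 12, -59, 928, 356775, 0, 0, 0, 0, 0, 0⟩ ⟨0, 0, 0, 0, 0, 0, 190592, 0, 0, 0, 0, 0, 0⟩ ⟨0, 0, 0, 0, 0, 0, 190592, 0, 0, 0, 0, 0, 0⟩ ⟨0, 0, 0, 0, 0, 0, 130027, 0, 0, 0, 0, 0, 0⟩ ⟨0, 0, 0, 0, 0, 0, 130027, 0, 0, 0, 0, 0, 0⟩ ⟨676, -2, -2048, 36, -197, 851, 98671, 0, 0, 0, 0, 0, 0⟩)))
    (.leaf (.box ⟨677, 0, -2056, 6, -34, 718, 456737, 0, 0, 0, 0, 0, 0⟩ ⟨0, 0, 0, 0, 0, 0, 192986, 0, 0, 0, 0, 0, 0⟩ ⟨0, 0, 0, 0, 0, 0, 192986, 0, 0, 0, 0, 0, 0⟩ ⟨0, 0, 0, 0, 0, 0, 122339, 0, 0, 0, 0, 0, 0⟩ ⟨0, 0, 0, 0, 0, 0, 122339, 0, 0, 0, 0, 0, 0⟩ ⟨497, -2, -2048, 32, -180, 743, 89555, 0, 0, 0, 0, 0, 0⟩)))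
    (.s3
    (.leaf (.box ⟨615, -1, -2048, 11, -40, 718, 353524, 0, 0, 0, 0, 0, 0⟩ ⟨0, 0, 0, 0, 0, 0, 188796, 0, 0, 0, 0, 0, 0⟩ ⟨0, 0, 0, 0, 0, 0, 188796, 0, 0, 0, 0, 0, 0⟩ ⟨0, 0, 0, 0, 0, 0, 128786, 0, 0, 0, 0, 0, 0⟩ ⟨0, 0, 0, 0, 0, 0, 128786, 0, 0, 0, 0, 0, 0⟩ ⟨505, -1, -2048, 25, -154, 712, 97724, 0, 0, 0, 0, 0, 0⟩))
    (.leaf (.box ⟨510, 0, -2735, 6, -41, 919, 452504, 0, 0, 0, 0, 0, 0⟩ ⟨0, 0, 0, 0, 0, 0, 191105, 0, 0, 0, 0, 0, 0⟩ ⟨0, 0, 0, 0, 0, 0, 191105, 0, 0, 0, 0, 0, 0⟩ ⟨0, 0, 0, 0, 0, 0, 121131, 0, 0, 0, 0, 0, 0⟩ ⟨0, 0, 0, 0, 0, 0, 121131, 0, 0, 0, 0, 0, 0⟩ ⟨376, -1, -2048, 23, -147, 651, 88665, 0, 0, 0, 0, 0, 0⟩))))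
    (.s1
    (.leaf (.box ⟨1032, 0, -2048, 17, -74, 1057, 373351, 0, 0, 0, 0, 0, 0⟩ ⟨0, 0, 0, 0, 0, 0, 186906, 0, 0, 0, 0, 0, 0⟩ ⟨0, 0, 0, 0, 0, 0, 186906, 0, 0, 0, 0, 0, 0⟩ ⟨0, 0, 0, 0, 0, 0, 124655, 0, 0, 0, 0, 0, 0⟩ ⟨0, 0, 0, 0, 0, 0, 124655, 0, 0, 0, 0, 0, 0⟩ ⟨1020, 0, -2048, 65, -271, 974, 93510, 0, 0, 0, 0, 0, 0⟩))
    (.s3
    (.leaf (.box ⟨688, 0, -2048, 12, -60, 912, 367917, 0, 0, 0, 0, 0, 0⟩ ⟨0, 0, 0, 0, 0, 0, 196545, 0, 0, 0, 0, 0, 0⟩ ⟨0, 0, 0, 0, 0, 0, 196545, 0, 0, 0, 0, 0, 0⟩ ⟨0, 0, 0, 0, 0, 0, 134088, 0, 0, 0, 0, 0, 0⟩ ⟨0, 0, 0, 0, 0, 0, 134088, 0, 0, 0, 0, 0, 0⟩ ⟨737, -1, -2048, 39, -203, 849, 101753, 0, 0, 0, 0, 0, 0⟩))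
    (.leaf (.box ⟨701, 0, -2048, 7, -34, 697, 471000, 0, 0, 0, 0, 0, 0⟩ ⟨0, 0, 0, 0, 0, 0, 199015, 0, 0, 0, 0, 0, 0⟩ ⟨0, 0, 0, 0, 0, 0, 199015, 0, 0, 0, 0, 0, 0⟩ ⟨0, 0, 0, 0, 0, 0, 126161, 0, 0, 0, 0, 0, 0⟩ ⟨0, 0, 0, 0, 0, 0, 126161, 0, 0, 0, 0, 0, 0⟩ ⟨565, -1, -2048, 35, -181, 729, 92353, 0, 0, 0, 0, 0, 0⟩)))))
    (.s0
    (.s3
    (.leaf (.box ⟨889, -2, -2048, 16, -50, 797, 323406, 0, 0, 0, 0, 0, 0⟩ ⟨0, 0, 0, 0, 0, 0, 172794, 0, 0, 0, 0, 0, 0⟩ ⟨0, 0, 0, 0, 0, 0, 172794, 0, 0, 0, 0, 0, 0⟩ ⟨0, 0, 0, 0, 0, 0, 117892, 0, 0, 0, 0, 0, 0⟩ ⟨0, 0, 0, 0, 0, 0, 117892, 0, 0, 0, 0, 0, 0⟩ ⟨914, -5, -2048, 49, -154, 684, 89465, 0, 0, 0, 0, 0, 0⟩))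
    (.leaf (.box ⟨679, -1, -2048, 10, -33, 708, 414051, 0, 0, 0, 0, 0, 0⟩ ⟨0, 0, 0, 0, 0, 0, 174994, 0, 0, 0, 0, 0, 0⟩ ⟨0, 0, 0, 0, 0, 0, 174994, 0, 0, 0, 0, 0, 0⟩ ⟨0, 0, 0, 0, 0, 0, 110941, 0, 0, 0, 0, 0, 0⟩ ⟨0, 0, 0, 0, 0, 0, 110941, 0, 0, 0, 0, 0, 0⟩ ⟨721, -4, -2048, 43, -143, 604, 81214, 0, 0, 0, 0, 0, 0⟩)))
    (.s2
    (.leaf (.box ⟨1277, -1, -2048, 20, -68, 989, 353170, 0, 0, 0, 0, 0, 0⟩ ⟨0, 0, 0, 0, 0, 0, 176921, 0, 0, 0, 0, 0, 0⟩ ⟨0, 0, 0, 0, 0, 0, 176921, 0, 0, 0, 0, 0, 0⟩ ⟨0, 0, 0, 0, 0, 0, 118022, 0, 0, 0, 0, 0, 0⟩ ⟨0, 0, 0, 0, 0, 0, 118022, 0, 0, 0, 0, 0, 0⟩ ⟨1145, -4, -2048, 68, -215, 792, 88544, 0, 0, 0, 0, 0, 0⟩))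
    (.leaf (.box ⟨1144, -1, -2048, 18, -57, 846, 342482, 0, 0, 0, 0, 0, 0⟩ ⟨0, 0, 0, 0, 0, 0, 171591, 0, 0, 0, 0, 0, 0⟩ ⟨0, 0, 0, 0, 0, 0, 171591, 0, 0, 0, 0, 0, 0⟩ ⟨0, 0, 0, 0, 0, 0, 114472, 0, 0, 0, 0, 0, 0⟩ ⟨0, 0, 0, 0, 0, 0, 114472, 0, 0, 0, 0, 0, 0⟩ ⟨1119, -5, -2048, 63, -189, 711, 85883, 0, 0, 0, 0, 0, 0⟩))))

/-- A piece of the tree. -/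
noncomputable def tree19 : Tree LeafX :=
  .s2
    (.s0
    (.s2
    (.leaf (.box ⟨556, 0, -2048, 7, -35, 691, 370327, 0, 0, 0, 0, 0, 0⟩ ⟨0, 0, 0, 0, 0, 0, 185102, 0, 0, 0, 0, 0, 0⟩ ⟨0, 0, 0, 0, 0, 0, 185102, 0, 0, 0, 0, 0, 0⟩ ⟨0, 0, 0, 0, 0, 0, 123387, 0, 0, 0, 0, 0, 0⟩ ⟨0, 0, 0, 0, 0, 0, 123387, 0, 0, 0, 0, 0, 0⟩ ⟨440, 0, -2048, 23, -121, 593, 92535, 0, 0, 0, 0, 0, 0⟩))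
    (.leaf (.box ⟨483, 0, -2048, 6, -33, 604, 348616, 0, 0, 0, 0, 0, 0⟩ ⟨0, 0, 0, 0, 0, 0, 174430, 0, 0, 0, 0, 0, 0⟩ ⟨0, 0, 0, 0, 0, 0, 174430, 0, 0, 0, 0, 0, 0⟩ ⟨0, 0, 0, 0, 0, 0, 116314, 0, 0, 0, 0, 0, 0⟩ ⟨0, 0, 0, 0, 0, 0, 116314, 0, 0, 0, 0, 0, 0⟩ ⟨503, -2, -2048, 24, -122, 564, 87245, 0, 0, 0, 0, 0, 0⟩)))
    (.s2
    (.s1
    (.s3
    (.leaf (.box ⟨663, 0, -2048, 8, -40, 691, 382779, 0, 0, 0, 0, 0, 0⟩ ⟨0, 0, 0, 0, 0, 0, 204322, 0, 0, 0, 0, 0, 0⟩ ⟨0, 0, 0, 0, 0, 0, 204322, 0, 0, 0, 0, 0, 0⟩ ⟨0, 0, 0, 0, 0, 0, 139354, 0, 0, 0, 0, 0, 0⟩ ⟨0, 0, 0, 0, 0, 0, 139354, 0, 0, 0, 0, 0, 0⟩ ⟨505, 0, -2048, 25, -151, 714, 105733, 0, 0, 0, 0, 0, 0⟩))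
    (.leaf (.box ⟨504, 0, -2522, 6, -36, 832, 489834, 0, 0, 0, 0, 0, 0⟩ ⟨0, 0, 0, 0, 0, 0, 206717, 0, 0, 0, 0, 0, 0⟩ ⟨0, 0, 0, 0, 0, 0, 206717, 0, 0, 0, 0, 0, 0⟩ ⟨0, 0, 0, 0, 0, 0, 131001, 0, 0, 0, 0, 0, 0⟩ ⟨0, 0, 0, 0, 0, 0, 131001, 0, 0, 0, 0, 0, 0⟩ ⟨392, 0, -2048, 24, -142, 646, 95881, 0, 0, 0, 0, 0, 0⟩)))
    (.s2
    (.leaf (.box ⟨401, 0, -2048, 7, -33, 653, 391275, 0, 0, 0, 0, 0, 0⟩ ⟨0, 0, 0, 0, 0, 0, 195602, 0, 0, 0, 0, 0, 0⟩ ⟨0, 0, 0, 0, 0, 0, 195602, 0, 0, 0, 0, 0, 0⟩ ⟨0, 0, 0, 0, 0, 0, 130394, 0, 0, 0, 0, 0, 0⟩ ⟨0, 0, 0, 0, 0, 0, 130394, 0, 0, 0, 0, 0, 0⟩ ⟨442, 0, -2048, 23, -123, 599, 97792, 0, 0, 0, 0, 0, 0⟩))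
    (.leaf (.box ⟨470, 0, -2048, 6, -33, 616, 379603, 0, 0, 0, 0, 0, 0⟩ ⟨0, 0, 0, 0, 0, 0, 189914, 0, 0, 0, 0, 0, 0⟩ ⟨0, 0, 0, 0, 0, 0, 189914, 0, 0, 0, 0, 0, 0⟩ ⟨0, 0, 0, 0, 0, 0, 126635, 0, 0, 0, 0, 0, 0⟩ ⟨0, 0, 0, 0, 0, 0, 126635, 0, 0, 0, 0, 0, 0⟩ ⟨466, -1, -2048, 24, -125, 587, 94985, 0, 0, 0, 0, 0, 0⟩))))
    (.leaf (.box ⟨676, -1, -2048, 11, -39, 673, 359563, 0, 0, 0, 0, 0, 0⟩ ⟨0, 0, 0, 0, 0, 0, 180105, 0, 0, 0, 0, 0, 0⟩ ⟨0, 0, 0, 0, 0, 0, 180105, 0, 0, 0, 0, 0, 0⟩ ⟨0, 0, 0, 0, 0, 0, 120142, 0, 0, 0, 0, 0, 0⟩ ⟨0, 0, 0, 0, 0, 0, 120142, 0, 0, 0, 0, 0, 0⟩ ⟨861, -2, -2048, 35, -165, 673, 90133, 0, 0, 0, 0, 0, 0⟩))))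
    (.s2
    (.s2
    (.leaf (.box ⟨757, -1, -2048, 12, -35, 615, 339206, 0, 0, 0, 0, 0, 0⟩ ⟨0, 0, 0, 0, 0, 0, 169780, 0, 0, 0, 0, 0, 0⟩ ⟨0, 0, 0, 0, 0, 0, 169780, 0, 0, 0, 0, 0, 0⟩ ⟨0, 0, 0, 0, 0, 0, 113226, 0, 0, 0, 0, 0, 0⟩ ⟨0, 0, 0, 0, 0, 0, 113226, 0, 0, 0, 0, 0, 0⟩ ⟨756, -4, -2048, 38, -151, 616, 84934, 0, 0, 0, 0, 0, 0⟩))
    (.leaf (.box ⟨743, -1, -2048, 12, -34, 599, 330762, 0, 0, 0, 0, 0, 0⟩ ⟨0, 0, 0, 0, 0, 0, 165591, 0, 0, 0, 0, 0, 0⟩ ⟨0, 0, 0, 0, 0, 0, 165591, 0, 0, 0, 0, 0, 0⟩ ⟨0, 0, 0, 0, 0, 0, 110441, 0, 0, 0, 0, 0, 0⟩ ⟨0, 0, 0, 0, 0, 0, 110441, 0, 0, 0, 0, 0, 0⟩ ⟨659, -5, -2048, 46, -129, 568, 82848, 0, 0, 0, 0, 0, 0⟩)))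
    (.leaf (.box ⟨742, -1, -2048, 13, -32, 571, 316766, 0, 0, 0, 0, 0, 0⟩ ⟨0, 0, 0, 0, 0, 0, 158588, 0, 0, 0, 0, 0, 0⟩ ⟨0, 0, 0, 0, 0, 0, 158588, 0, 0, 0, 0, 0, 0⟩ ⟨0, 0, 0, 0, 0, 0, 105771, 0, 0, 0, 0, 0, 0⟩ ⟨0, 0, 0, 0, 0, 0, 105771, 0, 0, 0, 0, 0, 0⟩ ⟨667, -5, -2048, 43, -126, 526, 79345, 0, 0, 0, 0, 0, 0⟩)))

/-- A piece of the tree. -/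
noncomputable def tree20 : Tree LeafX :=
  .s1
    (.s2
    (.s2
    (.leaf (.box ⟨1941, 4, -2048, 50, -113, 1427, 405802, 0, 0, 0, 0, 0, 0⟩ ⟨0, 0, 0, 0, 0, 0, 202867, 0, 0, 0, 0, 0, 0⟩ ⟨0, 0, 0, 0, 0, 0, 202867, 0, 0, 0, 0, 0, 0⟩ ⟨0, 0, 0, 0, 0, 0, 135238, 0, 0, 0, 0, 0, 0⟩ ⟨0, 0, 0, 0, 0, 0, 135238, 0, 0, 0, 0, 0, 0⟩ ⟨1923, 16, -2048, 185, -415, 1311, 101425, 0, 0, 0, 0, 0, 0⟩))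
    (.leaf (.box ⟨2019, 2, -2048, 51, -116, 1415, 388507, 0, 0, 0, 0, 0, 0⟩ ⟨0, 0, 0, 0, 0, 0, 194438, 0, 0, 0, 0, 0, 0⟩ ⟨0, 0, 0, 0, 0, 0, 194438, 0, 0, 0, 0, 0, 0⟩ ⟨0, 0, 0, 0, 0, 0, 129667, 0, 0, 0, 0, 0, 0⟩ ⟨0, 0, 0, 0, 0, 0, 129667, 0, 0, 0, 0, 0, 0⟩ ⟨2033, 10, -2048, 181, -407, 1245, 97265, 0, 0, 0, 0, 0, 0⟩)))
    (.leaf (.box ⟨1974, 0, -2048, 48, -101, 1215, 367934, 0, 0, 0, 0, 0, 0⟩ ⟨0, 0, 0, 0, 0, 0, 184358, 0, 0, 0, 0, 0, 0⟩ ⟨0, 0, 0, 0, 0, 0, 184358, 0, 0, 0, 0, 0, 0⟩ ⟨0, 0, 0, 0, 0, 0, 122993, 0, 0, 0, 0, 0, 0⟩ ⟨0, 0, 0, 0, 0, 0, 122993, 0, 0, 0, 0, 0, 0⟩ ⟨1980, 0, -2048, 166, -340, 1025, 92277, 0, 0, 0, 0, 0, 0⟩)))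
    (.s0
    (.s2
    (.s1
    (.s3
    (.leaf (.box ⟨766, 0, -2048, 13, -63, 918, 381471, 0, 0, 0, 0, 0, 0⟩ ⟨0, 0, 0, 0, 0, 0, 203831, 0, 0, 0, 0, 0, 0⟩ ⟨0, 0, 0, 0, 0, 0, 203831, 0, 0, 0, 0, 0, 0⟩ ⟨0, 0, 0, 0, 0, 0, 139070, 0, 0, 0, 0, 0, 0⟩ ⟨0, 0, 0, 0, 0, 0, 139070, 0, 0, 0, 0, 0, 0⟩ ⟨831, 0, -2048, 43, -209, 845, 105538, 0, 0, 0, 0, 0, 0⟩))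
    (.s2
    (.leaf (.box ⟨513, 0, -2048, 8, -38, 798, 510858, 0, 0, 0, 0, 0, 0⟩ ⟨0, 0, 0, 0, 0, 0, 215523, 0, 0, 0, 0, 0, 0⟩ ⟨0, 0, 0, 0, 0, 0, 215523, 0, 0, 0, 0, 0, 0⟩ ⟨0, 0, 0, 0, 0, 0, 136570, 0, 0, 0, 0, 0, 0⟩ ⟨0, 0, 0, 0, 0, 0, 136570, 0, 0, 0, 0, 0, 0⟩ ⟨529, 1, -2048, 35, -183, 745, 99953, 0, 0, 0, 0, 0, 0⟩))
    (.leaf (.box ⟨548, 0, -2048, 8, -39, 779, 488405, 0, 0, 0, 0, 0, 0⟩ ⟨0, 0, 0, 0, 0, 0, 206439, 0, 0, 0, 0, 0, 0⟩ ⟨0, 0, 0, 0, 0, 0, 206439, 0, 0, 0, 0, 0, 0⟩ ⟨0, 0, 0, 0, 0, 0, 130880, 0, 0, 0, 0, 0, 0⟩ ⟨0, 0, 0, 0, 0, 0, 130880, 0, 0, 0, 0, 0, 0⟩ ⟨577, -1, -2048, 36, -179, 699, 95811, 0, 0, 0, 0, 0, 0⟩))))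
    (.s3
    (.s3
    (.leaf (.box ⟨673, 0, -2048, 8, -45, 692, 375567, 0, 0, 0, 0, 0, 0⟩ ⟨0, 0, 0, 0, 0, 0, 207766, 0, 0, 0, 0, 0, 0⟩ ⟨0, 0, 0, 0, 0, 0, 207766, 0, 0, 0, 0, 0, 0⟩ ⟨0, 0, 0, 0, 0, 0, 143604, 0, 0, 0, 0, 0, 0⟩ ⟨0, 0, 0, 0, 0, 0, 143604, 0, 0, 0, 0, 0, 0⟩ ⟨672, -1, -2048, 29, -159, 719, 109720, 0, 0, 0, 0, 0, 0⟩))
    (.leaf (.box ⟨546, 0, -2048, 6, -39, 689, 421834, 0, 0, 0, 0, 0, 0⟩ ⟨0, 0, 0, 0, 0, 0, 209194, 0, 0, 0, 0, 0, 0⟩ ⟨0, 0, 0, 0, 0, 0, 209194, 0, 0, 0, 0, 0, 0⟩ ⟨0, 0, 0, 0, 0, 0, 139084, 0, 0, 0, 0, 0, 0⟩ ⟨0, 0, 0, 0, 0, 0, 139084, 0, 0, 0, 0, 0, 0⟩ ⟨605, -1, -2048, 27, -152, 672, 104171, 0, 0, 0, 0, 0, 0⟩)))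
    (.leaf (.box ⟨553, 0, -2249, 6, -34, 718, 481012, 0, 0, 0, 0, 0, 0⟩ ⟨0, 0, 0, 0, 0, 0, 203531, 0, 0, 0, 0, 0, 0⟩ ⟨0, 0, 0, 0, 0, 0, 203531, 0, 0, 0, 0, 0, 0⟩ ⟨0, 0, 0, 0, 0, 0, 129073, 0, 0, 0, 0, 0, 0⟩ ⟨0, 0, 0, 0, 0, 0, 129073, 0, 0, 0, 0, 0, 0⟩ ⟨716, -1, -2048, 32, -154, 649, 94501, 0, 0, 0, 0, 0, 0⟩))))
    (.s2
    (.leaf (.box ⟨1011, -1, -2048, 13, -43, 644, 362406, 0, 0, 0, 0, 0, 0⟩ ⟨0, 0, 0, 0, 0, 0, 181773, 0, 0, 0, 0, 0, 0⟩ ⟨0, 0, 0, 0, 0, 0, 181773, 0, 0, 0, 0, 0, 0⟩ ⟨0, 0, 0, 0, 0, 0, 121309, 0, 0, 0, 0, 0, 0⟩ ⟨0, 0, 0, 0, 0, 0, 121309, 0, 0, 0, 0, 0, 0⟩ ⟨911, -5, -2048, 71, -144, 625, 91029, 0, 0, 0, 0, 0, 0⟩))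
    (.leaf (.box ⟨852, -1, -2048, 14, -42, 651, 354360, 0, 0, 0, 0, 0, 0⟩ ⟨0, 0, 0, 0, 0, 0, 177742, 0, 0, 0, 0, 0, 0⟩ ⟨0, 0, 0, 0, 0, 0, 177742, 0, 0, 0, 0, 0, 0⟩ ⟨0, 0, 0, 0, 0, 0, 118620, 0, 0, 0, 0, 0, 0⟩ ⟨0, 0, 0, 0, 0, 0, 118620, 0, 0, 0, 0, 0, 0⟩ ⟨860, -4, -2048, 47, -144, 562, 89012, 0, 0, 0, 0, 0, 0⟩))))
    (.s3
    (.leaf (.box ⟨1239, 0, -2048, 21, -58, 763, 383189, 0, 0, 0, 0, 0, 0⟩ ⟨0, 0, 0, 0, 0, 0, 205137, 0, 0, 0, 0, 0, 0⟩ ⟨0, 0, 0, 0, 0, 0, 205137, 0, 0, 0, 0, 0, 0⟩ ⟨0, 0, 0, 0, 0, 0, 140058, 0, 0, 0, 0, 0, 0⟩ ⟨0, 0, 0, 0, 0, 0, 140058, 0, 0, 0, 0, 0, 0⟩ ⟨1163, 0, -2048, 73, -208, 756, 106326, 0, 0, 0, 0, 0, 0⟩))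
    (.s1
    (.leaf (.box ⟨1021, 0, -2048, 13, -51, 883, 501505, 0, 0, 0, 0, 0, 0⟩ ⟨0, 0, 0, 0, 0, 0, 212275, 0, 0, 0, 0, 0, 0⟩ ⟨0, 0, 0, 0, 0, 0, 212275, 0, 0, 0, 0, 0, 0⟩ ⟨0, 0, 0, 0, 0, 0, 134630, 0, 0, 0, 0, 0, 0⟩ ⟨0, 0, 0, 0, 0, 0, 134630, 0, 0, 0, 0, 0, 0⟩ ⟨1097, 1, -2048, 60, -225, 772, 98574, 0, 0, 0, 0, 0, 0⟩))
    (.s2
    (.leaf (.box ⟨683, 0, -2048, 10, -41, 799, 510090, 0, 0, 0, 0, 0, 0⟩ ⟨0, 0, 0, 0, 0, 0, 215764, 0, 0, 0, 0, 0, 0⟩ ⟨0, 0, 0, 0, 0, 0, 215764, 0, 0, 0, 0, 0, 0⟩ ⟨0, 0, 0, 0, 0, 0, 136819, 0, 0, 0, 0, 0, 0⟩ ⟨0, 0, 0, 0, 0, 0, 136819, 0, 0, 0, 0, 0, 0⟩ ⟨730, 1, -2048, 41, -190, 720, 100168, 0, 0, 0, 0, 0, 0⟩))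
    (.leaf (.box ⟨639, 0, -2048, 8, -36, 674, 491065, 0, 0, 0, 0, 0, 0⟩ ⟨0, 0, 0, 0, 0, 0, 208171, 0, 0, 0, 0, 0, 0⟩ ⟨0, 0, 0, 0, 0, 0, 208171, 0, 0, 0, 0, 0, 0⟩ ⟨0, 0, 0, 0, 0, 0, 132081, 0, 0, 0, 0, 0, 0⟩ ⟨0, 0, 0, 0, 0, 0, 132081, 0, 0, 0, 0, 0, 0⟩ ⟨652, -2, -2048, 36, -156, 582, 96726, 0, 0, 0, 0, 0, 0⟩))))))

/-- A piece of the tree. -/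
noncomputable def tree21 : Tree LeafX :=
  .s3
    (.s1
    (.s2
    (.leaf (.box ⟨454, 0, -2116, 6, -29, 542, 345536, 0, 0, 0, 0, 0, 0⟩ ⟨0, 0, 0, 0, 0, 0, 184582, 0, 0, 0, 0, 0, 0⟩ ⟨0, 0, 0, 0, 0, 0, 184582, 0, 0, 0, 0, 0, 0⟩ ⟨0, 0, 0, 0, 0, 0, 125925, 0, 0, 0, 0, 0, 0⟩ ⟨0, 0, 0, 0, 0, 0, 125925, 0, 0, 0, 0, 0, 0⟩ ⟨471, -1, -2048, 20, -97, 501, 95558, 0, 0, 0, 0, 0, 0⟩))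
    (.leaf (.box ⟨467, -1, -2048, 8, -27, 484, 312410, 0, 0, 0, 0, 0, 0⟩ ⟨0, 0, 0, 0, 0, 0, 167081, 0, 0, 0, 0, 0, 0⟩ ⟨0, 0, 0, 0, 0, 0, 167081, 0, 0, 0, 0, 0, 0⟩ ⟨0, 0, 0, 0, 0, 0, 114034, 0, 0, 0, 0, 0, 0⟩ ⟨0, 0, 0, 0, 0, 0, 114034, 0, 0, 0, 0, 0, 0⟩ ⟨522, -5, -2048, 27, -84, 426, 86553, 0, 0, 0, 0, 0, 0⟩)))
    (.leaf (.box ⟨616, -2, -2048, 6, -24, 446, 310202, 0, 0, 0, 0, 0, 0⟩ ⟨0, 0, 0, 0, 0, 0, 166364, 0, 0, 0, 0, 0, 0⟩ ⟨0, 0, 0, 0, 0, 0, 166364, 0, 0, 0, 0, 0, 0⟩ ⟨0, 0, 0, 0, 0, 0, 113661, 0, 0, 0, 0, 0, 0⟩ ⟨0, 0, 0, 0, 0, 0, 113661, 0, 0, 0, 0, 0, 0⟩ ⟨679, -5, -2048, 20, -79, 405, 86316, 0, 0, 0, 0, 0, 0⟩)))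
    (.leaf (.box ⟨614, -1, -2048, 7, -20, 483, 397966, 0, 0, 0, 0, 0, 0⟩ ⟨0, 0, 0, 0, 0, 0, 168851, 0, 0, 0, 0, 0, 0⟩ ⟨0, 0, 0, 0, 0, 0, 168851, 0, 0, 0, 0, 0, 0⟩ ⟨0, 0, 0, 0, 0, 0, 107159, 0, 0, 0, 0, 0, 0⟩ ⟨0, 0, 0, 0, 0, 0, 107159, 0, 0, 0, 0, 0, 0⟩ ⟨671, -8, -2048, 53, -118, 424, 78483, 0, 0, 0, 0, 0, 0⟩))

/-- A piece of the tree. -/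
noncomputable def tree22 : Tree LeafX :=
  .s2
    (.s2
    (.s0
    (.s1
    (.s3
    (.leaf (.box ⟨446, 0, -2048, 6, -37, 647, 389484, 0, 0, 0, 0, 0, 0⟩ ⟨0, 0, 0, 0, 0, 0, 208075, 0, 0, 0, 0, 0, 0⟩ ⟨0, 0, 0, 0, 0, 0, 208075, 0, 0, 0, 0, 0, 0⟩ ⟨0, 0, 0, 0, 0, 0, 141957, 0, 0, 0, 0, 0, 0⟩ ⟨0, 0, 0, 0, 0, 0, 141957, 0, 0, 0, 0, 0, 0⟩ ⟨458, 0, -2048, 21, -125, 612, 107725, 0, 0, 0, 0, 0, 0⟩))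
    (.leaf (.box ⟨481, 0, -2680, 6, -32, 782, 498621, 0, 0, 0, 0, 0, 0⟩ ⟨0, 0, 0, 0, 0, 0, 210698, 0, 0, 0, 0, 0, 0⟩ ⟨0, 0, 0, 0, 0, 0, 210698, 0, 0, 0, 0, 0, 0⟩ ⟨0, 0, 0, 0, 0, 0, 133570, 0, 0, 0, 0, 0, 0⟩ ⟨0, 0, 0, 0, 0, 0, 133570, 0, 0, 0, 0, 0, 0⟩ ⟨380, 0, -2048, 20, -119, 563, 97777, 0, 0, 0, 0, 0, 0⟩)))
    (.s2
    (.leaf (.box ⟨414, 0, -2052, 6, -27, 554, 397737, 0, 0, 0, 0, 0, 0⟩ ⟨0, 0, 0, 0, 0, 0, 199027, 0, 0, 0, 0, 0, 0⟩ ⟨0, 0, 0, 0, 0, 0, 199027, 0, 0, 0, 0, 0, 0⟩ ⟨0, 0, 0, 0, 0, 0, 132720, 0, 0, 0, 0, 0, 0⟩ ⟨0, 0, 0, 0, 0, 0, 132720, 0, 0, 0, 0, 0, 0⟩ ⟨382, 0, -2048, 36, -123, 541, 99553, 0, 0, 0, 0, 0, 0⟩))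
    (.leaf (.box ⟨455, 0, -2185, 6, -30, 581, 386055, 0, 0, 0, 0, 0, 0⟩ ⟨0, 0, 0, 0, 0, 0, 193445, 0, 0, 0, 0, 0, 0⟩ ⟨0, 0, 0, 0, 0, 0, 193445, 0, 0, 0, 0, 0, 0⟩ ⟨0, 0, 0, 0, 0, 0, 129057, 0, 0, 0, 0, 0, 0⟩ ⟨0, 0, 0, 0, 0, 0, 129057, 0, 0, 0, 0, 0, 0⟩ ⟨439, -1, -2048, 21, -105, 511, 96827, 0, 0, 0, 0, 0, 0⟩))))
    (.s3
    (.s1
    (.leaf (.box ⟨594, 0, -2048, 10, -50, 788, 407981, 0, 0, 0, 0, 0, 0⟩ ⟨0, 0, 0, 0, 0, 0, 217931, 0, 0, 0, 0, 0, 0⟩ ⟨0, 0, 0, 0, 0, 0, 217931, 0, 0, 0, 0, 0, 0⟩ ⟨0, 0, 0, 0, 0, 0, 148674, 0, 0, 0, 0, 0, 0⟩ ⟨0, 0, 0, 0, 0, 0, 148674, 0, 0, 0, 0, 0, 0⟩ ⟨622, 1, -2048, 32, -167, 732, 112820, 0, 0, 0, 0, 0, 0⟩))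
    (.leaf (.box ⟨508, 0, -2048, 8, -39, 671, 402410, 0, 0, 0, 0, 0, 0⟩ ⟨0, 0, 0, 0, 0, 0, 215199, 0, 0, 0, 0, 0, 0⟩ ⟨0, 0, 0, 0, 0, 0, 215199, 0, 0, 0, 0, 0, 0⟩ ⟨0, 0, 0, 0, 0, 0, 146871, 0, 0, 0, 0, 0, 0⟩ ⟨0, 0, 0, 0, 0, 0, 146871, 0, 0, 0, 0, 0, 0⟩ ⟨539, 0, -2048, 26, -132, 625, 111476, 0, 0, 0, 0, 0, 0⟩)))
    (.s1
    (.leaf (.box ⟨475, 0, -2048, 7, -32, 699, 522269, 0, 0, 0, 0, 0, 0⟩ ⟨0, 0, 0, 0, 0, 0, 220650, 0, 0, 0, 0, 0, 0⟩ ⟨0, 0, 0, 0, 0, 0, 220650, 0, 0, 0, 0, 0, 0⟩ ⟨0, 0, 0, 0, 0, 0, 139872, 0, 0, 0, 0, 0, 0⟩ ⟨0, 0, 0, 0, 0, 0, 139872, 0, 0, 0, 0, 0, 0⟩ ⟨506, 1, -2048, 30, -151, 645, 102388, 0, 0, 0, 0, 0, 0⟩))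
    (.leaf (.box ⟨490, 0, -2440, 6, -31, 729, 515427, 0, 0, 0, 0, 0, 0⟩ ⟨0, 0, 0, 0, 0, 0, 218142, 0, 0, 0, 0, 0, 0⟩ ⟨0, 0, 0, 0, 0, 0, 218142, 0, 0, 0, 0, 0, 0⟩ ⟨0, 0, 0, 0, 0, 0, 138347, 0, 0, 0, 0, 0, 0⟩ ⟨0, 0, 0, 0, 0, 0, 138347, 0, 0, 0, 0, 0, 0⟩ ⟨434, 0, -2048, 26, -127, 565, 101294, 0, 0, 0, 0, 0, 0⟩)))))
    (.s0
    (.s2
    (.leaf (.box ⟨578, -1, -2048, 9, -33, 597, 375749, 0, 0, 0, 0, 0, 0⟩ ⟨0, 0, 0, 0, 0, 0, 188502, 0, 0, 0, 0, 0, 0⟩ ⟨0, 0, 0, 0, 0, 0, 188502, 0, 0, 0, 0, 0, 0⟩ ⟨0, 0, 0, 0, 0, 0, 125808, 0, 0, 0, 0, 0, 0⟩ ⟨0, 0, 0, 0, 0, 0, 125808, 0, 0, 0, 0, 0, 0⟩ ⟨783, -3, -2048, 34, -130, 588, 94408, 0, 0, 0, 0, 0, 0⟩))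
    (.leaf (.box ⟨617, -1, -2048, 8, -32, 552, 366820, 0, 0, 0, 0, 0, 0⟩ ⟨0, 0, 0, 0, 0, 0, 184197, 0, 0, 0, 0, 0, 0⟩ ⟨0, 0, 0, 0, 0, 0, 184197, 0, 0, 0, 0, 0, 0⟩ ⟨0, 0, 0, 0, 0, 0, 122974, 0, 0, 0, 0, 0, 0⟩ ⟨0, 0, 0, 0, 0, 0, 122974, 0, 0, 0, 0, 0, 0⟩ ⟨699, -4, -2048, 33, -123, 545, 92296, 0, 0, 0, 0, 0, 0⟩)))
    (.s3
    (.leaf (.box ⟨837, -1, -2048, 12, -41, 626, 385187, 0, 0, 0, 0, 0, 0⟩ ⟨0, 0, 0, 0, 0, 0, 206489, 0, 0, 0, 0, 0, 0⟩ ⟨0, 0, 0, 0, 0, 0, 206489, 0, 0, 0, 0, 0, 0⟩ ⟨0, 0, 0, 0, 0, 0, 141052, 0, 0, 0, 0, 0, 0⟩ ⟨0, 0, 0, 0, 0, 0, 141052, 0, 0, 0, 0, 0, 0⟩ ⟨781, -3, -2048, 39, -145, 620, 107108, 0, 0, 0, 0, 0, 0⟩))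
    (.leaf (.box ⟨609, 0, -2048, 7, -30, 620, 493961, 0, 0, 0, 0, 0, 0⟩ ⟨0, 0, 0, 0, 0, 0, 209839, 0, 0, 0, 0, 0, 0⟩ ⟨0, 0, 0, 0, 0, 0, 209839, 0, 0, 0, 0, 0, 0⟩ ⟨0, 0, 0, 0, 0, 0, 133215, 0, 0, 0, 0, 0, 0⟩ ⟨0, 0, 0, 0, 0, 0, 133215, 0, 0, 0, 0, 0, 0⟩ ⟨628, -3, -2048, 37, -132, 552, 97582, 0, 0, 0, 0, 0, 0⟩)))))
    (.s0
    (.s2
    (.leaf (.box ⟨636, -1, -2048, 8, -31, 523, 353090, 0, 0, 0, 0, 0, 0⟩ ⟨0, 0, 0, 0, 0, 0, 177504, 0, 0, 0, 0, 0, 0⟩ ⟨0, 0, 0, 0, 0, 0, 177504, 0, 0, 0, 0, 0, 0⟩ ⟨0, 0, 0, 0, 0, 0, 118550, 0, 0, 0, 0, 0, 0⟩ ⟨0, 0, 0, 0, 0, 0, 118550, 0, 0, 0, 0, 0, 0⟩ ⟨712, -5, -2048, 33, -116, 504, 88993, 0, 0, 0, 0, 0, 0⟩))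
    (.leaf (.box ⟨583, -1, -2048, 8, -28, 487, 344866, 0, 0, 0, 0, 0, 0⟩ ⟨0, 0, 0, 0, 0, 0, 173365, 0, 0, 0, 0, 0, 0⟩ ⟨0, 0, 0, 0, 0, 0, 173365, 0, 0, 0, 0, 0, 0⟩ ⟨0, 0, 0, 0, 0, 0, 115785, 0, 0, 0, 0, 0, 0⟩ ⟨0, 0, 0, 0, 0, 0, 115785, 0, 0, 0, 0, 0, 0⟩ ⟨603, -5, -2048, 29, -96, 427, 86917, 0, 0, 0, 0, 0, 0⟩)))
    (.s2
    (.leaf (.box ⟨747, -2, -2048, 14, -38, 595, 374502, 0, 0, 0, 0, 0, 0⟩ ⟨0, 0, 0, 0, 0, 0, 188448, 0, 0, 0, 0, 0, 0⟩ ⟨0, 0, 0, 0, 0, 0, 188448, 0, 0, 0, 0, 0, 0⟩ ⟨0, 0, 0, 0, 0, 0, 125901, 0, 0, 0, 0, 0, 0⟩ ⟨0, 0, 0, 0, 0, 0, 125901, 0, 0, 0, 0, 0, 0⟩ ⟨767, -6, -2048, 45, -135, 533, 94526, 0, 0, 0, 0, 0, 0⟩))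
    (.leaf (.box ⟨691, -2, -2048, 12, -34, 538, 370356, 0, 0, 0, 0, 0, 0⟩ ⟨0, 0, 0, 0, 0, 0, 186379, 0, 0, 0, 0, 0, 0⟩ ⟨0, 0, 0, 0, 0, 0, 186379, 0, 0, 0, 0, 0, 0⟩ ⟨0, 0, 0, 0, 0, 0, 124522, 0, 0, 0, 0, 0, 0⟩ ⟨0, 0, 0, 0, 0, 0, 124522, 0, 0, 0, 0, 0, 0⟩ ⟨700, -5, -2048, 38, -118, 472, 93492, 0, 0, 0, 0, 0, 0⟩))))

/-- A piece of the tree. -/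
noncomputable def tree23 : Tree LeafX :=
  .s2
    (.s0
    (.leaf (.box ⟨470, -1, -2062, 6, -23, 465, 361570, 0, 0, 0, 0, 0, 0⟩ ⟨0, 0, 0, 0, 0, 0, 182128, 0, 0, 0, 0, 0, 0⟩ ⟨0, 0, 0, 0, 0, 0, 182128, 0, 0, 0, 0, 0, 0⟩ ⟨0, 0, 0, 0, 0, 0, 121720, 0, 0, 0, 0, 0, 0⟩ ⟨0, 0, 0, 0, 0, 0, 121720, 0, 0, 0, 0, 0, 0⟩ ⟨521, -4, -2048, 23, -85, 430, 91403, 0, 0, 0, 0, 0, 0⟩))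
    (.s2
    (.s1
    (.s3
    (.s2
    (.leaf (.box ⟨397, 0, -2048, 6, -31, 591, 409354, 0, 0, 0, 0, 0, 0⟩ ⟨0, 0, 0, 0, 0, 0, 218800, 0, 0, 0, 0, 0, 0⟩ ⟨0, 0, 0, 0, 0, 0, 218800, 0, 0, 0, 0, 0, 0⟩ ⟨0, 0, 0, 0, 0, 0, 149301, 0, 0, 0, 0, 0, 0⟩ ⟨0, 0, 0, 0, 0, 0, 149301, 0, 0, 0, 0, 0, 0⟩ ⟨407, 0, -2048, 19, -106, 557, 113309, 0, 0, 0, 0, 0, 0⟩))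
    (.leaf (.box ⟨416, -1, -2048, 7, -32, 578, 398026, 0, 0, 0, 0, 0, 0⟩ ⟨0, 0, 0, 0, 0, 0, 213132, 0, 0, 0, 0, 0, 0⟩ ⟨0, 0, 0, 0, 0, 0, 213132, 0, 0, 0, 0, 0, 0⟩ ⟨0, 0, 0, 0, 0, 0, 145530, 0, 0, 0, 0, 0, 0⟩ ⟨0, 0, 0, 0, 0, 0, 145530, 0, 0, 0, 0, 0, 0⟩ ⟨441, -2, -2048, 21, -106, 535, 110485, 0, 0, 0, 0, 0, 0⟩)))
    (.leaf (.box ⟨483, 0, -2773, 6, -29, 738, 510142, 0, 0, 0, 0, 0, 0⟩ ⟨0, 0, 0, 0, 0, 0, 216339, 0, 0, 0, 0, 0, 0⟩ ⟨0, 0, 0, 0, 0, 0, 216339, 0, 0, 0, 0, 0, 0⟩ ⟨0, 0, 0, 0, 0, 0, 137278, 0, 0, 0, 0, 0, 0⟩ ⟨0, 0, 0, 0, 0, 0, 137278, 0, 0, 0, 0, 0, 0⟩ ⟨378, -1, -2048, 20, -101, 505, 100536, 0, 0, 0, 0, 0, 0⟩)))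
    (.s3
    (.leaf (.box ⟨400, -1, -2160, 6, -28, 548, 394700, 0, 0, 0, 0, 0, 0⟩ ⟨0, 0, 0, 0, 0, 0, 211674, 0, 0, 0, 0, 0, 0⟩ ⟨0, 0, 0, 0, 0, 0, 211674, 0, 0, 0, 0, 0, 0⟩ ⟨0, 0, 0, 0, 0, 0, 144615, 0, 0, 0, 0, 0, 0⟩ ⟨0, 0, 0, 0, 0, 0, 144615, 0, 0, 0, 0, 0, 0⟩ ⟨410, -2, -2048, 17, -88, 485, 109822, 0, 0, 0, 0, 0, 0⟩))
    (.leaf (.box ⟨461, -1, -2950, 6, -26, 711, 506261, 0, 0, 0, 0, 0, 0⟩ ⟨0, 0, 0, 0, 0, 0, 215197, 0, 0, 0, 0, 0, 0⟩ ⟨0, 0, 0, 0, 0, 0, 215197, 0, 0, 0, 0, 0, 0⟩ ⟨0, 0, 0, 0, 0, 0, 136639, 0, 0, 0, 0, 0, 0⟩ ⟨0, 0, 0, 0, 0, 0, 136639, 0, 0, 0, 0, 0, 0⟩ ⟨343, -2, -2048, 17, -84, 458, 100098, 0, 0, 0, 0, 0, 0⟩))))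
    (.s1
    (.leaf (.box ⟨507, -1, -2048, 7, -30, 529, 380470, 0, 0, 0, 0, 0, 0⟩ ⟨0, 0, 0, 0, 0, 0, 191528, 0, 0, 0, 0, 0, 0⟩ ⟨0, 0, 0, 0, 0, 0, 191528, 0, 0, 0, 0, 0, 0⟩ ⟨0, 0, 0, 0, 0, 0, 127975, 0, 0, 0, 0, 0, 0⟩ ⟨0, 0, 0, 0, 0, 0, 127975, 0, 0, 0, 0, 0, 0⟩ ⟨524, -4, -2048, 27, -108, 486, 96090, 0, 0, 0, 0, 0, 0⟩))
    (.leaf (.box ⟨446, -1, -2048, 6, -25, 473, 376840, 0, 0, 0, 0, 0, 0⟩ ⟨0, 0, 0, 0, 0, 0, 190094, 0, 0, 0, 0, 0, 0⟩ ⟨0, 0, 0, 0, 0, 0, 190094, 0, 0, 0, 0, 0, 0⟩ ⟨0, 0, 0, 0, 0, 0, 127106, 0, 0, 0, 0, 0, 0⟩ ⟨0, 0, 0, 0, 0, 0, 127106, 0, 0, 0, 0, 0, 0⟩ ⟨479, -5, -2048, 22, -89, 427, 95471, 0, 0, 0, 0, 0, 0⟩)))))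
    (.s0
    (.leaf (.box ⟨492, -2, -2048, 7, -22, 411, 338559, 0, 0, 0, 0, 0, 0⟩ ⟨490, -3, -2048, 10, -38, 394, 189199, 0, 0, 0, 0, 0, 0⟩ ⟨490, -3, -2048, 10, -38, 394, 189199, 0, 0, 0, 0, 0, 0⟩ ⟨502, -5, -2048, 16, -55, 379, 122841, 0, 0, 0, 0, 0, 0⟩ ⟨502, -5, -2048, 16, -55, 379, 122841, 0, 0, 0, 0, 0, 0⟩ ⟨512, -7, -2048, 23, -75, 365, 85916, 0, 0, 0, 0, 0, 0⟩))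
    (.s2
    (.leaf (.box ⟨567, -2, -2048, 8, -27, 461, 366031, 0, 0, 0, 0, 0, 0⟩ ⟨0, 0, 0, 0, 0, 0, 184995, 0, 0, 0, 0, 0, 0⟩ ⟨0, 0, 0, 0, 0, 0, 184995, 0, 0, 0, 0, 0, 0⟩ ⟨0, 0, 0, 0, 0, 0, 123776, 0, 0, 0, 0, 0, 0⟩ ⟨0, 0, 0, 0, 0, 0, 123776, 0, 0, 0, 0, 0, 0⟩ ⟨621, -8, -2048, 31, -97, 436, 93000, 0, 0, 0, 0, 0, 0⟩))
    (.leaf (.box ⟨494, -2, -2048, 7, -25, 428, 362271, 0, 0, 0, 0, 0, 0⟩ ⟨0, 0, 0, 0, 0, 0, 183124, 0, 0, 0, 0, 0, 0⟩ ⟨0, 0, 0, 0, 0, 0, 183124, 0, 0, 0, 0, 0, 0⟩ ⟨0, 0, 0, 0, 0, 0, 122531, 0, 0, 0, 0, 0, 0⟩ ⟨0, 0, 0, 0, 0, 0, 122531, 0, 0, 0, 0, 0, 0⟩ ⟨511, -7, -2048, 26, -84, 380, 92067, 0, 0, 0, 0, 0, 0⟩))))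

/-- A piece of the tree. -/
noncomputable def tree24 : Tree LeafX :=
  .s2
    (.s2
    (.leaf (.box ⟨2048, 18, -785, 97, -114, 1040, 444265, 0, 0, 0, 0, 0, 0⟩ ⟨0, 0, 0, 0, 0, 0, 221657, 0, 0, 0, 0, 0, 0⟩ ⟨0, 0, 0, 0, 0, 0, 221657, 0, 0, 0, 0, 0, 0⟩ ⟨0, 0, 0, 0, 0, 0, 147666, 0, 0, 0, 0, 0, 0⟩ ⟨0, 0, 0, 0, 0, 0, 147666, 0, 0, 0, 0, 0, 0⟩ ⟨2048, 77, -1632, 386, -664, 1184, 110710, 0, 0, 0, 0, 0, 0⟩))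
    (.leaf (.box ⟨2048, 12, -805, 87, -107, 963, 429623, 0, 0, 0, 0, 0, 0⟩ ⟨0, 0, 0, 0, 0, 0, 215027, 0, 0, 0, 0, 0, 0⟩ ⟨0, 0, 0, 0, 0, 0, 215027, 0, 0, 0, 0, 0, 0⟩ ⟨0, 0, 0, 0, 0, 0, 143399, 0, 0, 0, 0, 0, 0⟩ ⟨0, 0, 0, 0, 0, 0, 143399, 0, 0, 0, 0, 0, 0⟩ ⟨2048, 47, -1309, 304, -493, 976, 107567, 0, 0, 0, 0, 0, 0⟩)))
    (.leaf (.box ⟨2048, 6, -1008, 80, -90, 835, 419647, 0, 0, 0, 0, 0, 0⟩ ⟨0, 0, 0, 0, 0, 0, 210523, 0, 0, 0, 0, 0, 0⟩ ⟨0, 0, 0, 0, 0, 0, 210523, 0, 0, 0, 0, 0, 0⟩ ⟨0, 0, 0, 0, 0, 0, 140505, 0, 0, 0, 0, 0, 0⟩ ⟨0, 0, 0, 0, 0, 0, 140505, 0, 0, 0, 0, 0, 0⟩ ⟨2048, 26, -1731, 299, -439, 891, 105437, 0, 0, 0, 0, 0, 0⟩))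

/-- A piece of the tree. -/
noncomputable def tree25 : Tree LeafX :=
  .s0
    (.s2
    (.s3
    (.leaf (.box ⟨1019, 0, -2048, 16, -50, 691, 410968, 0, 0, 0, 0, 0, 0⟩ ⟨0, 0, 0, 0, 0, 0, 220294, 0, 0, 0, 0, 0, 0⟩ ⟨0, 0, 0, 0, 0, 0, 220294, 0, 0, 0, 0, 0, 0⟩ ⟨0, 0, 0, 0, 0, 0, 150477, 0, 0, 0, 0, 0, 0⟩ ⟨0, 0, 0, 0, 0, 0, 150477, 0, 0, 0, 0, 0, 0⟩ ⟨992, 1, -2048, 54, -170, 659, 114264, 0, 0, 0, 0, 0, 0⟩))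
    (.s0
    (.leaf (.box ⟨693, 0, -2048, 8, -33, 662, 527003, 0, 0, 0, 0, 0, 0⟩ ⟨0, 0, 0, 0, 0, 0, 223850, 0, 0, 0, 0, 0, 0⟩ ⟨0, 0, 0, 0, 0, 0, 223850, 0, 0, 0, 0, 0, 0⟩ ⟨0, 0, 0, 0, 0, 0, 142106, 0, 0, 0, 0, 0, 0⟩ ⟨0, 0, 0, 0, 0, 0, 142106, 0, 0, 0, 0, 0, 0⟩ ⟨692, 0, -2048, 41, -165, 613, 104093, 0, 0, 0, 0, 0, 0⟩))
    (.leaf (.box ⟨788, 0, -2048, 10, -41, 789, 547742, 0, 0, 0, 0, 0, 0⟩ ⟨0, 0, 0, 0, 0, 0, 232531, 0, 0, 0, 0, 0, 0⟩ ⟨0, 0, 0, 0, 0, 0, 232531, 0, 0, 0, 0, 0, 0⟩ ⟨0, 0, 0, 0, 0, 0, 147594, 0, 0, 0, 0, 0, 0⟩ ⟨0, 0, 0, 0, 0, 0, 147594, 0, 0, 0, 0, 0, 0⟩ ⟨763, 1, -2048, 42, -172, 646, 108106, 0, 0, 0, 0, 0, 0⟩))))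
    (.leaf (.box ⟨914, -1, -2048, 15, -46, 645, 402113, 0, 0, 0, 0, 0, 0⟩ ⟨0, 0, 0, 0, 0, 0, 202481, 0, 0, 0, 0, 0, 0⟩ ⟨0, 0, 0, 0, 0, 0, 202481, 0, 0, 0, 0, 0, 0⟩ ⟨0, 0, 0, 0, 0, 0, 135307, 0, 0, 0, 0, 0, 0⟩ ⟨0, 0, 0, 0, 0, 0, 135307, 0, 0, 0, 0, 0, 0⟩ ⟨934, -9, -2048, 91, -124, 564, 101600, 0, 0, 0, 0, 0, 0⟩)))
    (.leaf (.box ⟨1233, 0, -2048, 26, -61, 782, 438925, 0, 0, 0, 0, 0, 0⟩ ⟨0, 0, 0, 0, 0, 0, 220722, 0, 0, 0, 0, 0, 0⟩ ⟨0, 0, 0, 0, 0, 0, 220722, 0, 0, 0, 0, 0, 0⟩ ⟨0, 0, 0, 0, 0, 0, 147430, 0, 0, 0, 0, 0, 0⟩ ⟨0, 0, 0, 0, 0, 0, 147430, 0, 0, 0, 0, 0, 0⟩ ⟨1274, 0, -2048, 136, -174, 690, 110678, 0, 0, 0, 0, 0, 0⟩))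

/-- A piece of the tree. -/
noncomputable def tree26 : Tree LeafX :=
  .s2
    (.s0
    (.s2
    (.s3
    (.s1
    (.leaf (.box ⟨548, 0, -2048, 9, -43, 704, 419332, 0, 0, 0, 0, 0, 0⟩ ⟨0, 0, 0, 0, 0, 0, 224517, 0, 0, 0, 0, 0, 0⟩ ⟨0, 0, 0, 0, 0, 0, 224517, 0, 0, 0, 0, 0, 0⟩ ⟨0, 0, 0, 0, 0, 0, 153298, 0, 0, 0, 0, 0, 0⟩ ⟨0, 0, 0, 0, 0, 0, 153298, 0, 0, 0, 0, 0, 0⟩ ⟨594, 0, -2048, 29, -143, 648, 116380, 0, 0, 0, 0, 0, 0⟩))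
    (.s2
    (.leaf (.box ⟨445, 0, -2048, 7, -34, 626, 424904, 0, 0, 0, 0, 0, 0⟩ ⟨0, 0, 0, 0, 0, 0, 227391, 0, 0, 0, 0, 0, 0⟩ ⟨0, 0, 0, 0, 0, 0, 227391, 0, 0, 0, 0, 0, 0⟩ ⟨0, 0, 0, 0, 0, 0, 155232, 0, 0, 0, 0, 0, 0⟩ ⟨0, 0, 0, 0, 0, 0, 155232, 0, 0, 0, 0, 0, 0⟩ ⟨467, -1, -2048, 25, -114, 581, 117838, 0, 0, 0, 0, 0, 0⟩))
    (.leaf (.box ⟨459, -1, -2048, 8, -35, 608, 413990, 0, 0, 0, 0, 0, 0⟩ ⟨0, 0, 0, 0, 0, 0, 222085, 0, 0, 0, 0, 0, 0⟩ ⟨0, 0, 0, 0, 0, 0, 222085, 0, 0, 0, 0, 0, 0⟩ ⟨0, 0, 0, 0, 0, 0, 151744, 0, 0, 0, 0, 0, 0⟩ ⟨0, 0, 0, 0, 0, 0, 151744, 0, 0, 0, 0, 0, 0⟩ ⟨477, -2, -2048, 24, -114, 555, 115243, 0, 0, 0, 0, 0, 0⟩))))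
    (.s2
    (.s1
    (.leaf (.box ⟨421, 0, -2048, 6, -28, 645, 550558, 0, 0, 0, 0, 0, 0⟩ ⟨0, 0, 0, 0, 0, 0, 232686, 0, 0, 0, 0, 0, 0⟩ ⟨0, 0, 0, 0, 0, 0, 232686, 0, 0, 0, 0, 0, 0⟩ ⟨0, 0, 0, 0, 0, 0, 147515, 0, 0, 0, 0, 0, 0⟩ ⟨0, 0, 0, 0, 0, 0, 147515, 0, 0, 0, 0, 0, 0⟩ ⟨431, 0, -2048, 28, -129, 591, 107988, 0, 0, 0, 0, 0, 0⟩))
    (.s2
    (.leaf (.box ⟨422, 0, -2471, 6, -27, 699, 552086, 0, 0, 0, 0, 0, 0⟩ ⟨0, 0, 0, 0, 0, 0, 233442, 0, 0, 0, 0, 0, 0⟩ ⟨0, 0, 0, 0, 0, 0, 233442, 0, 0, 0, 0, 0, 0⟩ ⟨0, 0, 0, 0, 0, 0, 148014, 0, 0, 0, 0, 0, 0⟩ ⟨0, 0, 0, 0, 0, 0, 148014, 0, 0, 0, 0, 0, 0⟩ ⟨350, 0, -2048, 22, -105, 535, 108359, 0, 0, 0, 0, 0, 0⟩))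
    (.leaf (.box ⟨480, 0, -2769, 6, -31, 775, 544431, 0, 0, 0, 0, 0, 0⟩ ⟨0, 0, 0, 0, 0, 0, 230671, 0, 0, 0, 0, 0, 0⟩ ⟨0, 0, 0, 0, 0, 0, 230671, 0, 0, 0, 0, 0, 0⟩ ⟨0, 0, 0, 0, 0, 0, 146336, 0, 0, 0, 0, 0, 0⟩ ⟨0, 0, 0, 0, 0, 0, 146336, 0, 0, 0, 0, 0, 0⟩ ⟨360, -1, -2048, 23, -105, 523, 107158, 0, 0, 0, 0, 0, 0⟩))))
    (.leaf (.box ⟨526, 0, -2048, 7, -26, 594, 531083, 0, 0, 0, 0, 0, 0⟩ ⟨0, 0, 0, 0, 0, 0, 225852, 0, 0, 0, 0, 0, 0⟩ ⟨0, 0, 0, 0, 0, 0, 225852, 0, 0, 0, 0, 0, 0⟩ ⟨0, 0, 0, 0, 0, 0, 143422, 0, 0, 0, 0, 0, 0⟩ ⟨0, 0, 0, 0, 0, 0, 143422, 0, 0, 0, 0, 0, 0⟩ ⟨532, -2, -2048, 33, -117, 534, 105073, 0, 0, 0, 0, 0, 0⟩))))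
    (.s3
    (.leaf (.box ⟨722, -1, -2048, 10, -36, 563, 398545, 0, 0, 0, 0, 0, 0⟩ ⟨0, 0, 0, 0, 0, 0, 214612, 0, 0, 0, 0, 0, 0⟩ ⟨0, 0, 0, 0, 0, 0, 214612, 0, 0, 0, 0, 0, 0⟩ ⟨0, 0, 0, 0, 0, 0, 146843, 0, 0, 0, 0, 0, 0⟩ ⟨0, 0, 0, 0, 0, 0, 146843, 0, 0, 0, 0, 0, 0⟩ ⟨715, -5, -2048, 37, -123, 545, 111601, 0, 0, 0, 0, 0, 0⟩))
    (.leaf (.box ⟨593, -1, -2048, 8, -26, 558, 512237, 0, 0, 0, 0, 0, 0⟩ ⟨0, 0, 0, 0, 0, 0, 219106, 0, 0, 0, 0, 0, 0⟩ ⟨0, 0, 0, 0, 0, 0, 219106, 0, 0, 0, 0, 0, 0⟩ ⟨0, 0, 0, 0, 0, 0, 139358, 0, 0, 0, 0, 0, 0⟩ ⟨0, 0, 0, 0, 0, 0, 139358, 0, 0, 0, 0, 0, 0⟩ ⟨588, -5, -2048, 34, -113, 492, 102170, 0, 0, 0, 0, 0, 0⟩))))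
    (.s3
    (.s3
    (.leaf (.box ⟨911, -1, -2048, 16, -56, 786, 428034, 0, 0, 0, 0, 0, 0⟩ ⟨0, 0, 0, 0, 0, 0, 238530, 0, 0, 0, 0, 0, 0⟩ ⟨0, 0, 0, 0, 0, 0, 238530, 0, 0, 0, 0, 0, 0⟩ ⟨0, 0, 0, 0, 0, 0, 165333, 0, 0, 0, 0, 0, 0⟩ ⟨0, 0, 0, 0, 0, 0, 165333, 0, 0, 0, 0, 0, 0⟩ ⟨786, -2, -2048, 48, -158, 658, 126510, 0, 0, 0, 0, 0, 0⟩))
    (.leaf (.box ⟨846, 0, -2048, 12, -45, 739, 482088, 0, 0, 0, 0, 0, 0⟩ ⟨0, 0, 0, 0, 0, 0, 241156, 0, 0, 0, 0, 0, 0⟩ ⟨0, 0, 0, 0, 0, 0, 241156, 0, 0, 0, 0, 0, 0⟩ ⟨0, 0, 0, 0, 0, 0, 160796, 0, 0, 0, 0, 0, 0⟩ ⟨0, 0, 0, 0, 0, 0, 160796, 0, 0, 0, 0, 0, 0⟩ ⟨759, -3, -2048, 79, -116, 614, 120606, 0, 0, 0, 0, 0, 0⟩)))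
    (.s1
    (.leaf (.box ⟨684, 0, -2048, 9, -38, 724, 560006, 0, 0, 0, 0, 0, 0⟩ ⟨0, 0, 0, 0, 0, 0, 238482, 0, 0, 0, 0, 0, 0⟩ ⟨0, 0, 0, 0, 0, 0, 238482, 0, 0, 0, 0, 0, 0⟩ ⟨0, 0, 0, 0, 0, 0, 151500, 0, 0, 0, 0, 0, 0⟩ ⟨0, 0, 0, 0, 0, 0, 151500, 0, 0, 0, 0, 0, 0⟩ ⟨677, 0, -2048, 39, -156, 595, 111010, 0, 0, 0, 0, 0, 0⟩))
    (.s2
    (.leaf (.box ⟨493, 0, -2048, 7, -31, 669, 565972, 0, 0, 0, 0, 0, 0⟩ ⟨0, 0, 0, 0, 0, 0, 240467, 0, 0, 0, 0, 0, 0⟩ ⟨0, 0, 0, 0, 0, 0, 240467, 0, 0, 0, 0, 0, 0⟩ ⟨0, 0, 0, 0, 0, 0, 152666, 0, 0, 0, 0, 0, 0⟩ ⟨0, 0, 0, 0, 0, 0, 152666, 0, 0, 0, 0, 0, 0⟩ ⟨559, 0, -2048, 30, -131, 559, 111832, 0, 0, 0, 0, 0, 0⟩))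
    (.leaf (.box ⟨528, -1, -2048, 8, -30, 611, 550676, 0, 0, 0, 0, 0, 0⟩ ⟨0, 0, 0, 0, 0, 0, 235529, 0, 0, 0, 0, 0, 0⟩ ⟨0, 0, 0, 0, 0, 0, 235529, 0, 0, 0, 0, 0, 0⟩ ⟨0, 0, 0, 0, 0, 0, 149800, 0, 0, 0, 0, 0, 0⟩ ⟨0, 0, 0, 0, 0, 0, 149800, 0, 0, 0, 0, 0, 0⟩ ⟨527, -4, -2048, 31, -131, 532, 109825, 0, 0, 0, 0, 0, 0⟩))))))
    (.s0
    (.s3
    (.leaf (.box ⟨689, -2, -2048, 10, -34, 510, 390219, 0, 0, 0, 0, 0, 0⟩ ⟨0, 0, 0, 0, 0, 0, 210667, 0, 0, 0, 0, 0, 0⟩ ⟨0, 0, 0, 0, 0, 0, 210667, 0, 0, 0, 0, 0, 0⟩ ⟨0, 0, 0, 0, 0, 0, 144280, 0, 0, 0, 0, 0, 0⟩ ⟨0, 0, 0, 0, 0, 0, 144280, 0, 0, 0, 0, 0, 0⟩ ⟨700, -8, -2048, 35, -105, 455, 109707, 0, 0, 0, 0, 0, 0⟩))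
    (.leaf (.box ⟨608, -1, -2048, 7, -23, 478, 502180, 0, 0, 0, 0, 0, 0⟩ ⟨0, 0, 0, 0, 0, 0, 215643, 0, 0, 0, 0, 0, 0⟩ ⟨0, 0, 0, 0, 0, 0, 215643, 0, 0, 0, 0, 0, 0⟩ ⟨0, 0, 0, 0, 0, 0, 137301, 0, 0, 0, 0, 0, 0⟩ ⟨0, 0, 0, 0, 0, 0, 137301, 0, 0, 0, 0, 0, 0⟩ ⟨607, -7, -2048, 32, -98, 419, 100712, 0, 0, 0, 0, 0, 0⟩)))
    (.s2
    (.leaf (.box ⟨733, -2, -2048, 14, -42, 600, 425325, 0, 0, 0, 0, 0, 0⟩ ⟨0, 0, 0, 0, 0, 0, 215120, 0, 0, 0, 0, 0, 0⟩ ⟨0, 0, 0, 0, 0, 0, 215120, 0, 0, 0, 0, 0, 0⟩ ⟨0, 0, 0, 0, 0, 0, 143968, 0, 0, 0, 0, 0, 0⟩ ⟨0, 0, 0, 0, 0, 0, 143968, 0, 0, 0, 0, 0, 0⟩ ⟨748, -8, -2048, 51, -143, 526, 108185, 0, 0, 0, 0, 0, 0⟩))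
    (.leaf (.box ⟨637, -2, -2048, 11, -37, 523, 425816, 0, 0, 0, 0, 0, 0⟩ ⟨0, 0, 0, 0, 0, 0, 215522, 0, 0, 0, 0, 0, 0⟩ ⟨0, 0, 0, 0, 0, 0, 215522, 0, 0, 0, 0, 0, 0⟩ ⟨0, 0, 0, 0, 0, 0, 144272, 0, 0, 0, 0, 0, 0⟩ ⟨0, 0, 0, 0, 0, 0, 144272, 0, 0, 0, 0, 0, 0⟩ ⟨653, -7, -2048, 41, -126, 464, 108426, 0, 0, 0, 0, 0, 0⟩))))

theorem parts0 :
    (runPathS conQ supQ (fun n Qs i d x => leafR conQ seg n Qs i d x) [.d0 false, .d1 false, .d2 false, .d0 false, .d1 false, .d0 false, .d1 false, .d0 false, .d1 false, .d2 false, .d1 false, .d2 false, .d0 false] tree0 0 0 0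
      (joinS (lay.B * lay.size) rootQ) = true) ∧
    (runPathS conQ supQ (fun n Qs i d x => leafR conQ seg n Qs i d x) [.d0 false, .d1 false, .d2 false, .d0 false, .d1 false, .d0 false, .d1 false, .d0 false, .d1 false, .d2 false, .d1 false, .d2 false, .d0 true] tree1 0 0 0
      (joinS (lay.B * lay.size) rootQ) = true) ∧
    (runPathS conQ supQ (fun n Qs i d x => leafR conQ seg n Qs i d x) [.d0 false, .d1 false, .d2 false, .d0 false, .d1 false, .d0 false, .d1 false, .d0 false, .d1 false, .d2 false, .d1 false, .d2 true] tree2 0 0 0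
      (joinS (lay.B * lay.size) rootQ) = true) ∧
    (runPathS conQ supQ (fun n Qs i d x => leafR conQ seg n Qs i d x) [.d0 false, .d1 false, .d2 false, .d0 false, .d1 false, .d0 false, .d1 false, .d0 false, .d1 false, .d2 false, .d1 true] tree3 0 0 0
      (joinS (lay.B * lay.size) rootQ) = true) ∧
    (runPathS conQ supQ (fun n Qs i d x => leafR conQ seg n Qs i d x) [.d0 false, .d1 false, .d2 false, .d0 false, .d1 false, .d0 false, .d1 false, .d0 false, .d1 false, .d2 true] tree4 0 0 0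
      (joinS (lay.B * lay.size) rootQ) = true) ∧
    (runPathS conQ supQ (fun n Qs i d x => leafR conQ seg n Qs i d x) [.d0 false, .d1 false, .d2 false, .d0 false, .d1 false, .d0 false, .d1 false, .d0 false, .d1 true] tree5 0 0 0
      (joinS (lay.B * lay.size) rootQ) = true) ∧
    (runPathS conQ supQ (fun n Qs i d x => leafR conQ seg n Qs i d x) [.d0 false, .d1 false, .d2 false, .d0 false, .d1 false, .d0 false, .d1 false, .d0 true, .d2 false, .d1 false] tree6 0 0 0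
      (joinS (lay.B * lay.size) rootQ) = true) ∧
    (runPathS conQ supQ (fun n Qs i d x => leafR conQ seg n Qs i d x) [.d0 false, .d1 false, .d2 false, .d0 false, .d1 false, .d0 false, .d1 false, .d0 true, .d2 false, .d1 true, .d0 false] tree7 0 0 0
      (joinS (lay.B * lay.size) rootQ) = true) ∧
    (runPathS conQ supQ (fun n Qs i d x => leafR conQ seg n Qs i d x) [.d0 false, .d1 false, .d2 false, .d0 false, .d1 false, .d0 false, .d1 false, .d0 true, .d2 false, .d1 true, .d0 true] tree8 0 0 0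
      (joinS (lay.B * lay.size) rootQ) = true) ∧
    (runPathS conQ supQ (fun n Qs i d x => leafR conQ seg n Qs i d x) [.d0 false, .d1 false, .d2 false, .d0 false, .d1 false, .d0 false, .d1 false, .d0 true, .d2 true] tree9 0 0 0
      (joinS (lay.B * lay.size) rootQ) = true) ∧
    (runPathS conQ supQ (fun n Qs i d x => leafR conQ seg n Qs i d x) [.d0 false, .d1 false, .d2 false, .d0 false, .d1 false, .d0 false, .d1 true] tree10 0 0 0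
      (joinS (lay.B * lay.size) rootQ) = true) ∧
    (runPathS conQ supQ (fun n Qs i d x => leafR conQ seg n Qs i d x) [.d0 false, .d1 false, .d2 false, .d0 false, .d1 false, .d0 true, .d1 false] tree11 0 0 0
      (joinS (lay.B * lay.size) rootQ) = true) ∧
    (runPathS conQ supQ (fun n Qs i d x => leafR conQ seg n Qs i d x) [.d0 false, .d1 false, .d2 false, .d0 false, .d1 false, .d0 true, .d1 true, .d0 false, .d1 false, .d2 false] tree12 0 0 0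
      (joinS (lay.B * lay.size) rootQ) = true) ∧
    (runPathS conQ supQ (fun n Qs i d x => leafR conQ seg n Qs i d x) [.d0 false, .d1 false, .d2 false, .d0 false, .d1 false, .d0 true, .d1 true, .d0 false, .d1 false, .d2 true] tree13 0 0 0
      (joinS (lay.B * lay.size) rootQ) = true) ∧
    (runPathS conQ supQ (fun n Qs i d x => leafR conQ seg n Qs i d x) [.d0 false, .d1 false, .d2 false, .d0 false, .d1 false, .d0 true, .d1 true, .d0 false, .d1 true] tree14 0 0 0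
      (joinS (lay.B * lay.size) rootQ) = true) ∧
    (runPathS conQ supQ (fun n Qs i d x => leafR conQ seg n Qs i d x) [.d0 false, .d1 false, .d2 false, .d0 false, .d1 false, .d0 true, .d1 true, .d0 true] tree15 0 0 0
      (joinS (lay.B * lay.size) rootQ) = true) ∧
    (runPathS conQ supQ (fun n Qs i d x => leafR conQ seg n Qs i d x) [.d0 false, .d1 false, .d2 false, .d0 false, .d1 true] tree16 0 0 0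
      (joinS (lay.B * lay.size) rootQ) = true) ∧
    (runPathS conQ supQ (fun n Qs i d x => leafR conQ seg n Qs i d x) [.d0 false, .d1 false, .d2 false, .d0 true, .d1 false] tree17 0 0 0
      (joinS (lay.B * lay.size) rootQ) = true) ∧
    (runPathS conQ supQ (fun n Qs i d x => leafR conQ seg n Qs i d x) [.d0 false, .d1 false, .d2 false, .d0 true, .d1 true, .d0 false, .d1 false, .d0 false, .d1 false] tree18 0 0 0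
      (joinS (lay.B * lay.size) rootQ) = true) ∧
    (runPathS conQ supQ (fun n Qs i d x => leafR conQ seg n Qs i d x) [.d0 false, .d1 false, .d2 false, .d0 true, .d1 true, .d0 false, .d1 false, .d0 false, .d1 true] tree19 0 0 0
      (joinS (lay.B * lay.size) rootQ) = true) ∧
    (runPathS conQ supQ (fun n Qs i d x => leafR conQ seg n Qs i d x) [.d0 false, .d1 false, .d2 false, .d0 true, .d1 true, .d0 false, .d1 false, .d0 true] tree20 0 0 0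
      (joinS (lay.B * lay.size) rootQ) = true) ∧
    (runPathS conQ supQ (fun n Qs i d x => leafR conQ seg n Qs i d x) [.d0 false, .d1 false, .d2 false, .d0 true, .d1 true, .d0 false, .d1 true, .d0 false] tree21 0 0 0
      (joinS (lay.B * lay.size) rootQ) = true) ∧
    (runPathS conQ supQ (fun n Qs i d x => leafR conQ seg n Qs i d x) [.d0 false, .d1 false, .d2 false, .d0 true, .d1 true, .d0 false, .d1 true, .d0 true, .d1 false] tree22 0 0 0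
      (joinS (lay.B * lay.size) rootQ) = true) ∧
    (runPathS conQ supQ (fun n Qs i d x => leafR conQ seg n Qs i d x) [.d0 false, .d1 false, .d2 false, .d0 true, .d1 true, .d0 false, .d1 true, .d0 true, .d1 true] tree23 0 0 0
      (joinS (lay.B * lay.size) rootQ) = true) ∧
    (runPathS conQ supQ (fun n Qs i d x => leafR conQ seg n Qs i d x) [.d0 false, .d1 false, .d2 false, .d0 true, .d1 true, .d0 true, .d1 false] tree24 0 0 0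
      (joinS (lay.B * lay.size) rootQ) = true) ∧
    (runPathS conQ supQ (fun n Qs i d x => leafR conQ seg n Qs i d x) [.d0 false, .d1 false, .d2 false, .d0 true, .d1 true, .d0 true, .d1 true, .d0 false, .d1 false] tree25 0 0 0
      (joinS (lay.B * lay.size) rootQ) = true) ∧
    (runPathS conQ supQ (fun n Qs i d x => leafR conQ seg n Qs i d x) [.d0 false, .d1 false, .d2 false, .d0 true, .d1 true, .d0 true, .d1 true, .d0 false, .d1 true] tree26 0 0 0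
      (joinS (lay.B * lay.size) rootQ) = true) :=
  ⟨by decide +kernel,
  by decide +kernel,
  by decide +kernel,
  by decide +kernel,
  by decide +kernel,
  by decide +kernel,
  by decide +kernel,
  by decide +kernel,
  by decide +kernel,
  by decide +kernel,
  by decide +kernel,
  by decide +kernel,
  by decide +kernel,
  by decide +kernel,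
  by decide +kernel,
  by decide +kernel,
  by decide +kernel,
  by decide +kernel,
  by decide +kernel,
  by decide +kernel,
  by decide +kernel,
  by decide +kernel,
  by decide +kernel,
  by decide +kernel,
  by decide +kernel,
  by decide +kernel,
  by decide +kernel⟩

end Vale.Agent.P098.Six.S4
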